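import Vale.Agent.P082.Core.AssemblyTypes

/-!
# The averaging theorem from its modules

Order of choices: harmonic length, polynomial and patterns, number of blocks, smallest scale,
number of scales, walk length, number of atoms, degree and precision, atoms, scale.
-/

noncomputable section

namespace Vale.Agent.P082

open scoped InnerProductSpace BigOperators Topology
open Finset Filter

universe u v

namespace Asm

variable {A : Type u} {V : Type v} [CStarAlgebra A] [NormedAddCommGroup V] [InnerProductSpace ℂ V]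
variable (T : Tr A V)

/-- A quotient by a large natural number is small. -/
lemma eventually_div_le (c : ℝ) {e : ℝ} (he : 0 < e) : ∀ᶠ n : ℕ in atTop, c / n ≤ e :=
  (tendsto_const_div_atTop_nhds_zero_nat c).eventually (ge_mem_nhds he)

end Asm

open Asm in
/-- The averaging theorem from its modules. -/
theorem meanOut {A : Type u} {V : Type v} [CStarAlgebra A] [NormedAddCommGroup V]
    [InnerProductSpace ℂ V] (T : Tr A V) (hW : WalkOut.{u}) (hS : T.ScalarOut) (hI : T.InjOut)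
    (hC : T.CrossOut) (hD : T.DiagOut) (hP : PairOut A) (hE : T.ExpandOut) (hR : T.ReplaceOut)
    (hPow : PowOut A) (hF : T.HasFree) : T.MeanOut := by
  classical
  intro p U q F z hFc ε hε
  -- one more map, for the normalisation
  let Fx : Fin (q + 1) → A →L[ℂ] A := Fin.cons (ContinuousLinearMap.id ℂ A) F
  let zx : Fin (q + 1) → A := Fin.cons 1 z
  have hFx : ∀ i, T.Cont2 (Fx i) := by
    refine Fin.cases ?_ ?_
    · exact fun e he => ⟨e, he, fun a _ h => by simpa [Fx] using h⟩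
    · exact fun i => by simpa [Fx] using hFc i
  obtain ⟨C, hC1, hCF, hCz⟩ :
      ∃ C : ℝ, 1 ≤ C ∧ (∀ i, ‖Fx i‖ * ‖zx i‖ ≤ C) ∧ ∀ i, ‖zx i‖ ≤ C := by
    refine ⟨1 + ∑ i, (‖Fx i‖ * ‖zx i‖ + ‖zx i‖), ?_, fun i => ?_, fun i => ?_⟩
    · exact le_add_of_nonneg_right (sum_nonneg fun i _ => by positivity)
    all_goals
      have := single_le_sum (f := fun i => ‖Fx i‖ * ‖zx i‖ + ‖zx i‖)
        (fun i _ => by positivity) (mem_univ i)
      nlinarith [norm_nonneg (zx i), norm_nonneg (Fx i),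
        mul_nonneg (norm_nonneg (Fx i)) (norm_nonneg (zx i))]
  have hC0 : 0 < C := by linarith
  obtain ⟨K, hK⟩ : ∃ K : ℕ, 600 * C / ε ≤ ∑ k ∈ Icc 1 K, (k : ℝ)⁻¹ := by
    obtain ⟨K, hK⟩ := (Real.tendsto_sum_range_one_div_nat_succ_atTop.eventually_ge_atTop
      (600 * C / ε)).exists
    refine ⟨K, hK.trans (le_of_eq ?_)⟩
    have e : Icc 1 K = Ico 1 (K + 1) := by ext x; simp
    rw [e, sum_Ico_eq_sum_range]
    exact sum_congr (by simp) fun i _ => by push_cast; ring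
  set H : ℝ := ∑ k ∈ Icc 1 K, (k : ℝ)⁻¹ with hH
  have hH0 : 0 < H := lt_of_lt_of_le (by positivity) hK
  obtain ⟨τ, hτ, hτ1, hτε⟩ : ∃ τ : ℝ, 0 < τ ∧ τ ≤ 1 ∧ 144 * C ^ 2 * τ ≤ ε := by
    refine ⟨min 1 (ε / (144 * C ^ 2)), lt_min one_pos (by positivity), min_le_left _ _, ?_⟩
    have := min_le_right (1 : ℝ) (ε / (144 * C ^ 2))
    rw [le_div_iff₀ (by positivity)] at this
    linarith
  -- polynomial, patterns
  obtain ⟨Q, n₀, hrep⟩ := hR (q + 1) Fx hFx K (τ / 2) (by positivity)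
  obtain ⟨coef, Bd, hcf, hBd, hexp⟩ := hE
  have hpow' : ∀ k : ℕ, ∃ (S : Finset (List Bool)) (b : List Bool → ℝ), 0 < k →
      (∀ s ∈ S, Pat true s ∧ Pat false (flipRev s)) ∧
      ∀ c : A, xPoly Q c ^ k = ∑ s ∈ S, (b s : ℂ) • cWord c s ∧
        star (xPoly Q c) ^ k = ∑ s ∈ S, (b s : ℂ) • cWord c (flipRev s) := by
    intro k
    by_cases hk : 0 < k
    · obtain ⟨S, b, h⟩ := hPow Q k hk
      exact ⟨S, b, fun _ => h⟩
    · exact ⟨∅, fun _ => 0, fun h => absurd h hk⟩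
  choose Sk bk hSb using hpow'
  set R : ℕ := (Icc 1 K).sup fun k => (Sk k).sup List.length with hRdef
  have hlen : ∀ k ∈ Icc 1 K, ∀ s ∈ Sk k, s.length ≤ R := fun k hk s hs =>
    (le_sup (f := List.length) hs).trans
      (le_sup (f := fun k => (Sk k).sup List.length) hk)
  have hBd0 : ∀ s, 0 ≤ Bd s := fun s => (abs_nonneg _).trans (hBd 0 s [])
  obtain ⟨A₁, W₁, hA1, hW1, hAk, hWk⟩ : ∃ A₁ W₁ : ℝ, 1 ≤ A₁ ∧ 1 ≤ W₁ ∧
      (∀ k ∈ Icc 1 K, ((patsLE R).card : ℝ) * ∑ s ∈ Sk k, |bk k s| * Bd s ≤ A₁ ∧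
        ((patsLE R).card : ℝ) * ∑ s ∈ Sk k, |bk k s| * Bd (flipRev s) ≤ A₁) ∧
      ∀ k ∈ Icc 1 K, ∑ s ∈ Sk k, |bk k s| ≤ W₁ := by
    let a := fun k => ((patsLE R).card : ℝ) * ∑ s ∈ Sk k, |bk k s| * Bd s
      + ((patsLE R).card : ℝ) * ∑ s ∈ Sk k, |bk k s| * Bd (flipRev s)
    let b := fun k => ∑ s ∈ Sk k, |bk k s|
    have ha : ∀ k, 0 ≤ ((patsLE R).card : ℝ) * ∑ s ∈ Sk k, |bk k s| * Bd s ∧
        0 ≤ ((patsLE R).card : ℝ) * ∑ s ∈ Sk k, |bk k s| * Bd (flipRev s) := fun k =>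
      ⟨mul_nonneg (Nat.cast_nonneg _) (sum_nonneg fun s _ => mul_nonneg (abs_nonneg _) (hBd0 _)),
        mul_nonneg (Nat.cast_nonneg _) (sum_nonneg fun s _ => mul_nonneg (abs_nonneg _) (hBd0 _))⟩
    have hb : ∀ k, 0 ≤ b k := fun k => sum_nonneg fun s _ => abs_nonneg _
    have ha' : ∀ k, 0 ≤ a k := fun k => add_nonneg (ha k).1 (ha k).2
    refine ⟨1 + ∑ k ∈ Icc 1 K, a k, 1 + ∑ k ∈ Icc 1 K, b k,
      le_add_of_nonneg_right (sum_nonneg fun k _ => ha' k),
      le_add_of_nonneg_right (sum_nonneg fun k _ => hb k),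
      fun k hk => ?_, fun k hk => ?_⟩
    · have := single_le_sum (fun k _ => ha' k) hk
      constructor <;> linarith [(ha k).1, (ha k).2]
    · have : b k ≤ ∑ k ∈ Icc 1 K, b k := single_le_sum (fun k _ => hb k) hk
      linarith
  -- number of blocks
  obtain ⟨nb, hnb, hnn₀, hnR, hev⟩ : ∃ nb : ℕ, 0 < nb ∧ n₀ ≤ nb ∧ R ≤ nb ∧
      ∀ si ∈ patsLE R ×ˢ (univ : Finset (Fin (q + 1))), ∀ᶠ δ in 𝓝[>] (0 : ℝ),
        ∀ W : Fin nb → unitary A, T.OrthFam W (2 * R) δ →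
          (𝔼 θ : Fin nb → Fin (2 * R + 1), ‖T.e (cWord (cSum θ W) si.1
              - ∑ s' ∈ patsLE si.1.length, (coef nb si.1 s' : ℂ) • pGood θ W s')‖ ^ 2)
            ≤ τ ^ 2 / (4 * W₁ ^ 2) ∧
          ∀ G h : unitary A, (𝔼 θ : Fin nb → Fin (2 * R + 1),
            ‖T.e (Fx si.2 ((G : A) * (cWord (cSum θ W) si.1
              - ∑ s' ∈ patsLE si.1.length, (coef nb si.1 s' : ℂ) • pGood θ W s') * (h : A)))‖ ^ 2)
            ≤ τ ^ 2 / (4 * W₁ ^ 2) := by
    refine (((eventually_gt_atTop 0).and ((eventually_ge_atTop n₀).and ((eventually_ge_atTop R).and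
      ((Finset.eventually_all _).2 fun si hsi => ?_)))).exists)
    have hl := mem_patsLE.1 (mem_product.1 hsi).1
    obtain ⟨n₁, hn₁⟩ := hexp si.1 (2 * R + 1) (by omega) (Fx si.2) (hFx si.2)
      (τ ^ 2 / (4 * W₁ ^ 2)) (by positivity)
    refine (eventually_ge_atTop n₁).mono fun n hn => ?_
    obtain ⟨δ₁, hδ₁, h⟩ := hn₁ n hn
    filter_upwards [nhdsWithin_le_nhds (ge_mem_nhds hδ₁)] with δ hδ W hWo
    exact h W (orthFam_mono T hWo (by omega) hδ)
  obtain ⟨Drep, δrep, hδrep, hrep⟩ := hrep nb hnn₀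
  set D' : ℕ := max Drep (2 * R) with hD'
  -- sizes
  set D₀ : ℝ := ((2 * (p + 1) : ℕ) : ℝ) ^ (2 * R) with hD₀
  have hD0 : 0 < D₀ := by positivity
  obtain ⟨tgt, htgt, htgtτ, htgtR⟩ : ∃ tgt : ℝ, 0 < tgt ∧ A₁ ^ 2 * tgt ≤ τ ∧
      (R.factorial : ℝ) * A₁ ^ 2 * tgt ≤ τ := by
    have hf : (1 : ℝ) ≤ R.factorial := by exact_mod_cast R.factorial_pos
    refine ⟨τ / ((R.factorial : ℝ) * A₁ ^ 2), by positivity, ?_, le_of_eq (by field_simp)⟩
    rw [mul_div_assoc', div_le_iff₀ (by positivity)]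
    nlinarith [mul_le_mul_of_nonneg_left hf (mul_nonneg hτ.le (sq_nonneg A₁))]
  obtain ⟨m₀, hm₀, hm₀'⟩ : ∃ m₀ : ℕ, 0 < m₀ ∧ 8 * (R : ℝ) / m₀ ≤ (tgt / (3 * C * D₀)) ^ 2 :=
    ((eventually_gt_atTop 0).and (eventually_div_le (8 * R) (by positivity))).exists
  set c₁ : ℝ := (Fintype.card (Fin (q + 1) × Option (Fin p)) : ℝ) * C ^ 2 with hc₁
  have hc₁0 : 0 ≤ c₁ := mul_nonneg (Nat.cast_nonneg _) (sq_nonneg _)
  obtain ⟨S₀, hS₀, hS₀'⟩ : ∃ S₀ : ℕ, 0 < S₀ ∧ c₁ / S₀ ≤ (tgt / (2 * D₀)) ^ 2 / 2 :=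
    ((eventually_gt_atTop 0).and (eventually_div_le c₁ (by positivity))).exists
  set mMax : ℕ := m₀ * (2 * R + 1) ^ S₀ with hmMax
  obtain ⟨nw, hnw, hnw1, hnw2, hnw3⟩ : ∃ nw : ℕ, 0 < nw ∧
      12 * c₁ * mMax / nw ≤ (tgt / (2 * D₀)) ^ 2 / 2 ∧ 2 * C * mMax / nw ≤ tgt / 2 ∧
      2 * C / nw ≤ ε / 6 :=
    ((eventually_gt_atTop 0).and ((eventually_div_le _ (by positivity)).and
      ((eventually_div_le _ (by positivity)).and (eventually_div_le _ (by positivity))))).exists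
  set Bbad : ℝ := C * (1 + (A₁ * (nb : ℝ) ^ R) ^ 2) with hBbad
  obtain ⟨N, hN, hN1, hN2⟩ : ∃ N : ℕ, 0 < N ∧ Bbad * ((nb * (2 * mMax) : ℕ) : ℝ) ^ 2 / N ≤ τ ∧
      C * (2 * ((R * (2 * mMax) : ℕ) : ℝ) ^ 2) / N ≤ tgt / 3 :=
    ((eventually_gt_atTop 0).and ((eventually_div_le _ hτ).and
      (eventually_div_le _ (by positivity)))).exists
  have hδs0 : (0 : ℝ) < (tgt / (3 * C * D₀)) ^ 2 := by positivity
  obtain ⟨δ, hδ, hδr, hδs, hδe⟩ :=
    (Filter.Eventually.and (self_mem_nhdsWithin (α := ℝ) (a := 0) (s := Set.Ioi 0))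
      (Filter.Eventually.and (nhdsWithin_le_nhds (ge_mem_nhds hδrep))
        (Filter.Eventually.and (nhdsWithin_le_nhds (ge_mem_nhds hδs0))
          ((Finset.eventually_all _).2 hev)))).exists
  obtain ⟨v, hv⟩ := hF p U N (2 * mMax * (D' + 2 * R)) δ hδ
  -- the walk and its scale
  have : Nonempty (Fin N) := Fin.pos_iff_nonempty.1 hN
  have : Nonempty (Fin nw) := Fin.pos_iff_nonempty.1 hnw
  set gg : Option (Fin p) → unitary A := fun o => o.elim 1 U with hgg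
  obtain ⟨hharm, hscale⟩ := hW (unitary A) (Atom p N) (atom U v) (Fin (q + 1) × Option (Fin p))
    (fun io => T.phiU (Fx io.1) (zx io.1)) (fun io => gg io.2) C
    (fun io x => (norm_phiU_le T _ _ x).trans (hCF io.1)) nw hnw
  obtain ⟨sc, hsc, hscale⟩ := hscale (2 * R + 1) S₀ m₀ (by omega) hS₀
  set m : ℕ := m₀ * (2 * R + 1) ^ sc with hm_def
  have hm : 0 < m := by positivity
  have hmm : m ≤ mMax := Nat.mul_le_mul_left _ (Nat.pow_le_pow_right (by omega) hsc.le)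
  have hm₀m : m₀ ≤ m := Nat.le_mul_of_pos_right _ (by positivity)
  have : Nonempty (Fin m) := Fin.pos_iff_nonempty.1 hm
  set Φ : Fin (q + 1) → unitary A → ℂ := fun i => walkH (atom U v) (T.phiU (Fx i) (zx i)) nw
    with hΦ
  set Vt : Fin (q + 1) → Option (Fin p) → Ty p → ℂ :=
    fun i o t => 𝔼 j : Fin N, Φ i (atom U v (t, j) * gg o) with hVt
  have hη : ∀ (i : Fin (q + 1)) (o : Option (Fin p)) (L : ℕ), m ≤ L → L ≤ (2 * R + 1) * m →
      (𝔼 wd : Fin L → Atom p N, ‖Φ i (pathProd (atom U v) (List.ofFn wd) * gg o)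
        - Φ i (pathProd (atom U v) ((List.ofFn wd).take m) * gg o)‖) ≤ tgt / (2 * D₀) := by
    intro i o L hL1 hL2
    refine (hscale (i, o) L hL1 hL2).trans ?_
    rw [Real.sqrt_le_left (by positivity), ← hc₁]
    refine le_trans (add_le_add hS₀' (le_trans (le_of_eq ?_) hnw1)) (le_of_eq (add_halves _))
    rw [hc₁, hmMax]; ring
  have hmn : 2 * C * (m : ℝ) / nw ≤ tgt / 2 := le_trans (by gcongr) hnw2
  -- all types have the same value
  have htypes : ∀ i o t t', ‖Vt i o t - Vt i o t'‖ ≤ 100 * C / H + 24 * C ^ 2 * τ := by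
    intro i o t t'
    obtain ⟨hinj, hfrac⟩ := hI p U N v m nb (2 * mMax * (D' + 2 * R)) D' δ t t' hm hN hv
      (Nat.mul_le_mul (Nat.mul_le_mul_left 2 hmm) (Nat.le_add_right _ _))
    refine types_eq T hP hS Fx zx (fun x => by simpa [Fx, zx] using phiU_one T x) hC1 hCF hCz hτ
      hτ1 K hH0 Q Sk bk hSb hlen (coef nb) Bd (hBd nb) (hcf nb) hW1 hAk hWk U v hN hnw (gg o)
      hm hnR hnb t t'
      (fun b hb θ => hrep _ θ _ (orthFam_mono T (hinj b hb) (le_max_left _ _) hδr))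
      (fun b hb s hs i => hδe (s, i) (mem_product.2 ⟨mem_patsLE.2 hs, mem_univ i⟩) _
        (orthFam_mono T (hinj b hb) (le_max_right _ _) le_rfl))
      (β := ((nb * (2 * mMax) : ℕ) : ℝ) ^ 2 / N) (e := tgt)
      (fun f h1 h2 => (hfrac f h1 h2).trans (by gcongr)) (by rwa [mul_div_assoc'])
      htgt.le htgtτ htgtR
      (fun i bb => diag_est T hD U v hN hm t t' _
        (fun x => (norm_phiU_le T _ _ x).trans (hCF i)) hnw (gg o) htgt (hη i o) hmn bb)
      (fun i => cross_est T hC U v hN hv hm t t' (Fx i) (zx i) (hCF i) hC0 (gg o) hm₀ hm₀m hmm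
        ?_ htgt hm₀' hδs hN2) i
    calc 4 * R * mMax = 2 * mMax * (2 * R) := by ring
      _ ≤ 2 * mMax * (D' + 2 * R) := Nat.mul_le_mul_left _ (Nat.le_add_left _ _)
  -- harmonicity
  have hHg : ∀ i o t, ‖Φ i (gg o) - Vt i o t‖ ≤ 2 * C / nw + (100 * C / H + 24 * C ^ 2 * τ) := by
    intro i o t
    have h := hharm (i, o) (gg o) 1
    have e : (𝔼 wd : Fin 1 → Atom p N, Φ i (pathProd (atom U v) (List.ofFn wd) * gg o))
        = 𝔼 t', Vt i o t' := by
      rw [Fintype.expect_equiv (Equiv.funUnique (Fin 1) (Atom p N)) _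
        (fun a => Φ i (atom U v a * gg o)) (fun wd => by simp [pathProd]),
        ← univ_product_univ, expect_product]
    rw [e] at h
    refine (norm_sub_le_norm_sub_add_norm_sub _ (𝔼 t', Vt i o t') _).trans (add_le_add ?_ ?_)
    · rw [norm_sub_rev]
      simpa using h
    · calc _ = ‖(𝔼 t', Vt i o t') - 𝔼 _t' : Ty p, Vt i o t‖ := by rw [Fintype.expect_const]
        _ ≤ _ := (norm_expect_sub_le _ _).trans (expect_le univ_nonempty fun t' _ =>
          htypes i o t' t)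
  -- the averaging set
  refine ⟨Fintype.card (Fin nw × (Fin nw → Atom p N)),
    fun j => walkX (atom U v) ((Fintype.equivFin _).symm j), Fintype.card_pos, fun i k => ?_⟩
  have e : ∀ g : unitary A,
      (𝔼 j : Fin (Fintype.card (Fin nw × (Fin nw → Atom p N))),
        T.phiU (F i) (z i) (walkX (atom U v) ((Fintype.equivFin _).symm j) * g)) = Φ i.succ g := by
    intro g
    simp only [Φ, walkH_eq, Fx, zx, Fin.cons_succ]
    exact Fintype.expect_equiv (Fintype.equivFin _).symm _ _ fun _ => rfl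
  have e1 := e 1
  simp only [mul_one] at e1
  rw [e (U k), e1]
  have h1 := hHg i.succ (some k) (none, false)
  have h2 := hHg i.succ none (some k, false)
  have hveq : Vt i.succ (some k) (none, false) = Vt i.succ none (some k, false) := by
    simp [Vt, gg, atom, mul_assoc]
  rw [hveq] at h1
  refine (norm_sub_le_norm_sub_add_norm_sub (Φ i.succ (gg (some k)))
    (Vt i.succ none (some k, false)) (Φ i.succ (gg none))).trans ?_
  rw [norm_sub_rev _ (Φ i.succ (gg none))]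
  have hH' : 100 * C / H ≤ ε / 6 := by
    rw [div_le_iff₀ hH0]
    rw [div_le_iff₀ hε] at hK
    linarith
  linarith

end Vale.Agent.P082
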