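import Vale.Agent.P082.Core.Spec

/-!
# Helpers for the assembly of the averaging theorem

Basic estimates for the trace vectors, the averaged form, and restriction of paths to prefixes.
-/

noncomputable section

namespace Vale.Agent.P082

open scoped InnerProductSpace BigOperators
open Finset

universe u v

namespace Asm

variable {A : Type u} {V : Type v} [CStarAlgebra A] [NormedAddCommGroup V] [InnerProductSpace ℂ V]
variable (T : Tr A V)

lemma e_le (a : A) : ‖T.e a‖ ≤ ‖a‖ := by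
  simpa [T.norm_one] using T.mul_le a 1

include T in
lemma norm_unitary_le (w : unitary A) : ‖(w : A)‖ ≤ 1 := by
  have : Nontrivial A := ⟨1, 0, fun h => by simpa [h] using T.norm_one⟩
  exact (CStarRing.norm_coe_unitary w).le

lemma e_conj_le (G g : unitary A) (X : A) : ‖T.e ((G : A) * X * (g : A))‖ ≤ ‖T.e X‖ := by
  calc ‖T.e ((G : A) * X * (g : A))‖ ≤ ‖T.e ((G : A) * X)‖ * ‖(g : A)‖ := T.mul_le' _ _
    _ ≤ ‖T.e ((G : A) * X)‖ * 1 :=
        mul_le_mul_of_nonneg_left (norm_unitary_le T g) (norm_nonneg _)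
    _ ≤ ‖(G : A)‖ * ‖T.e X‖ := by rw [mul_one]; exact T.mul_le _ _
    _ ≤ 1 * ‖T.e X‖ := mul_le_mul_of_nonneg_right (norm_unitary_le T G) (norm_nonneg _)
    _ = ‖T.e X‖ := one_mul _

include T in
lemma norm_conj_le (G g : unitary A) (X : A) : ‖(G : A) * X * (g : A)‖ ≤ ‖X‖ := by
  calc ‖(G : A) * X * (g : A)‖ ≤ ‖(G : A)‖ * ‖X‖ * ‖(g : A)‖ :=
        (norm_mul_le _ _).trans (mul_le_mul_of_nonneg_right (norm_mul_le _ _) (norm_nonneg _))
    _ ≤ 1 * ‖X‖ * 1 := by
        gcongr <;> exact norm_unitary_le T _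
    _ = ‖X‖ := by ring

/-- The form as an inner product. -/
lemma phi2_eq (F : A →L[ℂ] A) (z X Y : A) :
    T.phi2 F z X Y = ⟪T.e (X * star z), T.e (F Y)⟫_ℂ := by
  rw [Tr.phi2, Tr.tr, T.inner_eq (X * star z) (F Y)]
  simp [mul_assoc]

lemma norm_phi2_le (F : A →L[ℂ] A) (z X Y : A) :
    ‖T.phi2 F z X Y‖ ≤ ‖F‖ * ‖z‖ * ‖X‖ * ‖Y‖ := by
  rw [phi2_eq]
  calc ‖⟪T.e (X * star z), T.e (F Y)⟫_ℂ‖ ≤ ‖T.e (X * star z)‖ * ‖T.e (F Y)‖ :=
        norm_inner_le_norm _ _
    _ ≤ (‖X‖ * ‖z‖) * (‖F‖ * ‖Y‖) := by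
        refine mul_le_mul ((e_le T _).trans ?_) ((e_le T _).trans (F.le_opNorm Y)) (norm_nonneg _)
          (by positivity)
        simpa using norm_mul_le X (star z)
    _ = _ := by ring

lemma norm_phiU_le (F : A →L[ℂ] A) (z : A) (w : unitary A) : ‖T.phiU F z w‖ ≤ ‖F‖ * ‖z‖ := by
  refine (norm_phi2_le T F z _ _).trans ?_
  calc ‖F‖ * ‖z‖ * ‖(w : A)‖ * ‖(w : A)‖ ≤ ‖F‖ * ‖z‖ * 1 * 1 := by
        gcongr <;> exact norm_unitary_le T w
    _ = _ := by ring

lemma phiU_one (w : unitary A) : T.phiU (ContinuousLinearMap.id ℂ A) 1 w = 1 := by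
  have h : T.tr (1 : A) = 1 := by
    rw [Tr.tr, inner_self_eq_norm_sq_to_K, T.norm_one]; simp
  simp [Tr.phiU, Tr.phi2, h]

/-- The distance of the values of the form at a unitary and at an element near it. -/
lemma phi2_sub_le (F : A →L[ℂ] A) (z : A) (G g w : unitary A) (Y : A) :
    ‖T.phiU F z (G * w * g) - T.phi2 F z ((G : A) * Y * g) ((G : A) * Y * g)‖ ≤
      ‖z‖ * ‖F‖ * ‖T.e ((w : A) - Y)‖
        + ‖z‖ * (1 + ‖T.e ((w : A) - Y)‖) * ‖T.e (F ((G : A) * ((w : A) - Y) * g))‖ := by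
  set a : A := (G : A) * (w : A) * g with ha
  set b : A := (G : A) * Y * g with hb
  have hab : a - b = (G : A) * ((w : A) - Y) * g := by
    simp [a, b, mul_sub, sub_mul]
  have h0 : T.phiU F z (G * w * g) = T.phi2 F z a a := rfl
  rw [h0, phi2_eq, phi2_eq, ← hab]
  have e : ⟪T.e (a * star z), T.e (F a)⟫_ℂ - ⟪T.e (b * star z), T.e (F b)⟫_ℂ
      = ⟪T.e ((a - b) * star z), T.e (F a)⟫_ℂ + ⟪T.e (b * star z), T.e (F (a - b))⟫_ℂ := by
    simp only [sub_mul, map_sub, inner_sub_left, inner_sub_right]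
    ring
  rw [e]
  have h1 : ‖T.e ((a - b) * star z)‖ ≤ ‖z‖ * ‖T.e ((w : A) - Y)‖ := by
    refine (T.mul_le' _ _).trans ?_
    rw [norm_star, mul_comm, hab]
    exact mul_le_mul_of_nonneg_left (e_conj_le T G g _) (norm_nonneg _)
  have ha1 : ‖a‖ ≤ 1 := by
    simpa [a] using norm_unitary_le T (G * w * g)
  have h2 : ‖T.e (F a)‖ ≤ ‖F‖ := by
    refine (e_le T _).trans ((F.le_opNorm a).trans ?_)
    exact mul_le_of_le_one_right (norm_nonneg _) ha1
  have h3 : ‖T.e (b * star z)‖ ≤ ‖z‖ * (1 + ‖T.e ((w : A) - Y)‖) := by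
    refine (T.mul_le' _ _).trans ?_
    rw [norm_star, mul_comm]
    refine mul_le_mul_of_nonneg_left ?_ (norm_nonneg _)
    have : T.e b = T.e a - T.e (a - b) := by simp [map_sub]
    rw [this]
    refine (norm_sub_le _ _).trans (add_le_add ((e_le T a).trans ha1) ?_)
    rw [hab]; exact e_conj_le T G g _
  refine (norm_add_le _ _).trans (add_le_add ?_ ?_)
  · refine (norm_inner_le_norm _ _).trans ((mul_le_mul h1 h2 (norm_nonneg _) (by positivity)).trans
      (le_of_eq (by ring)))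
  · exact (norm_inner_le_norm _ _).trans (mul_le_mul_of_nonneg_right h3 (norm_nonneg _))

/-- The averaged form. -/
def formB (F : A →L[ℂ] A) (z : A) {Ξ : Type*} [Fintype Ξ] (G : Ξ → unitary A) (g : unitary A) :
    A →ₗ⋆[ℂ] A →ₗ[ℂ] ℂ :=
  LinearMap.mk₂'ₛₗ (starRingEnd ℂ) (RingHom.id ℂ)
    (fun X Y => 𝔼 x, T.phi2 F z ((G x : A) * X * g) ((G x : A) * Y * g))
    (fun X X' Y => by
      simp only [phi2_eq, mul_add, add_mul, map_add, inner_add_left, expect_add_distrib])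
    (fun c X Y => by
      simp only [phi2_eq, mul_smul_comm, smul_mul_assoc, map_smul, inner_smul_left, smul_eq_mul,
        mul_expect])
    (fun X Y Y' => by
      simp only [phi2_eq, mul_add, add_mul, map_add, inner_add_right, expect_add_distrib])
    (fun c X Y => by
      simp only [phi2_eq, mul_smul_comm, smul_mul_assoc, map_smul, inner_smul_right, smul_eq_mul,
        mul_expect, RingHom.id_apply])

lemma formB_apply (F : A →L[ℂ] A) (z : A) {Ξ : Type*} [Fintype Ξ] (G : Ξ → unitary A)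
    (g : unitary A) (X Y : A) :
    formB T F z G g X Y = 𝔼 x, T.phi2 F z ((G x : A) * X * g) ((G x : A) * Y * g) := rfl

/-- An average of a function of a prefix. -/
lemma expect_prefix {Ω : Type*} [Fintype Ω] [Nonempty Ω] {i n : ℕ} (h : i ≤ n)
    (f : (Fin i → Ω) → ℂ) :
    (𝔼 w : Fin n → Ω, f (fun j => w (Fin.castLE h j))) = 𝔼 w : Fin i → Ω, f w := by
  obtain ⟨d, rfl⟩ := Nat.exists_eq_add_of_le h
  rw [← Fintype.expect_equiv (Fin.appendEquiv i d) (fun w => f w.1) _ (fun w => ?_)]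
  · rw [← Finset.univ_product_univ, expect_product]
    simp
  · congr 1
    funext j
    exact (Fin.append_left w.1 w.2 j).symm

/-- The element of a path prefix. -/
def walkX {Ω G : Type*} [Monoid G] (a : Ω → G) {n : ℕ} (x : Fin n × (Fin n → Ω)) : G :=
  pathProd a (List.ofFn fun j => x.2 (Fin.castLE (le_of_lt x.1.isLt) j))

lemma walkH_eq {Ω G : Type*} [Monoid G] [Fintype Ω] [Nonempty Ω] (a : Ω → G) (φ : G → ℂ) (n : ℕ)
    (g : G) : walkH a φ n g = 𝔼 x : Fin n × (Fin n → Ω), φ (walkX a x * g) := by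
  rw [← Finset.univ_product_univ, expect_product]
  exact expect_congr rfl (fun i _ =>
    (expect_prefix (le_of_lt i.isLt) fun w => φ (pathProd a (List.ofFn w) * g)).symm)

lemma formB_unitary (F : A →L[ℂ] A) (z : A) {Ω : Type} [Fintype Ω] [Nonempty Ω]
    (a : Ω → unitary A) (n : ℕ) (g w : unitary A) :
    formB T F z (fun x : Fin n × (Fin n → Ω) => walkX a x) g (w : A) (w : A)
      = walkH a (T.phiU F z) n (w * g) := by
  rw [formB_apply, walkH_eq]
  exact expect_congr rfl (fun x _ => by simp [Tr.phiU, mul_assoc])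

lemma norm_walkH_le {Ω G : Type*} [Monoid G] [Fintype Ω] [Nonempty Ω] (a : Ω → G) (φ : G → ℂ)
    {n : ℕ} (hn : 0 < n) {C : ℝ} (hφ : ∀ x, ‖φ x‖ ≤ C) (g : G) : ‖walkH a φ n g‖ ≤ C := by
  have : Nonempty (Fin n) := Fin.pos_iff_nonempty.1 hn
  rw [walkH_eq]
  exact (RCLike.norm_expect_le (K := ℂ)).trans (expect_le univ_nonempty (fun _ _ => hφ _))

lemma walkH_const {Ω G : Type*} [Monoid G] [Fintype Ω] [Nonempty Ω] (a : Ω → G)
    {n : ℕ} (hn : 0 < n) (φ : G → ℂ) (c : ℂ) (hφ : ∀ x, φ x = c) (g : G) :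
    walkH a φ n g = c := by
  have : Nonempty (Fin n) := Fin.pos_iff_nonempty.1 hn
  rw [walkH_eq]
  simp [hφ]

lemma norm_ph {M : ℕ} (x : Fin M) : ‖ph x‖ = 1 := by
  rw [ph, Complex.norm_exp]; simp [Complex.div_re]

lemma norm_phase {n M : ℕ} (θ : Fin n → Fin M) (l : List (Fin n × Bool)) : ‖phase θ l‖ = 1 := by
  induction l with
  | nil => simp [phase]
  | cons a l ih =>
    obtain ⟨i, b⟩ := a
    simp only [phase, List.map_cons, List.prod_cons, norm_mul] at ih ⊢
    rw [ih]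
    cases b <;> simp [norm_ph]

include T in
lemma norm_pGood_le {n M : ℕ} (hn : 0 < n) (θ : Fin n → Fin M) (W : Fin n → unitary A)
    (s : List Bool) {R : ℕ} (hs : s.length ≤ R) : ‖pGood θ W s‖ ≤ (n : ℝ) ^ R := by
  have hn1 : (1 : ℝ) ≤ (n : ℝ) := by exact_mod_cast hn
  rw [pGood, norm_smul, norm_pow]
  have h1 : ‖((Real.sqrt n)⁻¹ : ℂ)‖ ^ s.length ≤ 1 := by
    refine pow_le_one₀ (norm_nonneg _) ?_
    rw [norm_inv, Complex.norm_real, Real.norm_of_nonneg (Real.sqrt_nonneg _)]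
    exact inv_le_one_of_one_le₀ (Real.one_le_sqrt.2 hn1)
  refine (mul_le_of_le_one_left (norm_nonneg _) h1).trans ((norm_sum_le _ _).trans ?_)
  refine (Finset.sum_le_sum (g := fun _ => (1 : ℝ)) (fun ι _ => ?_)).trans ?_
  · rw [norm_smul, norm_phase, one_mul]
    exact norm_unitary_le T _
  · simp only [sum_const, card_univ, nsmul_eq_mul, mul_one, Fintype.card_embedding_eq,
      Fintype.card_fin]
    refine le_trans ?_ (pow_le_pow_right₀ hn1 hs)
    exact_mod_cast Nat.descFactorial_le_pow n s.length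

lemma mem_patsLE {R : ℕ} {s : List Bool} : s ∈ patsLE R ↔ s.length ≤ R := by
  simp only [patsLE, mem_biUnion, mem_range, mem_image, mem_univ, true_and]
  constructor
  · rintro ⟨r, hr, f, rfl⟩
    simp; omega
  · exact fun h => ⟨s.length, Nat.lt_succ_of_le h, s.get, List.ofFn_get s⟩

end Asm

end Vale.Agent.P082
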