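import Vale.Agent.P082.Core.AssemblyAux

/-!
# The main estimate of the assembly

Replacing a unitary by a combination of good words, then averaging over phases and blocks.
-/

noncomputable section

namespace Vale.Agent.P082

open scoped InnerProductSpace BigOperators
open Finset

universe u v

namespace Asm

variable {A : Type u} {V : Type v} [CStarAlgebra A] [NormedAddCommGroup V] [InnerProductSpace ℂ V]
variable (T : Tr A V)

lemma norm_expect_sub_le {ι : Type*} [Fintype ι] (f g : ι → ℂ) :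
    ‖(𝔼 i, f i) - 𝔼 i, g i‖ ≤ 𝔼 i, ‖f i - g i‖ := by
  rw [← expect_sub_distrib]
  exact RCLike.norm_expect_le (K := ℂ)

/-- The coefficient of a good word in a combination of words. -/
def acoef (cf : List Bool → List Bool → ℝ) (S : Finset (List Bool))
    (f : List Bool → List Bool) (w : List Bool → ℝ) (s' : List Bool) : ℝ :=
  ∑ s ∈ S, w s * cf (f s) s'

open Classical in
/-- The patterns of length at most `R` for one end letter. -/
def endPats (bb : Bool) (R : ℕ) : Finset (List Bool) := (patsLE R).filter (Pat bb)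

lemma mem_endPats {bb : Bool} {R : ℕ} {s : List Bool} :
    s ∈ endPats bb R ↔ s.length ≤ R ∧ Pat bb s := by
  simp [endPats, mem_patsLE]

/-- The combination of good words. -/
def goodComb (cf : List Bool → List Bool → ℝ) (S : Finset (List Bool))
    (f : List Bool → List Bool) (w : List Bool → ℝ) (bb : Bool) (R : ℕ) {n M : ℕ}
    (θ : Fin n → Fin M) (W : Fin n → unitary A) : A :=
  ∑ s' ∈ endPats bb R, (acoef cf S f w s' : ℂ) • pGood θ W s'

lemma goodComb_eq (cf : List Bool → List Bool → ℝ) (S : Finset (List Bool))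
    (f : List Bool → List Bool) (w : List Bool → ℝ) (bb : Bool) (R : ℕ) {n M : ℕ}
    (θ : Fin n → Fin M) (W : Fin n → unitary A) (hR : ∀ s ∈ S, (f s).length ≤ R)
    (hcf : ∀ s ∈ S, ∀ s', cf (f s) s' ≠ 0 → s'.length ≤ (f s).length ∧ Pat bb s') :
    goodComb cf S f w bb R θ W
      = ∑ s ∈ S, (w s : ℂ) • ∑ s' ∈ patsLE (f s).length, (cf (f s) s' : ℂ) • pGood θ W s' := by
  have h : ∀ s ∈ S, ∑ s' ∈ patsLE (f s).length, (cf (f s) s' : ℂ) • pGood θ W s'
      = ∑ s' ∈ endPats bb R, (cf (f s) s' : ℂ) • pGood θ W s' := by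
    intro s hs
    refine (sum_congr_of_eq_on_inter ?_ ?_ (fun _ _ _ => rfl))
    · intro a ha hna
      by_cases hc : cf (f s) a = 0
      · simp [hc]
      · exact absurd (mem_endPats.2 ⟨(mem_patsLE.1 ha).trans (hR s hs), (hcf s hs a hc).2⟩) hna
    · intro a _ hna
      by_cases hc : cf (f s) a = 0
      · simp [hc]
      · exact absurd (mem_patsLE.2 (hcf s hs a hc).1) hna
  rw [sum_congr rfl (fun s hs => congrArg _ (h s hs)), goodComb]
  simp only [smul_sum, smul_smul, acoef, Complex.ofReal_sum, Complex.ofReal_mul, sum_smul]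
  exact sum_comm

/-- The mean square of a linear map at a combination. -/
lemma expect_sq_combo {Θ : Type*} [Fintype Θ] [Nonempty Θ] (L : A →ₗ[ℂ] V)
    (S : Finset (List Bool)) (w : List Bool → ℝ) (x : List Bool → Θ → A) {e : ℝ}
    (hx : ∀ s ∈ S, (𝔼 θ, ‖L (x s θ)‖ ^ 2) ≤ e) :
    (𝔼 θ, ‖L (∑ s ∈ S, (w s : ℂ) • x s θ)‖ ^ 2) ≤ (∑ s ∈ S, |w s|) ^ 2 * e := by
  have h : ∀ θ, ‖L (∑ s ∈ S, (w s : ℂ) • x s θ)‖ ^ 2
      ≤ (∑ s ∈ S, |w s|) * ∑ s ∈ S, |w s| * ‖L (x s θ)‖ ^ 2 := by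
    intro θ
    have h1 : ‖L (∑ s ∈ S, (w s : ℂ) • x s θ)‖ ≤ ∑ s ∈ S, |w s| * ‖L (x s θ)‖ := by
      rw [map_sum]
      refine (norm_sum_le _ _).trans (le_of_eq (sum_congr rfl fun s _ => ?_))
      rw [map_smul, norm_smul, Complex.norm_real, Real.norm_eq_abs]
    refine (pow_le_pow_left₀ (norm_nonneg _) h1 2).trans ?_
    exact sum_sq_le_sum_mul_sum_of_sq_le_mul S (fun _ _ => abs_nonneg _)
      (fun _ _ => by positivity) (fun _ _ => le_of_eq (by ring))
  refine (expect_le_expect fun θ _ => h θ).trans ?_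
  rw [← mul_expect, sq, mul_assoc, expect_sum_comm]
  refine mul_le_mul_of_nonneg_left ?_ (sum_nonneg fun _ _ => abs_nonneg _)
  rw [sum_mul]
  refine sum_le_sum fun s hs => ?_
  rw [← mul_expect]
  exact mul_le_mul_of_nonneg_left (hx s hs) (abs_nonneg _)

/-- Near a unitary the averaged values of the form agree. -/
lemma close_good {Θ : Type*} [Fintype Θ] [Nonempty Θ] (F : A →L[ℂ] A) (z : A) (G g : unitary A)
    (u : Θ → unitary A) (Y : Θ → A) {C τ : ℝ} (hC : ‖F‖ * ‖z‖ ≤ C) (hz : ‖z‖ ≤ C)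
    (hτ : 0 < τ) (hτ1 : τ ≤ 1)
    (h1 : (𝔼 θ, ‖T.e ((u θ : A) - Y θ)‖ ^ 2) ≤ τ ^ 2)
    (h2 : (𝔼 θ, ‖T.e (F ((G : A) * ((u θ : A) - Y θ) * g))‖ ^ 2) ≤ τ ^ 2) :
    ‖(𝔼 θ, T.phiU F z (G * u θ * g))
        - 𝔼 θ, T.phi2 F z ((G : A) * Y θ * g) ((G : A) * Y θ * g)‖ ≤ 3 * C * τ := by
  refine (norm_expect_sub_le _ _).trans ?_
  have hC0 : 0 ≤ C := (norm_nonneg z).trans hz
  have key : ∀ d d' : ℝ, 0 ≤ d → 0 ≤ d' →
      C * d + C * (1 + d) * d' ≤ C * τ + C / (2 * τ) * (d ^ 2 + d' ^ 2) + C / 2 * (d ^ 2 + d' ^ 2) := by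
    intro d d' _ _
    have a1 : d + d' ≤ τ + 1 / (2 * τ) * (d ^ 2 + d' ^ 2) := by
      have : τ + 1 / (2 * τ) * (d ^ 2 + d' ^ 2) - (d + d')
          = ((d - τ) ^ 2 + (d' - τ) ^ 2) / (2 * τ) := by field_simp; ring
      nlinarith [div_nonneg (add_nonneg (sq_nonneg (d - τ)) (sq_nonneg (d' - τ)))
        (by linarith : (0 : ℝ) ≤ 2 * τ)]
    have a2 : d * d' ≤ 1 / 2 * (d ^ 2 + d' ^ 2) := by nlinarith [sq_nonneg (d - d')]
    calc C * d + C * (1 + d) * d' = C * (d + d') + C * (d * d') := by ring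
      _ ≤ C * (τ + 1 / (2 * τ) * (d ^ 2 + d' ^ 2)) + C * (1 / 2 * (d ^ 2 + d' ^ 2)) := by gcongr
      _ = _ := by ring
  refine (expect_le_expect (g := fun θ => C * τ
    + (C / (2 * τ) + C / 2) * (‖T.e ((u θ : A) - Y θ)‖ ^ 2
      + ‖T.e (F ((G : A) * ((u θ : A) - Y θ) * g))‖ ^ 2)) fun θ _ => ?_).trans ?_
  · refine (phi2_sub_le T F z G g (u θ) (Y θ)).trans (le_trans ?_ ((key _ _ (norm_nonneg
      (T.e ((u θ : A) - Y θ))) (norm_nonneg
      (T.e (F ((G : A) * ((u θ : A) - Y θ) * g))))).trans (le_of_eq (by ring))))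
    gcongr
    rwa [mul_comm]
  · rw [expect_add_distrib, Fintype.expect_const, ← mul_expect, expect_add_distrib]
    calc C * τ + (C / (2 * τ) + C / 2) * _ ≤ C * τ + (C / (2 * τ) + C / 2) * (τ ^ 2 + τ ^ 2) := by
          gcongr
      _ = 2 * C * τ + C * τ * τ := by field_simp; ring
      _ ≤ 3 * C * τ := by
          nlinarith [mul_le_mul_of_nonneg_left hτ1 (mul_nonneg hC0 hτ.le)]

/-- Words with a common end letter start at the corresponding type. -/
lemma get_last {bb : Bool} {s : List Bool} (h : Pat bb s) (hs : 0 < s.length) :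
    s.get ⟨s.length - 1, by omega⟩ = bb := by
  have := h.2.1
  rw [List.getLast?_eq_getElem?, List.getElem?_eq_getElem (by omega)] at this
  simpa using this

lemma pat_pos {bb : Bool} {s : List Bool} (h : Pat bb s) : 0 < s.length := by
  rcases s with _ | ⟨a, l⟩
  · simpa using h.1
  · simp

/-- The average over blocks and phases of the values at the unitary. -/
lemma block_est (hP : PairOut A) (F : A →L[ℂ] A) (z : A) {C τ : ℝ} (hC : ‖F‖ * ‖z‖ ≤ C)
    (hz : ‖z‖ ≤ C) (hτ : 0 < τ) (hτ1 : τ ≤ 1)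
    {p N : ℕ} (U : Fin p → unitary A) (v : Fin N → unitary A) (hN : 0 < N) {nw : ℕ} (hnw : 0 < nw)
    (g : unitary A) {m nb R M : ℕ} (hm : 0 < m) (hR : R ≤ nb) (hnb : 0 < nb) (hM : 2 * R < M)
    (t t' : Ty p) (bb : Bool) (a : List Bool → ℝ)
    (w : (Fin nb → Blk p N m) → (Fin nb → Fin M) → unitary A)
    (hclose : ∀ b, BlkInj b →
      (𝔼 θ, ‖T.e ((w b θ : A) - ∑ s' ∈ endPats bb R,
        (a s' : ℂ) • pGood θ (fun i => blockU U v t t' (b i)) s')‖ ^ 2) ≤ τ ^ 2 ∧
      ∀ G : unitary A, (𝔼 θ, ‖T.e (F ((G : A) * ((w b θ : A) - ∑ s' ∈ endPats bb R,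
        (a s' : ℂ) • pGood θ (fun i => blockU U v t t' (b i)) s') * g))‖ ^ 2) ≤ τ ^ 2)
    {β ε₁ ε₂ A₁ : ℝ}
    (hbad : ∀ f : (Fin nb → Blk p N m) → ℝ, (∀ b, BlkInj b → f b = 0) → (∀ b, |f b| ≤ 1) →
      (𝔼 b, f b) ≤ β)
    (hA : ∑ s' ∈ endPats bb R, |a s'| ≤ A₁) (hε₁ : 0 ≤ ε₁) (hε₂ : 0 ≤ ε₂)
    (hdiag : ∀ (r : ℕ) (sg : Fin r → Bool) (hr : 0 < r), r ≤ R → sg ⟨r - 1, by omega⟩ = bb →
      ‖(𝔼 b : Fin r → Blk p N m, walkH (atom U v) (T.phiU F z) nw
          (wordVal (fun i => blockU U v t t' (b i)) (List.ofFn fun j => (j, sg j)) * g))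
        - 𝔼 j : Fin N, walkH (atom U v) (T.phiU F z) nw
            (atom U v (if bb then t else t', j) * g)‖ ≤ ε₁)
    (hcross : ∀ (r : ℕ) (sg sg' : Fin r → Bool) (σ : Equiv.Perm (Fin r)), σ ≠ 1 →
      (∀ j, sg' (σ j) = sg j) → r ≤ R → ∀ G : unitary A,
      ‖𝔼 b : Fin r → Blk p N m, T.phi2 F z
          (G * wordVal (fun i => blockU U v t t' (b i)) (List.ofFn fun j => (σ j, sg j)) * g :
            unitary A)
          (G * wordVal (fun i => blockU U v t t' (b i)) (List.ofFn fun j => (j, sg' j)) * g :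
            unitary A)‖ ≤ ε₂) :
    ‖(𝔼 b, 𝔼 θ, walkH (atom U v) (T.phiU F z) nw (w b θ * g))
      - ∑ s ∈ endPats bb R,
          ((a s ^ 2 * (nb.descFactorial s.length : ℝ) / (nb : ℝ) ^ s.length : ℝ) : ℂ)
          * 𝔼 j : Fin N, walkH (atom U v) (T.phiU F z) nw
              (atom U v (if bb then t else t', j) * g)‖ ≤
      3 * C * τ + C * (1 + (A₁ * (nb : ℝ) ^ R) ^ 2) * β
        + (A₁ ^ 2 * ε₁ + (R.factorial : ℝ) * A₁ ^ 2 * ε₂) := by
  classical
  have hC0 : 0 ≤ C := (norm_nonneg z).trans hz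
  have : Nonempty (Fin nw) := Fin.pos_iff_nonempty.1 hnw
  have : Nonempty (Fin N) := Fin.pos_iff_nonempty.1 hN
  have : Nonempty (Fin m) := Fin.pos_iff_nonempty.1 hm
  have : Nonempty (Fin M) := Fin.pos_iff_nonempty.1 (by omega)
  have hA0 : 0 ≤ A₁ := le_trans (sum_nonneg fun _ _ => abs_nonneg _) hA
  set Gs : Fin nw × (Fin nw → Atom p N) → unitary A := fun x => walkX (atom U v) x with hGs
  set B := formB T F z Gs g with hB
  set Y : (Fin nb → Blk p N m) → (Fin nb → Fin M) → A := fun b θ => ∑ s' ∈ endPats bb R,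
    (a s' : ℂ) • pGood θ (fun i => blockU U v t t' (b i)) s' with hY
  -- each block family
  have hY1 : ∀ b θ, ‖Y b θ‖ ≤ A₁ * (nb : ℝ) ^ R := by
    intro b θ
    refine (norm_sum_le _ _).trans (le_trans ?_ (mul_le_mul_of_nonneg_right hA (by positivity)))
    rw [sum_mul]
    refine sum_le_sum fun s hs => ?_
    rw [norm_smul, Complex.norm_real, Real.norm_eq_abs]
    exact mul_le_mul_of_nonneg_left (norm_pGood_le T hnb θ _ s (mem_endPats.1 hs).1) (abs_nonneg _)
  have hgood : ∀ b, BlkInj b → ‖(𝔼 θ, walkH (atom U v) (T.phiU F z) nw (w b θ * g))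
      - 𝔼 θ, B (Y b θ) (Y b θ)‖ ≤ 3 * C * τ := by
    intro b hb
    simp only [hB, formB_apply, walkH_eq, hGs, ← mul_assoc]
    rw [expect_comm, expect_comm univ univ (fun θ x => T.phi2 F z _ _)]
    refine (norm_expect_sub_le _ _).trans (expect_le univ_nonempty fun x _ => ?_)
    exact close_good T F z (walkX (atom U v) x) g (w b) (Y b) hC hz hτ hτ1 (hclose b hb).1
      ((hclose b hb).2 _)
  have hall : ∀ b, ‖(𝔼 θ, walkH (atom U v) (T.phiU F z) nw (w b θ * g))
      - 𝔼 θ, B (Y b θ) (Y b θ)‖ ≤ C * (1 + (A₁ * (nb : ℝ) ^ R) ^ 2) := by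
    intro b
    refine (norm_sub_le _ _).trans ?_
    rw [mul_add, mul_one]
    refine add_le_add ((RCLike.norm_expect_le (K := ℂ)).trans (expect_le univ_nonempty fun θ _ =>
      norm_walkH_le _ _ hnw (fun x => (norm_phiU_le T F z x).trans hC) _)) ?_
    refine (RCLike.norm_expect_le (K := ℂ)).trans (expect_le univ_nonempty fun θ _ => ?_)
    rw [hB, formB_apply]
    refine (RCLike.norm_expect_le (K := ℂ)).trans (expect_le univ_nonempty fun x _ => ?_)
    refine (norm_phi2_le T F z _ _).trans ?_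
    rw [mul_assoc _ ‖_‖ ‖_‖, sq]
    have h := (norm_conj_le T (Gs x) g (Y b θ)).trans (hY1 b θ)
    gcongr
  have step1 : ‖(𝔼 b, 𝔼 θ, walkH (atom U v) (T.phiU F z) nw (w b θ * g))
      - 𝔼 b, 𝔼 θ, B (Y b θ) (Y b θ)‖ ≤ 3 * C * τ + C * (1 + (A₁ * (nb : ℝ) ^ R) ^ 2) * β := by
    refine (norm_expect_sub_le _ _).trans ?_
    refine (expect_le_expect (g := fun b => 3 * C * τ
      + C * (1 + (A₁ * (nb : ℝ) ^ R) ^ 2) * (if BlkInj b then 0 else 1)) fun b _ => ?_).trans ?_
    · by_cases hb : BlkInj b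
      · simpa [hb] using hgood b hb
      · simp only [hb, if_false, mul_one]
        exact (hall b).trans (le_add_of_nonneg_left (by positivity))
    · rw [expect_add_distrib, Fintype.expect_const, ← mul_expect]
      refine add_le_add le_rfl (mul_le_mul_of_nonneg_left (hbad _ ?_ ?_) (by positivity))
      · intro b hb; simp [hb]
      · intro b; split_ifs <;> simp
  -- the main term
  have hlast : ∀ s ∈ endPats bb R, ∀ hr : 0 < s.length, s.get ⟨s.length - 1, by omega⟩ = bb :=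
    fun s hs hr => get_last (mem_endPats.1 hs).2 hr
  have pair := hP (Blk p N m) (blockU U v t t') nb R M hM hR (endPats bb R)
    (fun s hs => (mem_endPats.1 hs).1) a B
    (fun _ => 𝔼 j : Fin N, walkH (atom U v) (T.phiU F z) nw
      (atom U v (if bb then t else t', j) * g)) ε₁ ε₂ hε₂
    (fun s hs => by
      have h := hdiag s.length s.get (pat_pos (mem_endPats.1 hs).2) (mem_endPats.1 hs).1
        (hlast s hs (pat_pos (mem_endPats.1 hs).2))
      simp only [hB, hGs, formB_unitary]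
      exact h)
    (fun s hs s' hs' σ hσ hne => by
      have hl : s.length = s'.length := by simpa using Fintype.card_congr σ
      set σ' : Equiv.Perm (Fin s'.length) := (finCongr hl.symm).trans σ with hσ'
      have hlist : goodList s σ = List.ofFn fun j => (σ' j, s.get (Fin.cast hl.symm j)) := by
        rw [goodList, List.ofFn_congr hl]
        rfl
      have hne' : σ' ≠ 1 := by
        intro e
        have hj : ∀ j : Fin s.length, σ j = Fin.cast hl j := fun j => by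
          have := congrArg (fun π : Equiv.Perm (Fin s'.length) => π (Fin.cast hl j)) e
          simpa [σ'] using this
        rcases hne with hne | ⟨j, hne⟩
        · refine hne (List.ext_get hl fun i h1 h2 => ?_)
          have := hσ ⟨i, h1⟩
          rw [hj] at this
          exact this.symm
        · exact hne (by rw [hj]; rfl)
      simp only [hB, formB_apply]
      rw [expect_comm]
      refine (RCLike.norm_expect_le (K := ℂ)).trans (expect_le univ_nonempty fun x _ => ?_)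
      have h := hcross s'.length (fun j => s.get (Fin.cast hl.symm j)) s'.get σ' hne'
        (fun j => hσ _) (mem_endPats.1 hs').1 (Gs x)
      rw [hlist]
      simpa [Function.comp_def, goodList] using h)
  rw [expect_congr rfl (fun b _ => rfl)] at pair
  have hsq : ∑ s ∈ endPats bb R, a s ^ 2 ≤ A₁ ^ 2 := by
    refine le_trans ?_ (pow_le_pow_left₀ (sum_nonneg fun _ _ => abs_nonneg _) hA 2)
    simpa [sq_abs] using sum_sq_le_sq_sum_of_nonneg (s := endPats bb R)
      (f := fun s => |a s|) fun _ _ => abs_nonneg _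
  have hsum₁ : ∑ s ∈ endPats bb R, a s ^ 2 * ε₁ ≤ A₁ ^ 2 * ε₁ := by
    rw [← sum_mul]
    exact mul_le_mul_of_nonneg_right hsq hε₁
  have step2 : ‖(𝔼 b, 𝔼 θ, B (Y b θ) (Y b θ)) - ∑ s ∈ endPats bb R,
      ((a s ^ 2 * (nb.descFactorial s.length : ℝ) / (nb : ℝ) ^ s.length : ℝ) : ℂ)
          * 𝔼 j : Fin N, walkH (atom U v) (T.phiU F z) nw
              (atom U v (if bb then t else t', j) * g)‖ ≤
      A₁ ^ 2 * ε₁ + (R.factorial : ℝ) * A₁ ^ 2 * ε₂ := by
    refine pair.trans (add_le_add (by rw [sum_mul]; exact hsum₁) ?_)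
    gcongr
  exact (norm_sub_le_norm_sub_add_norm_sub _ _ _).trans (add_le_add step1 step2)

end Asm

end Vale.Agent.P082
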