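import Vale.Agent.P082.Core.AssemblyEst

/-!
# All types have the same value

The diagonal and crossing estimates in the shape used by the main estimate, and the comparison
of two types through the scalar lemma.
-/

noncomputable section

namespace Vale.Agent.P082

open scoped InnerProductSpace BigOperators
open Finset

universe u v

namespace Asm

variable {A : Type u} {V : Type v} [CStarAlgebra A] [NormedAddCommGroup V] [InnerProductSpace ℂ V]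
variable (T : Tr A V)

lemma orthFam_mono {n : ℕ} {W : Fin n → unitary A} {D D' : ℕ} {δ δ' : ℝ}
    (h : T.OrthFam W D δ) (hD : D' ≤ D) (hδ : δ ≤ δ') : T.OrthFam W D' δ' :=
  fun l h1 h2 h3 => (h l h1 (h2.trans hD) h3).trans hδ

lemma acoef_abs_le (cf : List Bool → List Bool → ℝ) (Bd : List Bool → ℝ)
    (hB : ∀ s s', |cf s s'| ≤ Bd s) (S : Finset (List Bool)) (f : List Bool → List Bool)
    (w : List Bool → ℝ) (bb : Bool) (R : ℕ) :
    ∑ s' ∈ endPats bb R, |acoef cf S f w s'|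
      ≤ ((patsLE R).card : ℝ) * ∑ s ∈ S, |w s| * Bd (f s) := by
  refine (sum_le_sum (g := fun _ => ∑ s ∈ S, |w s| * Bd (f s)) fun s' _ => ?_).trans ?_
  · refine (abs_sum_le_sum_abs _ _).trans (sum_le_sum fun s _ => ?_)
    rw [abs_mul]
    exact mul_le_mul_of_nonneg_left (hB _ _) (abs_nonneg _)
  · rw [sum_const, nsmul_eq_mul]
    refine mul_le_mul_of_nonneg_right (Nat.cast_le.2 (card_le_card ?_))
      (sum_nonneg fun s _ => mul_nonneg (abs_nonneg _) ((abs_nonneg _).trans (hB (f s) [])))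
    exact fun s hs => mem_patsLE.2 (mem_endPats.1 hs).1

/-- A unitary near a combination of words is near the combination of good words. -/
lemma close_of_expand (cf : List Bool → List Bool → ℝ) (S : Finset (List Bool))
    (f : List Bool → List Bool) (w : List Bool → ℝ) (bb : Bool) (R : ℕ) {n M : ℕ} (hM : 0 < M)
    (W : Fin n → unitary A) (hR : ∀ s ∈ S, (f s).length ≤ R)
    (hcf : ∀ s ∈ S, ∀ s', cf (f s) s' ≠ 0 → s'.length ≤ (f s).length ∧ Pat bb s')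
    (L : A →ₗ[ℂ] V) (x : (Fin n → Fin M) → A) {τ e W₁ : ℝ}
    (hx : ∀ θ, ‖L (x θ - ∑ s ∈ S, (w s : ℂ) • cWord (cSum θ W) (f s))‖ ≤ τ / 2)
    (he : ∀ s ∈ S, (𝔼 θ : Fin n → Fin M, ‖L (cWord (cSum θ W) (f s)
      - ∑ s' ∈ patsLE (f s).length, (cf (f s) s' : ℂ) • pGood θ W s')‖ ^ 2) ≤ e)
    (hW : ∑ s ∈ S, |w s| ≤ W₁) (he0 : 0 ≤ e) (hWe : W₁ ^ 2 * e ≤ τ ^ 2 / 4) :
    (𝔼 θ : Fin n → Fin M, ‖L (x θ - ∑ s' ∈ endPats bb R,
      (acoef cf S f w s' : ℂ) • pGood θ W s')‖ ^ 2) ≤ τ ^ 2 := by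
  have : Nonempty (Fin M) := Fin.pos_iff_nonempty.1 hM
  set d : (Fin n → Fin M) → A := fun θ => ∑ s ∈ S, (w s : ℂ) • (cWord (cSum θ W) (f s)
      - ∑ s' ∈ patsLE (f s).length, (cf (f s) s' : ℂ) • pGood θ W s') with hd
  have key : ∀ θ, ‖L (x θ - ∑ s' ∈ endPats bb R, (acoef cf S f w s' : ℂ) • pGood θ W s')‖ ^ 2
      ≤ τ ^ 2 / 2 + 2 * ‖L (d θ)‖ ^ 2 := by
    intro θ
    have e1 : x θ - ∑ s' ∈ endPats bb R, (acoef cf S f w s' : ℂ) • pGood θ W s'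
        = (x θ - ∑ s ∈ S, (w s : ℂ) • cWord (cSum θ W) (f s)) + d θ := by
      rw [show (∑ s' ∈ endPats bb R, (acoef cf S f w s' : ℂ) • pGood θ W s')
        = goodComb cf S f w bb R θ W from rfl, goodComb_eq cf S f w bb R θ W hR hcf]
      simp only [d, smul_sub, sum_sub_distrib]
      abel
    rw [e1, map_add]
    refine (pow_le_pow_left₀ (norm_nonneg _)
      ((norm_add_le _ _).trans (add_le_add_left (hx θ) _)) 2).trans ?_
    nlinarith [sq_nonneg (τ / 2 - ‖L (d θ)‖)]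
  refine (expect_le_expect fun θ _ => key θ).trans ?_
  rw [expect_add_distrib, Fintype.expect_const, ← mul_expect]
  have h := (expect_sq_combo L S w (fun s θ => cWord (cSum θ W) (f s)
      - ∑ s' ∈ patsLE (f s).length, (cf (f s) s' : ℂ) • pGood θ W s') he).trans
    ((mul_le_mul_of_nonneg_right
      (pow_le_pow_left₀ (sum_nonneg fun _ _ => abs_nonneg _) hW 2) he0).trans hWe)
  linarith

/-- The diagonal, in the shape used by the main estimate. -/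
lemma diag_est (hD : T.DiagOut) {p N : ℕ} (U : Fin p → unitary A) (v : Fin N → unitary A)
    (hN : 0 < N) {m : ℕ} (hm : 0 < m) (t t' : Ty p) (φ : unitary A → ℂ) {C : ℝ}
    (hφ : ∀ x, ‖φ x‖ ≤ C) {nw : ℕ} (hnw : 0 < nw) (g : unitary A) {R : ℕ} {e : ℝ} (he : 0 < e)
    (hscale : ∀ L : ℕ, m ≤ L → L ≤ (2 * R + 1) * m → (𝔼 wd : Fin L → Atom p N,
      ‖walkH (atom U v) φ nw (pathProd (atom U v) (List.ofFn wd) * g)
        - walkH (atom U v) φ nw (pathProd (atom U v) ((List.ofFn wd).take m) * g)‖)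
      ≤ e / (2 * ((2 * (p + 1) : ℕ) : ℝ) ^ (2 * R)))
    (hmn : 2 * C * m / nw ≤ e / 2) (bb : Bool) :
    ∀ (r : ℕ) (sg : Fin r → Bool) (hr : 0 < r), r ≤ R → sg ⟨r - 1, by omega⟩ = bb →
      ‖(𝔼 b : Fin r → Blk p N m, walkH (atom U v) φ nw
          (wordVal (fun i => blockU U v t t' (b i)) (List.ofFn fun j => (j, sg j)) * g))
        - 𝔼 j : Fin N, walkH (atom U v) φ nw
            (atom U v (if bb then t else t', j) * g)‖ ≤ e := by
  intro r sg hr hrR hsg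
  have h := hD p U N v m t t' hm hN φ C hφ nw hnw g r _
    (fun L h1 h2 => hscale L h1 (h2.trans (Nat.mul_le_mul_right _ (by omega)))) sg hr
  rw [hsg] at h
  refine h.trans ?_
  have hb : (1 : ℝ) ≤ ((2 * (p + 1) : ℕ) : ℝ) := by
    exact_mod_cast Nat.mul_pos two_pos p.succ_pos
  have e1 : ((2 * (p + 1) : ℕ) : ℝ) ^ (2 * r) * (e / (2 * ((2 * (p + 1) : ℕ) : ℝ) ^ (2 * R)))
      ≤ e / 2 := by
    calc _ ≤ ((2 * (p + 1) : ℕ) : ℝ) ^ (2 * R) * (e / (2 * ((2 * (p + 1) : ℕ) : ℝ) ^ (2 * R))) :=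
          mul_le_mul_of_nonneg_right (pow_le_pow_right₀ hb (by omega)) (by positivity)
      _ = e / 2 := by field_simp
  linarith

/-- The crossing orders, in the shape used by the main estimate. -/
lemma cross_est (hC : T.CrossOut) {p N : ℕ} (U : Fin p → unitary A) (v : Fin N → unitary A)
    (hN : 0 < N) {D : ℕ} {δ : ℝ} (hv : T.Good U v D δ) {m : ℕ} (hm : 0 < m) (t t' : Ty p)
    (F : A →L[ℂ] A) (z : A) {C : ℝ} (hFz : ‖F‖ * ‖z‖ ≤ C) (hC0 : 0 < C) (g : unitary A)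
    {R m₀ mMax : ℕ} (hm₀ : 0 < m₀) (hm₀m : m₀ ≤ m) (hmm : m ≤ mMax) (hD : 4 * R * mMax ≤ D)
    {e : ℝ} (he : 0 < e)
    (hA : 8 * (R : ℝ) / m₀ ≤ (e / (3 * C * ((2 * (p + 1) : ℕ) : ℝ) ^ (2 * R))) ^ 2)
    (hB : δ ≤ (e / (3 * C * ((2 * (p + 1) : ℕ) : ℝ) ^ (2 * R))) ^ 2)
    (hE : C * (2 * ((R * (2 * mMax) : ℕ) : ℝ) ^ 2) / N ≤ e / 3) :
    ∀ (r : ℕ) (sg sg' : Fin r → Bool) (σ : Equiv.Perm (Fin r)), σ ≠ 1 →
      (∀ j, sg' (σ j) = sg j) → r ≤ R → ∀ G : unitary A,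
      ‖𝔼 b : Fin r → Blk p N m, T.phi2 F z
          (G * wordVal (fun i => blockU U v t t' (b i)) (List.ofFn fun j => (σ j, sg j)) * g :
            unitary A)
          (G * wordVal (fun i => blockU U v t t' (b i)) (List.ofFn fun j => (j, sg' j)) * g :
            unitary A)‖ ≤ e := by
  intro r sg sg' σ hσ hsgσ hrR G
  have h := hC p U N v m D δ t t' hm hN hv r sg sg' σ hσ hsgσ
    (le_trans (Nat.mul_le_mul (Nat.mul_le_mul_left 4 hrR) hmm) hD) F z G g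
  refine h.trans ?_
  set D₀ : ℝ := ((2 * (p + 1) : ℕ) : ℝ) ^ (2 * R) with hD₀
  have hb : (1 : ℝ) ≤ ((2 * (p + 1) : ℕ) : ℝ) := by
    exact_mod_cast Nat.mul_pos two_pos p.succ_pos
  have hD0 : 0 < D₀ := by positivity
  have s1 : Real.sqrt (8 * r / m) ≤ e / (3 * C * D₀) := by
    rw [Real.sqrt_le_left (by positivity)]
    refine le_trans ?_ hA
    gcongr
  have s2 : Real.sqrt δ ≤ e / (3 * C * D₀) := by
    rwa [Real.sqrt_le_left (by positivity)]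
  have hpow : ((2 * (p + 1) : ℕ) : ℝ) ^ (2 * r) ≤ D₀ := pow_le_pow_right₀ hb (by omega)
  calc ‖F‖ * ‖z‖ * (((2 * (p + 1) : ℕ) : ℝ) ^ (2 * r)
        * (Real.sqrt (8 * r / m) + Real.sqrt δ) + 2 * ((r * (2 * m) : ℕ) : ℝ) ^ 2 / N)
      ≤ C * (D₀ * (e / (3 * C * D₀) + e / (3 * C * D₀))
        + 2 * ((R * (2 * mMax) : ℕ) : ℝ) ^ 2 / N) := by gcongr
    _ = 2 * (e / 3) + C * (2 * ((R * (2 * mMax) : ℕ) : ℝ) ^ 2) / N := by
        field_simp; ring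
    _ ≤ e := by linarith

/-- The normalised value. -/
lemma norm_combine {E N V : ℂ} {C τ : ℝ} (hC : 1 ≤ C) (hτ : 0 ≤ τ) (h1 : ‖E - N * V‖ ≤ 6 * C * τ)
    (h2 : ‖(1 : ℂ) - N‖ ≤ 6 * C * τ) (hV : ‖V‖ ≤ C) : ‖E - V‖ ≤ 12 * C ^ 2 * τ := by
  have e : E - V = (E - N * V) - (1 - N) * V := by ring
  rw [e]
  refine (norm_sub_le _ _).trans ?_
  rw [norm_mul]
  have := mul_le_mul h2 hV (norm_nonneg _) (by positivity)
  nlinarith [mul_le_mul_of_nonneg_right hC (mul_nonneg (by linarith : (0 : ℝ) ≤ C) hτ)]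

/-- Two values from the harmonic sum. -/
lemma harmonic_compare (K : ℕ) (Ep Em : ℕ → ℂ) (a b : ℂ) {c d : ℝ}
    (hH : 0 < ∑ k ∈ Icc 1 K, (k : ℝ)⁻¹)
    (hs : ‖∑ k ∈ Icc 1 K, ((k : ℂ)⁻¹) * (Ep k - Em k)‖ ≤ c)
    (hp : ∀ k ∈ Icc 1 K, ‖Ep k - a‖ ≤ d) (hm : ∀ k ∈ Icc 1 K, ‖Em k - b‖ ≤ d) :
    ‖a - b‖ ≤ c / (∑ k ∈ Icc 1 K, (k : ℝ)⁻¹) + 2 * d := by
  set H : ℝ := ∑ k ∈ Icc 1 K, (k : ℝ)⁻¹ with hHdef
  have hsum : (H : ℂ) * (a - b) = (∑ k ∈ Icc 1 K, ((k : ℂ)⁻¹) * (Ep k - Em k))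
      + ∑ k ∈ Icc 1 K, ((k : ℂ)⁻¹) * ((a - Ep k) - (b - Em k)) := by
    rw [hHdef, Complex.ofReal_sum, sum_mul, ← sum_add_distrib]
    refine sum_congr rfl fun k _ => ?_
    push_cast
    ring
  have hb : H * ‖a - b‖ ≤ c + H * (2 * d) := by
    have := congrArg norm hsum
    rw [norm_mul, Complex.norm_real, Real.norm_of_nonneg hH.le] at this
    rw [this]
    refine (norm_add_le _ _).trans (add_le_add hs ((norm_sum_le _ _).trans ?_))
    rw [hHdef, sum_mul]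
    refine sum_le_sum fun k hk => ?_
    rw [norm_mul, norm_inv, Complex.norm_natCast]
    refine mul_le_mul_of_nonneg_left ((norm_sub_le _ _).trans ?_) (by positivity)
    rw [norm_sub_rev a, norm_sub_rev b]
    linarith [hp k hk, hm k hk]
  rw [← mul_le_mul_iff_of_pos_left hH]
  refine hb.trans (le_of_eq ?_)
  field_simp

/-- The main estimate for a power given by a combination of words. -/
lemma comb_est (hP : PairOut A) (F : A →L[ℂ] A) (z : A) {C τ : ℝ} (hC : ‖F‖ * ‖z‖ ≤ C)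
    (hC1 : 1 ≤ C) (hz : ‖z‖ ≤ C) (hτ : 0 < τ) (hτ1 : τ ≤ 1) {p N : ℕ} (U : Fin p → unitary A)
    (v : Fin N → unitary A) (hN : 0 < N) {nw : ℕ} (hnw : 0 < nw) (g : unitary A) {m nb R : ℕ}
    (hm : 0 < m) (hR : R ≤ nb) (hnb : 0 < nb) (t t' : Ty p) (bb : Bool)
    (cf : List Bool → List Bool → ℝ) (S : Finset (List Bool)) (f : List Bool → List Bool)
    (bk : List Bool → ℝ) (hf : ∀ s ∈ S, (f s).length ≤ R)
    (hcf : ∀ s ∈ S, ∀ s', cf (f s) s' ≠ 0 → s'.length ≤ (f s).length ∧ Pat bb s')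
    (w : (Fin nb → Blk p N m) → (Fin nb → Fin (2 * R + 1)) → unitary A)
    {A₁ W₁ β e : ℝ} (hA : ∑ s' ∈ endPats bb R, |acoef cf S f bk s'| ≤ A₁)
    (hW1 : 1 ≤ W₁) (hW : ∑ s ∈ S, |bk s| ≤ W₁)
    (hclose : ∀ b, BlkInj b → ∀ θ,
      ‖T.e ((w b θ : A) - ∑ s ∈ S, (bk s : ℂ) •
          cWord (cSum θ (fun i => blockU U v t t' (b i))) (f s))‖ ≤ τ / 2 ∧
      ∀ G h : unitary A, ‖T.e (F ((G : A) * ((w b θ : A) - ∑ s ∈ S, (bk s : ℂ) •
          cWord (cSum θ (fun i => blockU U v t t' (b i))) (f s)) * (h : A)))‖ ≤ τ / 2)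
    (hexp : ∀ b : Fin nb → Blk p N m, BlkInj b → ∀ s ∈ S,
      (𝔼 θ : Fin nb → Fin (2 * R + 1),
        ‖T.e (cWord (cSum θ (fun i => blockU U v t t' (b i))) (f s)
          - ∑ s' ∈ patsLE (f s).length,
            (cf (f s) s' : ℂ) • pGood θ (fun i => blockU U v t t' (b i)) s')‖ ^ 2)
        ≤ τ ^ 2 / (4 * W₁ ^ 2) ∧
      ∀ G h : unitary A, (𝔼 θ : Fin nb → Fin (2 * R + 1),
        ‖T.e (F ((G : A) * (cWord (cSum θ (fun i => blockU U v t t' (b i))) (f s)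
          - ∑ s' ∈ patsLE (f s).length,
            (cf (f s) s' : ℂ) • pGood θ (fun i => blockU U v t t' (b i)) s') * (h : A)))‖ ^ 2)
        ≤ τ ^ 2 / (4 * W₁ ^ 2))
    (hbad : ∀ f : (Fin nb → Blk p N m) → ℝ, (∀ b, BlkInj b → f b = 0) → (∀ b, |f b| ≤ 1) →
      (𝔼 b, f b) ≤ β)
    (hβ : C * (1 + (A₁ * (nb : ℝ) ^ R) ^ 2) * β ≤ τ)
    (he : 0 ≤ e) (he1 : A₁ ^ 2 * e ≤ τ) (he2 : (R.factorial : ℝ) * A₁ ^ 2 * e ≤ τ)
    (hdiag : ∀ (r : ℕ) (sg : Fin r → Bool) (hr : 0 < r), r ≤ R → sg ⟨r - 1, by omega⟩ = bb →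
      ‖(𝔼 b : Fin r → Blk p N m, walkH (atom U v) (T.phiU F z) nw
          (wordVal (fun i => blockU U v t t' (b i)) (List.ofFn fun j => (j, sg j)) * g))
        - 𝔼 j : Fin N, walkH (atom U v) (T.phiU F z) nw
            (atom U v (if bb then t else t', j) * g)‖ ≤ e)
    (hcross : ∀ (r : ℕ) (sg sg' : Fin r → Bool) (σ : Equiv.Perm (Fin r)), σ ≠ 1 →
      (∀ j, sg' (σ j) = sg j) → r ≤ R → ∀ G : unitary A,
      ‖𝔼 b : Fin r → Blk p N m, T.phi2 F z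
          (G * wordVal (fun i => blockU U v t t' (b i)) (List.ofFn fun j => (σ j, sg j)) * g :
            unitary A)
          (G * wordVal (fun i => blockU U v t t' (b i)) (List.ofFn fun j => (j, sg' j)) * g :
            unitary A)‖ ≤ e) :
    ‖(𝔼 b, 𝔼 θ, walkH (atom U v) (T.phiU F z) nw (w b θ * g))
      - (∑ s ∈ endPats bb R,
          ((acoef cf S f bk s ^ 2 * (nb.descFactorial s.length : ℝ) / (nb : ℝ) ^ s.length : ℝ) : ℂ))
          * 𝔼 j : Fin N, walkH (atom U v) (T.phiU F z) nw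
              (atom U v (if bb then t else t', j) * g)‖ ≤ 6 * C * τ := by
  have hWe : W₁ ^ 2 * (τ ^ 2 / (4 * W₁ ^ 2)) ≤ τ ^ 2 / 4 :=
    le_of_eq (by field_simp)
  have h := block_est T hP F z hC hz hτ hτ1 U v hN hnw g (R := R) (M := 2 * R + 1) hm hR hnb
    (by omega) t t' bb (acoef cf S f bk) w
    (fun b hb => by
      refine ⟨close_of_expand cf S f bk bb R (by omega) _ hf hcf T.e (fun θ => (w b θ : A))
        (fun θ => (hclose b hb θ).1) (fun s hs => (hexp b hb s hs).1) hW (by positivity) hWe,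
        fun G => ?_⟩
      exact close_of_expand cf S f bk bb R (by omega) _ hf hcf
        ((T.e.comp (F : A →ₗ[ℂ] A)).comp
          ((LinearMap.mulRight ℂ (g : A)).comp (LinearMap.mulLeft ℂ (G : A))))
        (fun θ => (w b θ : A))
        (fun θ => by simpa using (hclose b hb θ).2 G g)
        (fun s hs => by simpa using (hexp b hb s hs).2 G g) hW (by positivity) hWe)
    hbad hA he he hdiag hcross
  rw [← sum_mul] at h
  refine h.trans ?_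
  have : τ ≤ C * τ := le_mul_of_one_le_left hτ.le hC1
  linarith

/-- Two types of atoms have the same value. -/
lemma types_eq (hP : PairOut A) (hS : T.ScalarOut) {q : ℕ} (Fx : Fin (q + 1) → A →L[ℂ] A)
    (zx : Fin (q + 1) → A) (hid : ∀ x, T.phiU (Fx 0) (zx 0) x = 1) {C τ : ℝ} (hC1 : 1 ≤ C)
    (hCF : ∀ i, ‖Fx i‖ * ‖zx i‖ ≤ C) (hCz : ∀ i, ‖zx i‖ ≤ C) (hτ : 0 < τ) (hτ1 : τ ≤ 1)
    (K : ℕ) (hH : 0 < ∑ k ∈ Icc 1 K, (k : ℝ)⁻¹) (Q : Polynomial ℝ)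
    (Sk : ℕ → Finset (List Bool)) (bk : ℕ → List Bool → ℝ)
    (hSb : ∀ k, 0 < k → (∀ s ∈ Sk k, Pat true s ∧ Pat false (flipRev s)) ∧
      ∀ c : A, xPoly Q c ^ k = ∑ s ∈ Sk k, (bk k s : ℂ) • cWord c s ∧
        star (xPoly Q c) ^ k = ∑ s ∈ Sk k, (bk k s : ℂ) • cWord c (flipRev s))
    {R : ℕ} (hlen : ∀ k ∈ Icc 1 K, ∀ s ∈ Sk k, s.length ≤ R)
    (cf : List Bool → List Bool → ℝ) (Bd : List Bool → ℝ) (hBd : ∀ s s', |cf s s'| ≤ Bd s)
    (hcf : ∀ s s', cf s s' ≠ 0 → s'.length ≤ s.length ∧ ∀ b, Pat b s → Pat b s')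
    {A₁ W₁ : ℝ} (hW1 : 1 ≤ W₁)
    (hAk : ∀ k ∈ Icc 1 K, ((patsLE R).card : ℝ) * ∑ s ∈ Sk k, |bk k s| * Bd s ≤ A₁ ∧
      ((patsLE R).card : ℝ) * ∑ s ∈ Sk k, |bk k s| * Bd (flipRev s) ≤ A₁)
    (hWk : ∀ k ∈ Icc 1 K, ∑ s ∈ Sk k, |bk k s| ≤ W₁)
    {p N : ℕ} (U : Fin p → unitary A) (v : Fin N → unitary A) (hN : 0 < N) {nw : ℕ}
    (hnw : 0 < nw) (g : unitary A) {m nb : ℕ} (hm : 0 < m) (hR : R ≤ nb) (hnb : 0 < nb)
    (t t' : Ty p)
    (hu : ∀ b : Fin nb → Blk p N m, BlkInj b → ∀ θ : Fin nb → Fin (2 * R + 1),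
      ∃ u : unitary A, ∀ k ∈ Icc 1 K,
        ‖T.e ((u : A) ^ k - xPoly Q (cSum θ fun i => blockU U v t t' (b i)) ^ k)‖ ≤ τ / 2 ∧
        ‖T.e (star (u : A) ^ k
          - star (xPoly Q (cSum θ fun i => blockU U v t t' (b i))) ^ k)‖ ≤ τ / 2 ∧
        ∀ i (G h : unitary A),
          ‖T.e (Fx i ((G : A) * ((u : A) ^ k
            - xPoly Q (cSum θ fun i => blockU U v t t' (b i)) ^ k) * (h : A)))‖ ≤ τ / 2 ∧
          ‖T.e (Fx i ((G : A) * (star (u : A) ^ k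
            - star (xPoly Q (cSum θ fun i => blockU U v t t' (b i))) ^ k) * (h : A)))‖ ≤ τ / 2)
    (hexp : ∀ b : Fin nb → Blk p N m, BlkInj b → ∀ s : List Bool, s.length ≤ R → ∀ i,
      (𝔼 θ : Fin nb → Fin (2 * R + 1),
        ‖T.e (cWord (cSum θ (fun i => blockU U v t t' (b i))) s
          - ∑ s' ∈ patsLE s.length,
            (cf s s' : ℂ) • pGood θ (fun i => blockU U v t t' (b i)) s')‖ ^ 2)
        ≤ τ ^ 2 / (4 * W₁ ^ 2) ∧
      ∀ G h : unitary A, (𝔼 θ : Fin nb → Fin (2 * R + 1),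
        ‖T.e (Fx i ((G : A) * (cWord (cSum θ (fun i => blockU U v t t' (b i))) s
          - ∑ s' ∈ patsLE s.length,
            (cf s s' : ℂ) • pGood θ (fun i => blockU U v t t' (b i)) s') * (h : A)))‖ ^ 2)
        ≤ τ ^ 2 / (4 * W₁ ^ 2))
    {β e : ℝ}
    (hbad : ∀ f : (Fin nb → Blk p N m) → ℝ, (∀ b, BlkInj b → f b = 0) → (∀ b, |f b| ≤ 1) →
      (𝔼 b, f b) ≤ β)
    (hβ : C * (1 + (A₁ * (nb : ℝ) ^ R) ^ 2) * β ≤ τ)
    (he : 0 ≤ e) (he1 : A₁ ^ 2 * e ≤ τ) (he2 : (R.factorial : ℝ) * A₁ ^ 2 * e ≤ τ)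
    (hdiag : ∀ i (bb : Bool) (r : ℕ) (sg : Fin r → Bool) (hr : 0 < r), r ≤ R →
      sg ⟨r - 1, by omega⟩ = bb →
      ‖(𝔼 b : Fin r → Blk p N m, walkH (atom U v) (T.phiU (Fx i) (zx i)) nw
          (wordVal (fun i => blockU U v t t' (b i)) (List.ofFn fun j => (j, sg j)) * g))
        - 𝔼 j : Fin N, walkH (atom U v) (T.phiU (Fx i) (zx i)) nw
            (atom U v (if bb then t else t', j) * g)‖ ≤ e)
    (hcross : ∀ i (r : ℕ) (sg sg' : Fin r → Bool) (σ : Equiv.Perm (Fin r)), σ ≠ 1 →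
      (∀ j, sg' (σ j) = sg j) → r ≤ R → ∀ G : unitary A,
      ‖𝔼 b : Fin r → Blk p N m, T.phi2 (Fx i) (zx i)
          (G * wordVal (fun i => blockU U v t t' (b i)) (List.ofFn fun j => (σ j, sg j)) * g :
            unitary A)
          (G * wordVal (fun i => blockU U v t t' (b i)) (List.ofFn fun j => (j, sg' j)) * g :
            unitary A)‖ ≤ e) (i : Fin (q + 1)) :
    ‖(𝔼 j : Fin N, walkH (atom U v) (T.phiU (Fx i) (zx i)) nw (atom U v (t, j) * g))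
      - 𝔼 j : Fin N, walkH (atom U v) (T.phiU (Fx i) (zx i)) nw (atom U v (t', j) * g)‖ ≤
      100 * C / (∑ k ∈ Icc 1 K, (k : ℝ)⁻¹) + 24 * C ^ 2 * τ := by
  classical
  have : Nonempty (Fin N) := Fin.pos_iff_nonempty.1 hN
  have : Nonempty (Fin nw) := Fin.pos_iff_nonempty.1 hnw
  have : Nonempty (Fin m) := Fin.pos_iff_nonempty.1 hm
  have hu' : ∀ (b : Fin nb → Blk p N m) (θ : Fin nb → Fin (2 * R + 1)),
      ∃ u : unitary A, BlkInj b → ∀ k ∈ Icc 1 K, _ := fun b θ => by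
    by_cases hb : BlkInj b
    · obtain ⟨u, h⟩ := hu b hb θ
      exact ⟨u, fun _ => h⟩
    · exact ⟨1, fun h => absurd h hb⟩
  choose w hw using hu'
  -- one power
  have main : ∀ k ∈ Icc 1 K, ∀ (bb : Bool) (f : List Bool → List Bool)
      (pw : unitary A → unitary A),
      (∀ s ∈ Sk k, (f s).length ≤ R ∧ Pat bb (f s)) →
      ((patsLE R).card : ℝ) * ∑ s ∈ Sk k, |bk k s| * Bd (f s) ≤ A₁ →
      (∀ b, BlkInj b → ∀ θ,
        ‖T.e ((pw (w b θ) : A) - ∑ s ∈ Sk k, (bk k s : ℂ) •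
          cWord (cSum θ fun i => blockU U v t t' (b i)) (f s))‖ ≤ τ / 2 ∧
        ∀ i (G h : unitary A), ‖T.e (Fx i ((G : A) * ((pw (w b θ) : A) - ∑ s ∈ Sk k,
          (bk k s : ℂ) • cWord (cSum θ fun i => blockU U v t t' (b i)) (f s)) * (h : A)))‖
            ≤ τ / 2) →
      ‖(𝔼 b, 𝔼 θ, walkH (atom U v) (T.phiU (Fx i) (zx i)) nw (pw (w b θ) * g))
        - 𝔼 j : Fin N, walkH (atom U v) (T.phiU (Fx i) (zx i)) nw
            (atom U v (if bb then t else t', j) * g)‖ ≤ 12 * C ^ 2 * τ := by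
    intro k hk bb f pw hf hfA hclose
    have est := fun i => comb_est T hP (Fx i) (zx i) (hCF i) hC1 (hCz i) hτ hτ1 U v hN hnw g
      hm hR hnb t t' bb cf (Sk k) f (bk k) (fun s hs => (hf s hs).1)
      (fun s hs s' h0 => ⟨(hcf _ _ h0).1, (hcf _ _ h0).2 bb (hf s hs).2⟩)
      (fun b θ => pw (w b θ)) ((acoef_abs_le cf Bd hBd _ _ _ _ _).trans hfA) hW1 (hWk k hk)
      (fun b hb θ => ⟨(hclose b hb θ).1, (hclose b hb θ).2 i⟩)
      (fun b hb s hs => hexp b hb (f s) (hf s hs).1 i) hbad hβ he he1 he2 (hdiag i bb) (hcross i)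
    refine norm_combine hC1 hτ.le (est i) ?_ ?_
    · have hone : ∀ x, walkH (atom U v) (T.phiU (Fx 0) (zx 0)) nw x = 1 :=
        walkH_const _ hnw _ 1 hid
      simpa [hone] using est 0
    · exact (RCLike.norm_expect_le (K := ℂ)).trans (expect_le univ_nonempty fun j _ =>
        norm_walkH_le _ _ hnw (fun y => (norm_phiU_le T _ _ y).trans (hCF i)) _)
  refine (harmonic_compare K
    (fun k => 𝔼 b, 𝔼 θ, walkH (atom U v) (T.phiU (Fx i) (zx i)) nw (w b θ ^ k * g))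
    (fun k => 𝔼 b, 𝔼 θ, walkH (atom U v) (T.phiU (Fx i) (zx i)) nw (star (w b θ) ^ k * g))
    _ _ hH (c := 100 * C) (d := 12 * C ^ 2 * τ) ?_ (fun k hk => ?_) (fun k hk => ?_)).trans
    (le_of_eq (by ring))
  · simp only [walkH_eq, ← mul_assoc, mul_expect, ← expect_sub_distrib, ← expect_sum_comm]
    refine (RCLike.norm_expect_le (K := ℂ)).trans (expect_le univ_nonempty fun b _ =>
      (RCLike.norm_expect_le (K := ℂ)).trans (expect_le univ_nonempty fun θ _ =>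
        (RCLike.norm_expect_le (K := ℂ)).trans (expect_le univ_nonempty fun x _ => ?_)))
    refine (hS (Fx i) (zx i) (walkX (atom U v) x) g (w b θ) K).trans ?_
    calc 100 * ‖Fx i‖ * ‖zx i‖ = 100 * (‖Fx i‖ * ‖zx i‖) := mul_assoc _ _ _
      _ ≤ 100 * C := by linarith [hCF i]
  · have hk0 : 0 < k := (mem_Icc.1 hk).1
    simpa using main k hk true id (fun u => u ^ k)
      (fun s hs => ⟨hlen k hk s hs, ((hSb k hk0).1 s hs).1⟩) (hAk k hk).1
      (fun b hb θ => by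
        simp only [SubmonoidClass.coe_pow, id, ← ((hSb k hk0).2 _).1]
        exact ⟨(hw b θ hb k hk).1, fun i G h => ((hw b θ hb k hk).2.2 i G h).1⟩)
  · have hk0 : 0 < k := (mem_Icc.1 hk).1
    simpa using main k hk false flipRev (fun u => star u ^ k)
      (fun s hs => ⟨by simpa [flipRev] using hlen k hk s hs, ((hSb k hk0).1 s hs).2⟩)
      (hAk k hk).2
      (fun b hb θ => by
        simp only [SubmonoidClass.coe_pow, Unitary.coe_star, ← ((hSb k hk0).2 _).2]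
        exact ⟨(hw b θ hb k hk).2.1, fun i G h => ((hw b θ hb k hk).2.2 i G h).2⟩)

end Asm

end Vale.Agent.P082
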