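import Vale.Agent.P082.Core.BlocksInj

/-!
# Two orders of the same blocks; the diagonal
-/

noncomputable section

namespace Vale.Agent.P082.Blocks

open scoped InnerProductSpace BigOperators
open Finset

universe u v

variable {A : Type u} {V : Type v} [CStarAlgebra A] [NormedAddCommGroup V] [InnerProductSpace ℂ V]
variable {p N m r : ℕ}

/-- The lengths of blocks. -/
abbrev lens {r m : ℕ} (x : Fin r → Fin m) : Fin r → ℕ := fun j => m + 1 + (x j : ℕ)

/-- The density of a family of blocks against a path of independent letters. -/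
def dens (t t' : Ty p) (o : Fin r → Bool) (x : Fin r → Fin m) (s : List (Atom p N)) : ℝ :=
  ∏ j, wgt t t'.flip (orient (o j) (segOf (lens x) s j))

lemma dens_nonneg (t t' : Ty p) (o : Fin r → Bool) (x : Fin r → Fin m) (s : List (Atom p N)) :
    0 ≤ dens t t' o x s :=
  Finset.prod_nonneg fun _ _ => wgt_nonneg _ _ _

lemma dens_le (t t' : Ty p) (o : Fin r → Bool) (x : Fin r → Fin m) (s : List (Atom p N)) :
    dens t t' o x s ≤ ((2 * (p + 1) : ℕ) : ℝ) ^ (2 * r) := by
  refine (Finset.prod_le_prod (fun _ _ => wgt_nonneg _ _ _) fun _ _ => wgt_le _ _ _).trans ?_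
  simp [pow_mul]

/-- The law of the oriented letters of independent blocks. -/
lemma blocks_law [NeZero N] (hm : 0 < m) (t t' : Ty p) (o : Fin r → Bool)
    (Φ : (Fin r → List (Atom p N)) → ℂ) :
    (𝔼 b : Fin r → Blk p N m, Φ fun j => orient (o j) (blockList t t' (b j)))
      = 𝔼 x : Fin r → Fin m, EL (∑ j, lens x j) fun s =>
          (dens t t' o x s : ℂ) * Φ (segOf (lens x) s) := by
  have h : (𝔼 b : Fin r → Blk p N m, Φ fun j => orient (o j) (blockList t t' (b j)))
      = 𝔼 x : Fin r → Fin m, 𝔼 c : Fin r → Fin (2 * m) → Atom p N,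
          Φ fun j => orient (o j) (blockList t t' (x j, c j)) := by
    refine Eq.trans ?_ (Finset.expect_product' univ univ fun (x : Fin r → Fin m)
      (c : Fin r → Fin (2 * m) → Atom p N) => Φ fun j => orient (o j) (blockList t t' (x j, c j)))
    exact Fintype.expect_equiv (Equiv.arrowProdEquivProdArrow _ _ _) _ _ fun b => rfl
  rw [h]
  refine Finset.expect_congr rfl fun x _ => ?_
  exact expect_pieces (lens x) (fun j c => orient (o j) (blockList t t' (x j, c)))
    (fun j u => wgt t t'.flip (orient (o j) u)) (fun j f => block_density hm t t' (o j) (x j) f) Φ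

lemma nontrivial_tr (T : Tr A V) : Nontrivial A := by
  by_contra h
  rw [not_nontrivial_iff_subsingleton] at h
  have := T.norm_one
  rw [Subsingleton.elim (1 : A) 0, map_zero, norm_zero] at this
  exact one_ne_zero this.symm

lemma norm_form_arg (T : Tr A V) (F : A →L[ℂ] A) (z : A) (y : unitary A) :
    ‖T.e (F (y : A) * z)‖ ≤ ‖F‖ * ‖z‖ := by
  have := nontrivial_tr T
  have h₁ : ‖T.e z‖ ≤ ‖z‖ := by simpa [T.norm_one] using T.mul_le z 1
  have h₂ : ‖F (y : A)‖ ≤ ‖F‖ := by simpa [CStarRing.norm_coe_unitary] using F.le_opNorm (y : A)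
  exact (T.mul_le _ _).trans (mul_le_mul h₂ h₁ (norm_nonneg _) (norm_nonneg _))

lemma phi2_eq_inner (T : Tr A V) (F : A →L[ℂ] A) (z X Y : A) :
    T.phi2 F z X Y = ⟪T.e X, T.e (F Y * z)⟫_ℂ := by
  rw [T.inner_eq, Tr.phi2, Tr.tr, mul_assoc, T.comm, mul_assoc]

lemma inner_coe (T : Tr A V) (G h X X' : unitary A) :
    ⟪T.e ((G * X * h : unitary A) : A), T.e ((G * X' * h : unitary A) : A)⟫_ℂ
      = T.tr ((star X * X' : unitary A) : A) := by
  have e₁ : star (G * X * h) * (G * X' * h) = star h * (star X * X') * h := by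
    simp only [star_mul, mul_assoc]
    rw [← mul_assoc (star G) G, Unitary.star_mul_self, one_mul]
  have e₂ : star ((G * X * h : unitary A) : A) * ((G * X' * h : unitary A) : A)
      = (star h : unitary A) * ((star X * X' : unitary A) : A) * (h : A) := by
    rw [← Unitary.coe_star, ← Submonoid.coe_mul, e₁, Submonoid.coe_mul, Submonoid.coe_mul]
  rw [T.inner_eq, e₂, T.comm, Tr.tr, ← mul_assoc,
    Unitary.coe_mul_star_self h, one_mul]

lemma norm_unitary_vec (T : Tr A V) (y : unitary A) : ‖T.e (y : A)‖ = 1 := by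
  have := inner_coe T 1 1 y y
  rw [Unitary.star_mul_self, one_mul, mul_one, OneMemClass.coe_one, Tr.tr,
    inner_self_eq_norm_sq_to_K, inner_self_eq_norm_sq_to_K, T.norm_one] at this
  have h2 : ‖T.e (y : A)‖ ^ 2 = 1 := by
    simp only [Complex.coe_algebraMap, one_pow, Complex.ofReal_one] at this
    exact_mod_cast this
  nlinarith [norm_nonneg (T.e (y : A))]

lemma norm_phi2_le (T : Tr A V) (F : A →L[ℂ] A) (z : A) (X Y : unitary A) :
    ‖T.phi2 F z (X : A) (Y : A)‖ ≤ ‖F‖ * ‖z‖ := by
  rw [phi2_eq_inner]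
  refine (norm_inner_le_norm _ _).trans ?_
  rw [norm_unitary_vec, one_mul]
  exact norm_form_arg T F z Y

/-- The start of a piece. -/
def off (ℓ : Fin r → ℕ) (k : ℕ) : ℕ := ((List.ofFn ℓ).take k).sum

lemma off_eq (ℓ : Fin r → ℕ) (k : ℕ) : off ℓ k = ∑ j : Fin r with j.val < k, ℓ j :=
  List.sum_take_ofFn ℓ k

lemma take_flatten_length {ℓ : Fin r → ℕ} {rs : Fin r → List (Atom p N)}
    (h : ∀ j, (rs j).length = ℓ j) (k : ℕ) :
    ((List.ofFn rs).take k).flatten.length = off ℓ k := by
  rw [off, List.length_flatten, List.map_take, List.map_ofFn]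
  congr 3
  exact funext h

lemma off_add_le (ℓ : Fin r → ℕ) {j i : Fin r} (h : j < i) :
    off ℓ j + ℓ j ≤ off ℓ i := by
  rw [off_eq, off_eq, add_comm, ← Finset.sum_insert (by simp)]
  refine Finset.sum_le_sum_of_subset fun k hk => ?_
  simp only [Finset.mem_insert, Finset.mem_filter, Finset.mem_univ, true_and] at hk ⊢
  rcases hk with rfl | hk
  · exact h
  · exact hk.trans h

lemma off_add_le_sum (ℓ : Fin r → ℕ) (i : Fin r) : off ℓ i + ℓ i ≤ ∑ j, ℓ j := by
  rw [off_eq, add_comm, ← Finset.sum_insert (by simp)]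
  exact Finset.sum_le_sum_of_subset (Finset.subset_univ _)

section Cross

variable (σ : Equiv.Perm (Fin r))

/-- The other order of the pieces of a path. -/
def other (x : Fin r → Fin m) (s : List (Atom p N)) : List (Atom p N) :=
  (List.ofFn fun j => segOf (lens x) s (σ j)).flatten

lemma other_perm (x : Fin r → Fin m) {s : List (Atom p N)} (h : s.length = ∑ j, lens x j) :
    (other σ x s).Perm s := by
  refine List.Perm.trans ?_ (List.Perm.of_eq (segOf_spec (lens x) s h).1)
  exact (σ.ofFn_comp_perm (segOf (lens x) s)).flatten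

variable {σ} {j₀ : Fin r}

lemma other_spec (x : Fin r → Fin m) {s : List (Atom p N)} (h : s.length = ∑ j, lens x j)
    (hj : ∀ k < j₀, σ k = k) :
    (∀ d < off (lens x) j₀, (other σ x s)[d]? = s[d]?) ∧
      (other σ x s)[off (lens x) j₀]? = s[off (lens x) (σ j₀ : Fin r)]? := by
  obtain ⟨hflat, hlen⟩ := segOf_spec (lens x) s h
  have hpre : (List.ofFn fun j => segOf (lens x) s (σ j)).take j₀
      = (List.ofFn (segOf (lens x) s)).take j₀ := by
    apply List.ext_getElem
    · simp
    · intro k h₁ h₂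
      simp only [List.getElem_take, List.getElem_ofFn]
      rw [hj]
      simp only [List.length_take, List.length_ofFn, lt_min_iff] at h₁
      exact h₁.1
  refine ⟨fun d hd => ?_, ?_⟩
  · conv_rhs => rw [← hflat]
    refine flatten_getElem?_prefix _ _ j₀ d hpre ?_
    rw [hpre, take_flatten_length hlen]
    exact hd
  · have h₁ := flatten_getElem?_add (List.ofFn fun j => segOf (lens x) s (σ j)) j₀ 0
      (by simp) (by simp [hlen, lens])
    have h₂ := flatten_getElem?_add (List.ofFn (segOf (lens x) s)) (σ j₀ : Fin r) 0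
      (by simp) (by simp [hlen, lens])
    rw [hpre, take_flatten_length hlen, List.getElem_ofFn, add_zero] at h₁
    rw [take_flatten_length hlen, List.getElem_ofFn, add_zero, hflat] at h₂
    rw [other, h₁, h₂]

lemma off_eq_of_other_eq (x x' : Fin r → Fin m) {s : List (Atom p N)}
    (h : s.length = ∑ j, lens x j) (h' : s.length = ∑ j, lens x' j) (hs : s.Nodup)
    (hj : ∀ k < j₀, σ k = k) (hi : j₀ < σ j₀) (he : other σ x s = other σ x' s) :
    off (lens x) (σ j₀ : Fin r) = off (lens x') (σ j₀ : Fin r) := by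
  obtain ⟨h₁, h₂⟩ := other_spec x h hj
  obtain ⟨h₁', h₂'⟩ := other_spec x' h' hj
  have hlt : ∀ y : Fin r → Fin m, s.length = ∑ j, lens y j →
      off (lens y) j₀ < off (lens y) (σ j₀ : Fin r) ∧
        off (lens y) (σ j₀ : Fin r) < s.length := fun y hy => by
    have a₁ := off_add_le (lens y) hi
    have a₂ := off_add_le_sum (lens y) (σ j₀)
    simp only [lens] at a₁ a₂ hy ⊢
    omega
  obtain ⟨l₁, l₂⟩ := hlt x h
  obtain ⟨l₁', l₂'⟩ := hlt x' h'
  rcases lt_trichotomy (off (lens x) j₀) (off (lens x') j₀) with hc | hc | hc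
  · have : s[off (lens x) (σ j₀ : Fin r)]? = s[off (lens x) j₀]? := by
      rw [← h₂, he, h₁' _ hc]
    have := (List.getElem?_inj l₂ hs).1 this
    omega
  · rw [hc, he, h₂'] at h₂
    exact ((List.getElem?_inj l₂' hs).1 h₂).symm
  · have : s[off (lens x') (σ j₀ : Fin r)]? = s[off (lens x') j₀]? := by
      rw [← h₂', ← he, h₁ _ hc]
    have := (List.getElem?_inj l₂' hs).1 this
    omega

lemma fibre_card {s : List (Atom p N)} (hs : s.Nodup) (hj : ∀ k < j₀, σ k = k) (hi : j₀ < σ j₀)
    (x : Fin r → Fin m) (h : s.length = ∑ j, lens x j) :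
    #{y : Fin r → Fin m | (∑ j, lens y j = s.length) ∧ other σ y s = other σ x s} * m ^ 2
      ≤ m ^ r := by
  classical
  let Y : Finset (Fin r → Fin m) :=
    {y | (∑ j, lens y j = s.length) ∧ other σ y s = other σ x s}
  let f : (Fin r → Fin m) × Fin m × Fin m → Fin r → Fin m := fun q =>
    Function.update (Function.update q.1 (σ j₀) q.2.1) j₀ q.2.2
  have hinj : Set.InjOn f (Y ×ˢ (univ : Finset (Fin m × Fin m)) :
      Finset ((Fin r → Fin m) × Fin m × Fin m)) := by
    rintro ⟨y, a, b⟩ hy ⟨y', a', b'⟩ hy' e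
    simp only [Finset.coe_product, Set.mem_prod, Finset.mem_coe, Y, Finset.mem_filter,
      Finset.mem_univ, true_and, and_true] at hy hy'
    have hb : b = b' := by simpa [f] using congrFun e j₀
    have ha : a = a' := by simpa [f, hi.ne'] using congrFun e (σ j₀)
    have hrest : ∀ k, k ≠ j₀ → k ≠ σ j₀ → y k = y' k := fun k h₁ h₂ => by
      simpa [f, h₁, h₂] using congrFun e k
    have ho := (off_eq_of_other_eq y y' hy.1.symm hy'.1.symm hs hj hi
      (hy.2.trans hy'.2.symm))
    rw [off_eq, off_eq] at ho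
    have hmem : j₀ ∈ (Finset.univ.filter fun k : Fin r => k.val < (σ j₀).val) := by
      simpa using hi
    rw [← Finset.add_sum_erase _ _ hmem, ← Finset.add_sum_erase _ _ hmem] at ho
    have hs₁ : ∑ k ∈ (Finset.univ.filter fun k : Fin r => k.val < (σ j₀).val).erase j₀, lens y k
        = ∑ k ∈ (Finset.univ.filter fun k : Fin r => k.val < (σ j₀).val).erase j₀, lens y' k :=
      Finset.sum_congr rfl fun k hk => by
        simp only [Finset.mem_erase, Finset.mem_filter, Finset.mem_univ, true_and] at hk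
        simp [lens, hrest k hk.1 (by intro h; simp [h] at hk)]
    have hy₀ : y j₀ = y' j₀ := by
      simp only [lens] at ho hs₁
      exact Fin.ext (by omega)
    have hyi : y (σ j₀) = y' (σ j₀) := by
      have e₁ := hy.1.trans hy'.1.symm
      rw [← Finset.add_sum_erase _ _ (Finset.mem_univ (σ j₀)),
        ← Finset.add_sum_erase _ _ (Finset.mem_univ (σ j₀))] at e₁
      have : ∑ k ∈ univ.erase (σ j₀), lens y k = ∑ k ∈ univ.erase (σ j₀), lens y' k :=
        Finset.sum_congr rfl fun k hk => by
          simp only [Finset.mem_erase, Finset.mem_univ, and_true] at hk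
          by_cases hk₀ : k = j₀
          · simp [lens, hk₀, hy₀]
          · simp [lens, hrest k hk₀ hk]
      simp only [lens] at e₁ this
      exact Fin.ext (by omega)
    simp only [Prod.mk.injEq]
    refine ⟨funext fun k => ?_, ha, hb⟩
    by_cases h₁ : k = j₀
    · rw [h₁, hy₀]
    by_cases h₂ : k = σ j₀
    · rw [h₂, hyi]
    exact hrest k h₁ h₂
  calc #Y * m ^ 2 = #(Y ×ˢ (univ : Finset (Fin m × Fin m))) := by simp [sq]
    _ ≤ #(univ : Finset (Fin r → Fin m)) :=
        Finset.card_le_card_of_injOn f (fun _ _ => Finset.mem_univ _) hinj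
    _ = m ^ r := by simp

variable {T : Tr A V} {D : ℕ} {δ : ℝ} {U : Fin p → unitary A} {v : Fin N → unitary A}

/-- Bessel: orthonormal up to `δ`, no class too large. -/
lemma bessel (hm : 0 < m) (hG : T.Good U v D δ) {L : ℕ} (hD : 2 * L ≤ D) {s : List (Atom p N)}
    (hsL : s.length = L) (hs : (s.map Prod.snd).Nodup) (hj : ∀ k < j₀, σ k = k) (hi : j₀ < σ j₀)
    (G h : unitary A) (c : (Fin r → Fin m) → ℝ) (D₀ : ℝ)
    (hc₀ : ∀ x, 0 ≤ c x) (hc₁ : ∀ x, c x ≤ D₀)
    (hc₂ : ∀ x, (∑ j, lens x j) ≠ L → c x = 0) (ξ : V) :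
    ‖𝔼 x, (c x : ℂ) * ⟪T.e ((G * prodW U v (other σ x s) * h : unitary A) : A), ξ⟫_ℂ‖ ≤
      ‖ξ‖ * D₀ * (Real.sqrt (𝔼 x : Fin r → Fin m, if (∑ j, lens x j) = L then (1 : ℝ) else 0) / m
        + Real.sqrt (max δ 0) * 𝔼 x : Fin r → Fin m, if (∑ j, lens x j) = L then (1 : ℝ) else 0) := by
  classical
  set vec : (Fin r → Fin m) → V :=
    fun x => T.e ((G * prodW U v (other σ x s) * h : unitary A) : A)
  set S : Finset (Fin r → Fin m) := {x | ∑ j, lens x j = L} with hS
  have : Nonempty (Fin r → Fin m) := ⟨fun _ => ⟨0, hm⟩⟩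
  have hD₀ : 0 ≤ D₀ := (hc₀ Classical.ofNonempty).trans (hc₁ _)
  set Nc : ℝ := (Fintype.card (Fin r → Fin m) : ℝ) with hNc
  have hNc0 : 0 < Nc := by rw [hNc]; exact_mod_cast Fintype.card_pos
  have hmr : Nc = (m : ℝ) ^ r := by rw [hNc]; simp
  set sv : V := ∑ x ∈ S, (c x : ℂ) • vec x with hsv
  have hE : (𝔼 x, (c x : ℂ) * ⟪vec x, ξ⟫_ℂ) = ⟪sv, ξ⟫_ℂ / (Nc : ℂ) := by
    rw [Fintype.expect_eq_sum_div_card, hsv, sum_inner, hNc, Complex.ofReal_natCast]
    congr 1
    rw [← Finset.sum_subset (Finset.subset_univ S) (fun x _ hx => by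
      rw [hc₂ x (by simpa [hS] using hx)]; simp)]
    exact Finset.sum_congr rfl fun x _ => by
      rw [inner_smul_left, Complex.conj_ofReal]
  have hpair : ∀ x ∈ S, ∀ x' ∈ S, RCLike.re ⟪vec x, vec x'⟫_ℂ ≤
      (if other σ x' s = other σ x s then 1 else 0) + max δ 0 := by
    intro x hx x' hx'
    simp only [hS, Finset.mem_filter, Finset.mem_univ, true_and] at hx hx'
    by_cases he : other σ x' s = other σ x s
    · rw [if_pos he]
      refine le_add_of_le_of_nonneg ?_ (le_max_right _ _)
      refine (RCLike.re_le_norm _).trans ((norm_inner_le_norm _ _).trans ?_)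
      simp only [vec, norm_unitary_vec, mul_one, le_refl]
    · rw [if_neg he, zero_add]
      refine le_max_of_le_left ?_
      refine (RCLike.re_le_norm _).trans ?_
      have p₁ := other_perm σ x (hsL.trans hx.symm)
      have p₂ := other_perm σ x' (hsL.trans hx'.symm)
      simp only [vec]
      rw [inner_coe]
      refine pair_tr hG _ _ ?_ ?_ (Ne.symm he) ?_ ?_ ?_
      · rw [p₁.length_eq, p₂.length_eq]
      · rw [p₁.length_eq, p₂.length_eq, hsL]; omega
      · exact (p₁.map _).nodup_iff.2 hs
      · exact (p₂.map _).nodup_iff.2 hs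
      · exact fun a ha a' ha' e =>
          List.inj_on_of_nodup_map hs (p₁.mem_iff.1 ha) (p₂.mem_iff.1 ha') e
  have hsq : ‖sv‖ ^ 2 ≤ D₀ ^ 2 * ((#S : ℝ) * Nc / (m : ℝ) ^ 2 + max δ 0 * (#S : ℝ) ^ 2) := by
    calc ‖sv‖ ^ 2 = ∑ x ∈ S, ∑ x' ∈ S, c x * c x' * RCLike.re ⟪vec x, vec x'⟫_ℂ := by
          rw [← inner_self_eq_norm_sq (𝕜 := ℂ), hsv]
          simp only [sum_inner, inner_sum, inner_smul_left, inner_smul_right, map_sum,
            Complex.conj_ofReal, RCLike.re_to_complex, Complex.re_ofReal_mul, mul_assoc]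
          simp only [Complex.re_sum, Complex.re_ofReal_mul, Finset.mul_sum]
          rw [Finset.sum_comm]
          exact Finset.sum_congr rfl fun x _ => Finset.sum_congr rfl fun x' _ => by ring
      _ ≤ ∑ x ∈ S, ∑ x' ∈ S, D₀ ^ 2 *
            ((if other σ x' s = other σ x s then 1 else 0) + max δ 0) := by
          refine Finset.sum_le_sum fun x hx => Finset.sum_le_sum fun x' hx' => ?_
          have h0 : 0 ≤ (if other σ x' s = other σ x s then (1 : ℝ) else 0) + max δ 0 :=
            add_nonneg (by split_ifs <;> norm_num) (le_max_right _ _)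
          refine (mul_le_mul_of_nonneg_left (hpair x hx x' hx') (mul_nonneg (hc₀ _) (hc₀ _))).trans
            (mul_le_mul_of_nonneg_right ?_ h0)
          rw [sq]
          exact mul_le_mul (hc₁ _) (hc₁ _) (hc₀ _) hD₀
      _ ≤ _ := by
          simp only [mul_add, Finset.sum_add_distrib, ← Finset.mul_sum, Finset.sum_const,
            nsmul_eq_mul]
          refine add_le_add (mul_le_mul_of_nonneg_left ?_ (sq_nonneg _)) (le_of_eq (by ring))
          rw [mul_div_assoc, ← nsmul_eq_mul, ← Finset.sum_const]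
          refine Finset.sum_le_sum fun x hx => ?_
          simp only [hS, Finset.mem_filter, Finset.mem_univ, true_and] at hx
          rw [Finset.sum_boole, le_div_iff₀ (by positivity), hmr]
          have := fibre_card (List.Nodup.of_map _ hs) hj hi x (hsL.trans hx.symm)
          rw [hsL] at this
          exact_mod_cast (by simpa [hS, Finset.filter_filter] using this)
  have hW : (𝔼 x : Fin r → Fin m, if (∑ j, lens x j) = L then (1 : ℝ) else 0) = #S / Nc := by
    rw [Fintype.expect_eq_sum_div_card, Finset.sum_boole, hS]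
  rw [hW, hE, norm_div, Complex.norm_real, Real.norm_of_nonneg hNc0.le]
  have hsvn : ‖sv‖ ≤ D₀ * (Real.sqrt (#S * Nc) / m + Real.sqrt (max δ 0) * #S) := by
    refine (pow_le_pow_iff_left₀ (norm_nonneg _) (by positivity) two_ne_zero).1 (hsq.trans ?_)
    rw [mul_pow]
    refine mul_le_mul_of_nonneg_left ?_ (sq_nonneg _)
    rw [add_sq, mul_pow, div_pow, Real.sq_sqrt (by positivity), Real.sq_sqrt (le_max_right _ _)]
    have : (0 : ℝ) ≤ 2 * (Real.sqrt (#S * Nc) / m) * (Real.sqrt (max δ 0) * #S) := by positivity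
    linarith
  calc ‖⟪sv, ξ⟫_ℂ‖ / Nc ≤ ‖sv‖ * ‖ξ‖ / Nc := by gcongr; exact norm_inner_le_norm _ _
    _ ≤ D₀ * (Real.sqrt (#S * Nc) / m + Real.sqrt (max δ 0) * #S) * ‖ξ‖ / Nc := by gcongr
    _ = ‖ξ‖ * D₀ * (Real.sqrt ((#S : ℝ) / Nc) / m + Real.sqrt (max δ 0) * ((#S : ℝ) / Nc)) := by
        rw [Real.sqrt_mul (Nat.cast_nonneg _), Real.sqrt_div (Nat.cast_nonneg _)]
        have hs' := Real.mul_self_sqrt hNc0.le
        field_simp
        linear_combination (D₀ * ‖ξ‖ * Real.sqrt (#S : ℝ)) * hs'

end Cross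

/-- The indices of the oriented blocks of a family with different indices are different. -/
lemma flatten_index_nodup {t t' : Ty p} {b : Fin r → Blk p N m} (hb : BlkInj b)
    (o : Fin r → Bool) :
    (((List.ofFn fun j => orient (o j) (blockList t t' (b j))).flatten).map Prod.snd).Nodup := by
  rw [List.map_flatten, List.map_ofFn, List.nodup_flatten]
  refine ⟨?_, List.pairwise_ofFn.2 fun i k hik => ?_⟩
  · intro l hl
    obtain ⟨i, rfl⟩ := List.mem_ofFn.1 hl
    exact orient_nodup hb i _
  · intro q hq hq'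
    obtain ⟨a, ha, rfl⟩ := List.mem_map.1 hq
    obtain ⟨a', ha', e⟩ := List.mem_map.1 hq'
    obtain ⟨a₀, h₀, ea, -⟩ := mem_orient ha
    obtain ⟨a₀', h₀', ea', -⟩ := mem_orient ha'
    exact hik.ne (blk_mem_eq hb h₀ h₀' (by rw [ea, ea', e])).1

theorem crossBound (T : Tr A V) {U : Fin p → unitary A} {v : Fin N → unitary A} {D : ℕ} {δ : ℝ}
    (t t' : Ty p) (hm : 0 < m) (hN : 0 < N) (hG : T.Good U v D δ) (sg sg' : Fin r → Bool)
    (σ : Equiv.Perm (Fin r)) (hσ : σ ≠ 1) (hsg : ∀ j, sg' (σ j) = sg j) (hD : 4 * r * m ≤ D)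
    (F : A →L[ℂ] A) (z : A) (G h : unitary A) :
    ‖𝔼 b : Fin r → Blk p N m, T.phi2 F z
        (G * wordVal (fun i => blockU U v t t' (b i)) (List.ofFn fun j => (σ j, sg j)) * h :
          unitary A)
        (G * wordVal (fun i => blockU U v t t' (b i)) (List.ofFn fun j => (j, sg' j)) * h :
          unitary A)‖ ≤
      ‖F‖ * ‖z‖ * (((2 * (p + 1) : ℕ) : ℝ) ^ (2 * r)
          * (Real.sqrt (8 * r / m) + Real.sqrt δ)
        + 2 * ((r * (2 * m) : ℕ) : ℝ) ^ 2 / N) := by
  classical
  have : NeZero N := ⟨hN.ne'⟩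
  have : Nonempty (Fin r → Fin m) := ⟨fun _ => ⟨0, hm⟩⟩
  -- the first block which moves
  obtain ⟨j₀, hj, hi⟩ : ∃ j₀ : Fin r, (∀ k < j₀, σ k = k) ∧ j₀ < σ j₀ := by
    have hne : (Finset.univ.filter fun k => σ k ≠ k).Nonempty := by
      by_contra hc
      simp only [Finset.not_nonempty_iff_eq_empty, Finset.filter_eq_empty_iff, Finset.mem_univ,
        ne_eq, not_not, true_implies] at hc
      exact hσ (Equiv.ext fun k => hc (x := k))
    refine ⟨(Finset.univ.filter fun k => σ k ≠ k).min' hne, fun k hk => ?_, ?_⟩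
    · by_contra hc
      exact absurd (Finset.min'_le _ k (by simp [hc])) (not_le.2 hk)
    · set j₀ := (Finset.univ.filter fun k => σ k ≠ k).min' hne
      have h₀ : σ j₀ ≠ j₀ := (Finset.mem_filter.1 (Finset.min'_mem _ hne)).2
      refine lt_of_le_of_ne (le_of_not_gt fun hlt => ?_) (Ne.symm h₀)
      have : σ (σ j₀) = σ j₀ := by
        by_contra hc
        exact absurd (Finset.min'_le (Finset.univ.filter fun k => σ k ≠ k) (σ j₀) (by simp [hc]))
          (not_le.2 hlt)
      exact h₀ (σ.injective this)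
  have hr : 0 < r := Fin.pos j₀
  let val : (Fin r → List (Atom p N)) → ℂ := fun rs => T.phi2 F z
    (G * prodW U v (List.ofFn fun j => rs (σ j)).flatten * h : unitary A)
    (G * prodW U v (List.ofFn rs).flatten * h : unitary A)
  let gd : (Fin r → List (Atom p N)) → Prop := fun rs =>
    ((List.ofFn rs).flatten.map Prod.snd).Nodup
  let rsb : (Fin r → Blk p N m) → Fin r → List (Atom p N) := fun b j =>
    orient (sg' j) (blockList t t' (b j))
  set K := ‖F‖ * ‖z‖ with hK
  have hK0 : 0 ≤ K := by positivity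
  have hval : ∀ b : Fin r → Blk p N m, T.phi2 F z
      (G * wordVal (fun i => blockU U v t t' (b i)) (List.ofFn fun j => (σ j, sg j)) * h :
        unitary A)
      (G * wordVal (fun i => blockU U v t t' (b i)) (List.ofFn fun j => (j, sg' j)) * h :
        unitary A) = val (rsb b) := fun b => by
    rw [wordVal_blockU U v t t' b (fun j => σ j) sg, wordVal_blockU U v t t' b (fun j => j) sg']
    simp only [val, rsb, hsg]
  simp only [hval]
  -- split off the families with a repeated index
  have hsplit : (𝔼 b, val (rsb b)) = (𝔼 b, (if gd (rsb b) then val (rsb b) else 0))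
      + 𝔼 b, (if gd (rsb b) then 0 else val (rsb b)) := by
    rw [← Finset.expect_add_distrib]
    exact Finset.expect_congr rfl fun b _ => by split_ifs <;> simp
  have hbad : ‖𝔼 b, (if gd (rsb b) then 0 else val (rsb b))‖
      ≤ K * (((r * (2 * m) : ℕ) : ℝ) ^ 2 / N) := by
    refine (RCLike.norm_expect_le (K := ℂ)).trans ?_
    refine (Finset.expect_le_expect (g := fun b => K * if gd (rsb b) then 0 else 1)
      fun b _ => ?_).trans ?_
    · split_ifs
      · simp
      · simpa using norm_phi2_le T F z _ _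
    · rw [← Finset.mul_expect]
      refine mul_le_mul_of_nonneg_left (expect_notInj_le hm hN _ (fun b hb => ?_) fun b => ?_) hK0
      · exact if_pos (flatten_index_nodup hb sg')
      · split_ifs <;> simp
  -- the families without, by their paths
  let W : ℕ → ℝ := fun L => 𝔼 x : Fin r → Fin m, if (∑ j, lens x j) = L then (1 : ℝ) else 0
  let D₀ : ℝ := ((2 * (p + 1) : ℕ) : ℝ) ^ (2 * r)
  have hlen : ∀ x : Fin r → Fin m, ∑ j, lens x j ≤ 2 * r * m := fun x =>
    (Finset.sum_le_card_nsmul _ _ (2 * m) fun j _ => by simp [lens]; omega).trans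
      (le_of_eq (by simp; ring))
  have hmain : ‖𝔼 b, (if gd (rsb b) then val (rsb b) else 0)‖
      ≤ ∑ L ∈ range (2 * r * m + 1),
          K * D₀ * (Real.sqrt (W L) / m + Real.sqrt (max δ 0) * W L) := by
    rw [blocks_law hm t t' sg' fun rs => if gd rs then val rs else 0]
    have hgroup : (𝔼 x : Fin r → Fin m, EL (∑ j, lens x j) fun s : List (Atom p N) =>
          (dens t t' sg' x s : ℂ)
            * (if gd (segOf (lens x) s) then val (segOf (lens x) s) else 0))
        = ∑ L ∈ range (2 * r * m + 1), EL L fun s => 𝔼 x : Fin r → Fin m,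
            if (∑ j, lens x j) = L then (dens t t' sg' x s : ℂ)
              * (if gd (segOf (lens x) s) then val (segOf (lens x) s) else 0) else 0 := by
      simp only [EL]
      conv_rhs => enter [2, L]; rw [Finset.expect_comm]
      rw [← Finset.expect_sum_comm]
      refine Finset.expect_congr rfl fun x _ => ?_
      rw [Finset.sum_eq_single (∑ j, lens x j)]
      · simp
      · intro L _ hne
        simp [Ne.symm hne]
      · intro hx
        exact absurd (Finset.mem_range.2 (Nat.lt_succ_of_le (hlen x))) hx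
    rw [hgroup]
    refine (norm_sum_le _ _).trans (Finset.sum_le_sum fun L hL => ?_)
    have hW0 : 0 ≤ W L := Finset.expect_nonneg fun x _ => by split_ifs <;> norm_num
    refine (RCLike.norm_expect_le (K := ℂ)).trans
      (Finset.expect_le univ_nonempty fun w _ => ?_)
    have hsL : (List.ofFn w).length = L := List.length_ofFn
    by_cases hs : ((List.ofFn w).map Prod.snd).Nodup
    · let Y : unitary A := G * prodW U v (List.ofFn w) * h
      let c : (Fin r → Fin m) → ℝ := fun x =>
        if (∑ j, lens x j) = L then dens t t' sg' x (List.ofFn w) else 0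
      have e : ∀ x : Fin r → Fin m, (if (∑ j, lens x j) = L then (dens t t' sg' x (List.ofFn w) : ℂ)
            * (if gd (segOf (lens x) (List.ofFn w)) then val (segOf (lens x) (List.ofFn w)) else 0)
            else 0)
          = (c x : ℂ) * ⟪T.e ((G * prodW U v (other σ x (List.ofFn w)) * h : unitary A) : A),
              T.e (F (Y : A) * z)⟫_ℂ := fun x => by
        by_cases hx : (∑ j, lens x j) = L
        · have hflat := (segOf_spec (lens x) (List.ofFn w) (hsL.trans hx.symm)).1
          simp only [c, if_pos hx, gd, hflat, if_pos hs, val]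
          rw [phi2_eq_inner]
          rfl
        · simp [c, hx]
      simp only [e]
      refine (bessel hm hG ?_ hsL hs hj hi G h c D₀ ?_ ?_ ?_ _).trans ?_
      · have := Finset.mem_range.1 hL
        calc 2 * L ≤ 2 * (2 * r * m) := by omega
          _ = 4 * r * m := by ring
          _ ≤ D := hD
      · exact fun x => by simp only [c]; split_ifs <;> [exact dens_nonneg _ _ _ _ _; exact le_rfl]
      · exact fun x => by
          simp only [c]
          split_ifs <;> [exact dens_le _ _ _ _ _; exact (pow_nonneg (Nat.cast_nonneg _) _)]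
      · exact fun x hx => if_neg hx
      · refine mul_le_mul_of_nonneg_right ?_ (add_nonneg (by positivity) (by positivity))
        exact mul_le_mul_of_nonneg_right (norm_form_arg T F z Y)
          (pow_nonneg (Nat.cast_nonneg _) _)
    · have e : ∀ x : Fin r → Fin m, (if (∑ j, lens x j) = L then (dens t t' sg' x (List.ofFn w) : ℂ)
            * (if gd (segOf (lens x) (List.ofFn w)) then val (segOf (lens x) (List.ofFn w)) else 0)
            else 0) = 0 := fun x => by
        by_cases hx : (∑ j, lens x j) = L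
        · rw [if_pos hx, if_neg, mul_zero]
          intro hg
          simp only [gd, (segOf_spec (lens x) (List.ofFn w) (hsL.trans hx.symm)).1] at hg
          exact hs hg
        · simp [hx]
      simp only [e, Finset.expect_const_zero, norm_zero]
      positivity
  -- Cauchy over the total length
  have hW1 : ∑ L ∈ range (2 * r * m + 1), W L = 1 := by
    simp only [W]
    rw [← Finset.expect_sum_comm]
    refine (Finset.expect_congr rfl fun x _ => ?_).trans (Fintype.expect_const (1 : ℝ))
    rw [Finset.sum_ite_eq, if_pos (Finset.mem_range.2 (Nat.lt_succ_of_le (hlen x)))]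
  have hsum : ∑ L ∈ range (2 * r * m + 1), Real.sqrt (W L) / m ≤ Real.sqrt (8 * r / m) := by
    have hW0 : ∀ L, 0 ≤ W L := fun L => Finset.expect_nonneg fun x _ => by
      split_ifs <;> norm_num
    have h1 : ∑ L ∈ range (2 * r * m + 1), Real.sqrt (W L) ≤ Real.sqrt (8 * r * m) := by
      have := Real.sum_sqrt_mul_sqrt_le (range (2 * r * m + 1)) (f := fun _ => (1 : ℝ)) (g := W)
        (fun _ => zero_le_one) hW0
      simp only [Real.sqrt_one, one_mul, Finset.sum_const, Finset.card_range, nsmul_eq_mul,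
        mul_one, hW1] at this
      refine this.trans (Real.sqrt_le_sqrt ?_)
      have : (1 : ℝ) ≤ r * m := by exact_mod_cast Nat.mul_pos hr hm
      push_cast
      linarith
    rw [← Finset.sum_div]
    refine (div_le_div_of_nonneg_right h1 (Nat.cast_nonneg _)).trans (le_of_eq ?_)
    rw [show (8 * (r : ℝ) / m) = 8 * r * m / (m : ℝ) ^ 2 by field_simp,
      Real.sqrt_div' _ (sq_nonneg _), Real.sqrt_sq (Nat.cast_nonneg _)]
  have hδ : Real.sqrt (max δ 0) = Real.sqrt δ := by
    rcases le_total δ 0 with hd | hd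
    · rw [max_eq_right hd, Real.sqrt_zero, Real.sqrt_eq_zero'.2 hd]
    · rw [max_eq_left hd]
  have hfin : ∑ L ∈ range (2 * r * m + 1),
      K * D₀ * (Real.sqrt (W L) / m + Real.sqrt (max δ 0) * W L)
        ≤ K * D₀ * (Real.sqrt (8 * r / m) + Real.sqrt δ) := by
    rw [← Finset.mul_sum, Finset.sum_add_distrib, ← Finset.mul_sum, hW1, mul_one, hδ]
    exact mul_le_mul_of_nonneg_left (add_le_add hsum le_rfl)
      (mul_nonneg hK0 (pow_nonneg (Nat.cast_nonneg _) _))
  rw [hsplit]
  refine (norm_add_le _ _).trans ((add_le_add (hmain.trans hfin) hbad).trans ?_)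
  rw [mul_add K, mul_assoc K D₀]
  refine add_le_add le_rfl (mul_le_mul_of_nonneg_left ?_ hK0)
  rw [mul_div_assoc]
  linarith [show (0 : ℝ) ≤ ((r * (2 * m) : ℕ) : ℝ) ^ 2 / N by positivity]

theorem diagBound (hW : WalkOut.{u}) {U : Fin p → unitary A} {v : Fin N → unitary A} (t t' : Ty p)
    (hm : 0 < m) (hN : 0 < N) (φ : unitary A → ℂ) (C : ℝ) (hφ : ∀ x, ‖φ x‖ ≤ C) {n : ℕ}
    (hn : 0 < n) (g : unitary A) (η : ℝ)
    (hη : ∀ L : ℕ, m ≤ L → L ≤ 2 * r * m → (𝔼 w : Fin L → Atom p N,
        ‖walkH (atom U v) φ n (pathProd (atom U v) (List.ofFn w) * g)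
          - walkH (atom U v) φ n (pathProd (atom U v) ((List.ofFn w).take m) * g)‖) ≤ η)
    (sg : Fin r → Bool) (hr : 0 < r) :
    ‖(𝔼 b : Fin r → Blk p N m, walkH (atom U v) φ n
        (wordVal (fun i => blockU U v t t' (b i)) (List.ofFn fun j => (j, sg j)) * g))
      - 𝔼 j : Fin N, walkH (atom U v) φ n
          (atom U v (if sg ⟨r - 1, by omega⟩ then t else t', j) * g)‖ ≤
      ((2 * (p + 1) : ℕ) : ℝ) ^ (2 * r) * η + 2 * C * m / n := by
  have : NeZero N := ⟨hN.ne'⟩
  have : Nonempty (Fin r → Fin m) := ⟨fun _ => ⟨0, hm⟩⟩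
  have : Nonempty (Fin m) := ⟨⟨0, hm⟩⟩
  set H := walkH (atom U v) φ n
  obtain ⟨q, rfl⟩ : ∃ q, r = q + 1 := ⟨r - 1, by omega⟩
  set lastI : Fin (q + 1) := Fin.last q
  have hlast : (⟨q + 1 - 1, by omega⟩ : Fin (q + 1)) = lastI := Fin.ext (by simp [lastI])
  rw [hlast]
  let rsb : (Fin (q + 1) → Blk p N m) → Fin (q + 1) → List (Atom p N) := fun b j =>
    orient (sg j) (blockList t t' (b j))
  let first : (Fin (q + 1) → List (Atom p N)) → List (Atom p N) := fun rs =>
    (rs lastI).reverse.take m
  let whole : (Fin (q + 1) → List (Atom p N)) → ℂ := fun rs =>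
    H (prodW U v (List.ofFn rs).flatten * g)
  let short : (Fin (q + 1) → List (Atom p N)) → ℂ := fun rs =>
    H (pathProd (atom U v) (first rs) * g)
  have hval : ∀ b, H (wordVal (fun i => blockU U v t t' (b i)) (List.ofFn fun j => (j, sg j)) * g)
      = whole (rsb b) := fun b => by
    rw [wordVal_blockU U v t t' b (fun j => j) sg]
  simp only [hval]
  -- only the first `m` letters matter
  have h₁ : ‖(𝔼 b, whole (rsb b)) - 𝔼 b, short (rsb b)‖
      ≤ ((2 * (p + 1) : ℕ) : ℝ) ^ (2 * (q + 1)) * η := by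
    rw [← Finset.expect_sub_distrib, blocks_law hm t t' sg fun rs => whole rs - short rs]
    refine (RCLike.norm_expect_le (K := ℂ)).trans (Finset.expect_le univ_nonempty fun x _ => ?_)
    refine (RCLike.norm_expect_le (K := ℂ)).trans ?_
    set L := ∑ j, lens x j
    have hLm : m ≤ L := le_trans (by simp [lens]; omega)
      (Finset.single_le_sum (f := lens x) (fun _ _ => Nat.zero_le _) (Finset.mem_univ lastI))
    have hL2 : L ≤ 2 * (q + 1) * m :=
      (Finset.sum_le_card_nsmul _ _ (2 * m) fun j _ => by simp [lens]; omega).trans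
        (le_of_eq (by simp; ring))
    let ψ : List (Atom p N) → ℝ := fun l =>
      ‖H (pathProd (atom U v) l * g) - H (pathProd (atom U v) (l.take m) * g)‖
    calc (𝔼 w : Fin L → Atom p N, ‖(dens t t' sg x (List.ofFn w) : ℂ)
            * (whole (segOf (lens x) (List.ofFn w)) - short (segOf (lens x) (List.ofFn w)))‖)
        ≤ 𝔼 w : Fin L → Atom p N,
            ((2 * (p + 1) : ℕ) : ℝ) ^ (2 * (q + 1)) * ψ (List.ofFn w).reverse := by
          refine Finset.expect_le_expect fun w _ => ?_
          rw [norm_mul, Complex.norm_real, Real.norm_of_nonneg (dens_nonneg _ _ _ _ _)]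
          refine mul_le_mul (dens_le _ _ _ _ _) (le_of_eq ?_) (norm_nonneg _) (by positivity)
          obtain ⟨hflat, hlens⟩ := segOf_spec (lens x) (List.ofFn w)
            (show (List.ofFn w).length = L from List.length_ofFn)
          have hsplit : (List.ofFn w).reverse = (segOf (lens x) (List.ofFn w) lastI).reverse
              ++ (List.ofFn fun j : Fin q =>
                segOf (lens x) (List.ofFn w) j.castSucc).flatten.reverse := by
            conv_lhs => rw [← hflat, List.ofFn_succ', List.concat_eq_append, List.flatten_append,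
              List.flatten_cons, List.flatten_nil, List.append_nil, List.reverse_append]
          simp only [whole, short, first, ψ, hflat, pathProd_eq, List.reverse_reverse]
          rw [hsplit, List.take_append_of_le_length (by
            rw [List.length_reverse, hlens]; simp [lens]; omega)]
      _ = ((2 * (p + 1) : ℕ) : ℝ) ^ (2 * (q + 1)) * 𝔼 w : Fin L → Atom p N, ψ (List.ofFn w) := by
          rw [← Finset.mul_expect]
          exact congrArg _ (EL_reverse L ψ)
      _ ≤ _ := mul_le_mul_of_nonneg_left (hη L hLm hL2) (by positivity)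
  -- the walk forgets all but the first letter
  set T₀ := if sg lastI then t else t'
  have h₂ : (𝔼 b, short (rsb b)) = 𝔼 j : Fin N, EL (m - 1) fun w =>
      H (pathProd (atom U v) ((T₀, j) :: w) * g) := by
    let F₀ : Blk p N m → ℂ := fun q =>
      H (pathProd (atom U v) ((orient (sg lastI) (blockList t t' q)).reverse.take m) * g)
    have e : (𝔼 b : Fin (q + 1) → Blk p N m, F₀ (b lastI)) = 𝔼 q, F₀ q := by
      refine (Fintype.expect_equiv (Equiv.funSplitAt lastI _) _ (fun x => F₀ x.1)
        fun b => rfl).trans ?_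
      refine (Finset.expect_product' univ univ fun (a : Blk p N m) _ => F₀ a).trans ?_
      have : Nonempty (Blk p N m) := ⟨(⟨0, hm⟩, fun _ => ((none, false), ⟨0, hN⟩))⟩
      exact Finset.expect_congr rfl fun a _ => Finset.expect_const univ_nonempty _
    refine e.trans ?_
    refine (Finset.expect_product univ univ fun a : Blk p N m => F₀ a).trans ?_
    refine (Finset.expect_congr rfl fun x _ => block_first hm t t' (sg lastI) x
      fun l => H (pathProd (atom U v) l * g)).trans ?_
    exact Fintype.expect_const _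
  have h₃ : ‖(𝔼 b, short (rsb b)) - 𝔼 j : Fin N, H (atom U v (T₀, j) * g)‖ ≤ 2 * C * m / n := by
    rw [h₂, ← Finset.expect_sub_distrib]
    refine (RCLike.norm_expect_le (K := ℂ)).trans
      (Finset.expect_le univ_nonempty fun j _ => ?_)
    have hC : 0 ≤ C := (norm_nonneg _).trans (hφ 1)
    have := (hW (unitary A) (Atom p N) (atom U v) Unit (fun _ => φ) (fun _ => 1) C
      (fun _ => hφ) n hn).1 () (atom U v (T₀, j) * g) (m - 1)
    have hw : EL (m - 1) (fun w => H (pathProd (atom U v) ((T₀, j) :: w) * g))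
        = 𝔼 w : Fin (m - 1) → Atom p N,
            H (pathProd (atom U v) (List.ofFn w) * (atom U v (T₀, j) * g)) := by
      refine Finset.expect_congr rfl fun w _ => ?_
      simp only [pathProd]
      rw [List.map_cons, List.reverse_cons, List.prod_append, List.prod_singleton,
        mul_assoc]
    rw [hw]
    have hmn : 2 * C * ((m - 1 : ℕ) : ℝ) / n ≤ 2 * C * m / n := by
      gcongr
      exact Nat.sub_le m 1
    exact this.trans hmn
  exact (norm_sub_le_norm_sub_add_norm_sub _ _ _).trans (add_le_add h₁ h₃)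

end Vale.Agent.P082.Blocks

namespace Vale.Agent.P082

universe u v

variable {A : Type u} {V : Type v} [CStarAlgebra A] [NormedAddCommGroup V] [InnerProductSpace ℂ V]

theorem crossOut (T : Tr A V) : T.CrossOut :=
  fun _ _ _ _ _ _ _ t t' hm hN hG _ sg sg' σ hσ hsg hD F z G h =>
    Blocks.crossBound T t t' hm hN hG sg sg' σ hσ hsg hD F z G h

theorem diagOut (T : Tr A V) (hW : WalkOut.{u}) : T.DiagOut :=
  fun _ _ _ _ _ t t' hm hN φ C hφ _ hn g _ η hη sg hr =>
    Blocks.diagBound hW t t' hm hN φ C hφ hn g η hη sg hr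

end Vale.Agent.P082
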