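import Vale.Agent.P082.Core.Frame

/-!
# Blocks as lists of atoms

Averages over lists of a given length, the cutting of a list into pieces, and the law of the
letters of a block.  Here lists are in product order: `prodW` multiplies from the left.
-/

noncomputable section

namespace Vale.Agent.P082.Blocks

open scoped BigOperators
open Finset

universe u

variable {α β : Type*}

/-- The average over all lists of length `n`. -/
def EL [Fintype α] {M : Type*} [AddCommMonoid M] [Module ℚ≥0 M] (n : ℕ) (f : List α → M) : M :=
  𝔼 w : Fin n → α, f (List.ofFn w)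

section

variable [Fintype α] {M : Type*} [AddCommMonoid M] [Module ℚ≥0 M]

lemma EL_congr {n : ℕ} {f g : List α → M} (h : ∀ l : List α, l.length = n → f l = g l) :
    EL n f = EL n g :=
  Finset.expect_congr rfl fun w _ => h _ (List.length_ofFn)

lemma EL_add (a b : ℕ) (f : List α → M) :
    EL (a + b) f = EL a fun u => EL b fun v => f (u ++ v) := by
  unfold EL
  rw [← Finset.expect_product']
  refine (Fintype.expect_equiv (Fin.appendEquiv a b) _ _ fun p => ?_).symm
  simp [Fin.appendEquiv, List.ofFn_fin_append]

lemma EL_one (f : List α → M) : EL 1 f = 𝔼 a : α, f [a] :=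
  Fintype.expect_equiv (Equiv.funUnique (Fin 1) α) _ _ fun w => by simp

lemma EL_reverse (n : ℕ) : ∀ f : List α → M, EL n (fun l => f l.reverse) = EL n f := by
  induction n with
  | zero => intro f; exact EL_congr fun l hl => by simp [List.length_eq_zero_iff.1 hl]
  | succ n ih =>
    intro f
    rw [EL_add n 1 fun l => f l.reverse]
    simp only [List.reverse_append]
    rw [ih fun u => EL 1 fun v => f (v.reverse ++ u)]
    conv_rhs => rw [Nat.add_comm n 1, EL_add 1 n f]
    simp only [EL_one, List.reverse_singleton]
    exact Finset.expect_comm _ _ _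

lemma EL_map (e : α ≃ α) (n : ℕ) (f : List α → M) : EL n (fun l => f (l.map e)) = EL n f :=
  Fintype.expect_equiv (Equiv.piCongrRight fun _ => e) _ _ fun w => by
    simp [List.map_ofFn, Function.comp_def]
    rfl

lemma EL_take [Nonempty α] {a n : ℕ} (h : a ≤ n) (f : List α → M) :
    EL n (fun l => f (l.take a)) = EL a f := by
  obtain ⟨b, rfl⟩ := Nat.exists_eq_add_of_le h
  rw [EL_add]
  refine EL_congr fun u hu => ?_
  simp only [List.take_left' hu, EL]
  exact Finset.expect_const Finset.univ_nonempty _

lemma expect_fun_prefix [Nonempty α] (a b : ℕ) (f : (Fin a → α) → M) :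
    (𝔼 w : Fin (a + b) → α, f (fun i => w (Fin.castAdd b i))) = 𝔼 u : Fin a → α, f u := by
  have : (𝔼 w : Fin (a + b) → α, f (fun i => w (Fin.castAdd b i)))
      = 𝔼 p : (Fin a → α) × (Fin b → α), f p.1 :=
    (Fintype.expect_equiv (Fin.appendEquiv a b) _ _ fun p => by simp [Fin.appendEquiv]).symm
  rw [this]
  refine (Finset.expect_product' univ univ fun (u : Fin a → α) (_ : Fin b → α) => f u).trans ?_
  exact Finset.expect_congr rfl fun u _ => Finset.expect_const Finset.univ_nonempty _

end

/-- Cut a list into pieces of given lengths. -/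
def segOf : {r : ℕ} → (Fin r → ℕ) → List α → Fin r → List α
  | 0, _, _ => Fin.elim0
  | _ + 1, ℓ, t => Fin.cons (t.take (ℓ 0)) (segOf (fun j => ℓ j.succ) (t.drop (ℓ 0)))

lemma segOf_spec : ∀ {r : ℕ} (ℓ : Fin r → ℕ) (t : List α), t.length = ∑ j, ℓ j →
    (List.ofFn (segOf ℓ t)).flatten = t ∧ ∀ j, (segOf ℓ t j).length = ℓ j
  | 0, ℓ, t, h => by simp at h; simp [h]
  | r + 1, ℓ, t, h => by
    rw [Fin.sum_univ_succ] at h
    obtain ⟨h₁, h₂⟩ := segOf_spec (fun j => ℓ j.succ) (t.drop (ℓ 0)) (by simp; omega)
    refine ⟨?_, fun j => ?_⟩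
    · simp only [segOf, List.ofFn_cons, List.flatten_cons, h₁, List.take_append_drop]
    · cases j using Fin.cases with
      | zero => simp only [segOf, Fin.cons_zero, List.length_take]; omega
      | succ j => simp only [segOf, Fin.cons_succ]; exact h₂ j

/-- Independent pieces with densities: the concatenation has the product density. -/
lemma expect_pieces [Fintype α] [Fintype β] : ∀ {r : ℕ} (ℓ : Fin r → ℕ) (g : Fin r → β → List α)
    (w : Fin r → List α → ℝ),
    (∀ j (f : List α → ℂ), (𝔼 c, f (g j c)) = EL (ℓ j) fun u => (w j u : ℂ) * f u) →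
    ∀ Φ : (Fin r → List α) → ℂ, (𝔼 c : Fin r → β, Φ fun j => g j (c j))
      = EL (∑ j, ℓ j) fun t => ((∏ j, w j (segOf ℓ t j) : ℝ) : ℂ) * Φ (segOf ℓ t)
  | 0, ℓ, g, w, _, Φ => by
    have h : ∀ x : Fin 0 → List α, x = Fin.elim0 := fun x => Subsingleton.elim _ _
    rw [show (∑ j, ℓ j) = 0 from Finset.sum_eq_zero fun j _ => j.elim0]
    simp only [h, Finset.univ_eq_empty (α := Fin 0), Finset.prod_empty, Complex.ofReal_one,
      one_mul, EL]
    exact (Fintype.expect_const _).trans (Fintype.expect_const _).symm
  | r + 1, ℓ, g, w, hw, Φ => by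
    have ih : ∀ Ψ : (Fin r → List α) → ℂ, (𝔼 c : Fin r → β, Ψ fun j => g j.succ (c j))
        = EL (∑ j : Fin r, ℓ j.succ) fun t =>
          ((∏ j : Fin r, w j.succ (segOf (fun j => ℓ j.succ) t j) : ℝ) : ℂ)
            * Ψ (segOf (fun j => ℓ j.succ) t) :=
      expect_pieces (fun j => ℓ j.succ) (fun j => g j.succ) (fun j => w j.succ) fun j => hw j.succ
    calc (𝔼 c : Fin (r + 1) → β, Φ fun j => g j (c j))
        = 𝔼 c₀ : β, 𝔼 c' : Fin r → β, Φ (Fin.cons (g 0 c₀) fun j => g j.succ (c' j)) := by
          refine (Eq.trans ?_ (Finset.expect_product' univ univ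
            fun (c₀ : β) (c' : Fin r → β) => Φ (Fin.cons (g 0 c₀) fun j => g j.succ (c' j))))
          refine (Fintype.expect_equiv (Fin.consEquiv fun _ => β) _ _ fun p => ?_).symm
          congr 1
          ext j : 1
          cases j using Fin.cases <;> simp [Fin.consEquiv]
      _ = 𝔼 c₀ : β, (fun u => EL (∑ j : Fin r, ℓ j.succ) fun t =>
            ((∏ j : Fin r, w j.succ (segOf (fun j => ℓ j.succ) t j) : ℝ) : ℂ)
              * Φ (Fin.cons u (segOf (fun j => ℓ j.succ) t))) (g 0 c₀) :=
          Finset.expect_congr rfl fun c₀ _ => ih fun z => Φ (Fin.cons (g 0 c₀) z)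
      _ = _ := by
          refine (hw 0 fun u => EL (∑ j : Fin r, ℓ j.succ) fun t =>
            ((∏ j : Fin r, w j.succ (segOf (fun j => ℓ j.succ) t j) : ℝ) : ℂ)
              * Φ (Fin.cons u (segOf (fun j => ℓ j.succ) t))).trans ?_
          rw [Fin.sum_univ_succ, EL_add]
          refine EL_congr fun u hu => ?_
          rw [EL, EL, Finset.mul_expect]
          refine Finset.expect_congr rfl fun v _ => ?_
          simp [segOf, List.take_left' hu, List.drop_left' hu, Fin.prod_univ_succ]
          ring

lemma flatten_getElem?_add (L : List (List α)) (j d : ℕ) (hj : j < L.length)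
    (hd : d < L[j].length) : L.flatten[(L.take j).flatten.length + d]? = L[j][d]? := by
  have e : L.flatten = (L.take j).flatten ++ (L[j] ++ (L.drop (j + 1)).flatten) := by
    rw [← List.flatten_cons, ← List.drop_eq_getElem_cons hj, ← List.flatten_append,
      List.take_append_drop]
  rw [e, List.getElem?_append_right (Nat.le_add_right _ _), Nat.add_sub_cancel_left,
    List.getElem?_append_left hd]

lemma flatten_getElem?_prefix (L L' : List (List α)) (j d : ℕ) (h : L.take j = L'.take j)
    (hd : d < (L.take j).flatten.length) : L.flatten[d]? = L'.flatten[d]? := by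
  conv_lhs => rw [← List.take_append_drop j L, List.flatten_append]
  conv_rhs => rw [← List.take_append_drop j L', List.flatten_append]
  rw [List.getElem?_append_left hd, ← h, List.getElem?_append_left hd]

/-! ## Atoms -/

variable {p N : ℕ}

/-- The inverse atom. -/
def flipA (a : Atom p N) : Atom p N := (a.1.flip, a.2)

lemma flipA_involutive : Function.Involutive (flipA : Atom p N → Atom p N) := fun a => by
  simp [flipA, Ty.flip]

/-- The inverse atom, as a bijection. -/
def flipEquiv (p N : ℕ) : Atom p N ≃ Atom p N := flipA_involutive.toPerm flipA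

/-- A block (written along the path) or its inverse, in product order. -/
def orient (o : Bool) (l : List (Atom p N)) : List (Atom p N) :=
  if o then l.reverse else l.map flipA

lemma orient_orient (o : Bool) (l : List (Atom p N)) : orient o (orient o l) = l := by
  cases o <;> simp [orient, Function.comp_def, flipA_involutive _]

lemma orient_length (o : Bool) (l : List (Atom p N)) : (orient o l).length = l.length := by
  cases o <;> simp [orient]

lemma orient_index_perm (o : Bool) (l : List (Atom p N)) :
    ((orient o l).map Prod.snd).Perm (l.map Prod.snd) := by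
  cases o
  · simp [orient, flipA, Function.comp_def]
  · exact (List.reverse_perm l).map _

lemma EL_orient (o : Bool) (n : ℕ) (f : List (Atom p N) → ℂ) :
    EL n (fun l => f (orient o l)) = EL n f := by
  cases o
  · exact EL_map (flipEquiv p N) n f
  · exact EL_reverse n f

lemma expect_atom [NeZero N] (t : Ty p) (f : Atom p N → ℂ) :
    (𝔼 j : Fin N, f (t, j))
      = 𝔼 a : Atom p N, (if a.1 = t then (Fintype.card (Ty p) : ℂ) else 0) * f a := by
  have : (𝔼 a : Atom p N, (if a.1 = t then (Fintype.card (Ty p) : ℂ) else 0) * f a)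
      = 𝔼 s : Ty p, 𝔼 j : Fin N, (if s = t then (Fintype.card (Ty p) : ℂ) else 0) * f (s, j) :=
    Finset.expect_product univ univ _
  rw [this, Fintype.expect_eq_sum_div_card (ι := Ty p)]
  simp only [← Finset.mul_expect]
  rw [Finset.sum_eq_single t (fun b _ hb => by simp [hb]) (by simp), if_pos rfl,
    mul_div_cancel_left₀ _ (by exact_mod_cast Fintype.card_ne_zero)]

/-- Give the first and the last letter their types. -/
def fixEnds (t s : Ty p) (l : List (Atom p N)) : List (Atom p N) :=
  l.mapIdx fun j c => if j = 0 then (t, c.2) else if j + 1 = l.length then (s, c.2) else c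

lemma fixEnds_append (t s : Ty p) (a b : Atom p N) (mid : List (Atom p N)) :
    fixEnds t s (a :: (mid ++ [b])) = (t, a.2) :: (mid ++ [(s, b.2)]) := by
  apply List.ext_getElem
  · simp [fixEnds]
  · intro i h₁ h₂
    simp only [fixEnds, List.getElem_mapIdx, List.length_cons, List.length_append, List.length_nil]
    rcases i with _ | i
    · simp
    · simp only [List.getElem_cons_succ, List.length_cons, List.length_append,
        List.length_nil] at h₂ ⊢
      rw [if_neg (by omega)]
      rcases lt_or_ge i mid.length with hi | hi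
      · rw [if_neg (by omega), List.getElem_append_left hi, List.getElem_append_left hi]
      · have : i = mid.length := by omega
        subst this
        simp

lemma blockList_eq {m : ℕ} (t t' : Ty p) (x : Fin m) (c : Fin (2 * m) → Atom p N) :
    blockList t t' (x, c) = fixEnds t t'.flip
      (List.ofFn fun j : Fin (m + 1 + (x : ℕ)) => c ⟨j, by omega⟩) := by
  apply List.ext_getElem
  · simp [blockList, fixEnds]
  · intro i h₁ h₂
    simp only [blockList, fixEnds, List.getElem_ofFn, List.getElem_mapIdx, List.length_ofFn]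
    split_ifs <;> first | rfl | omega

/-- The law of the letters of a block. -/
lemma block_three [NeZero N] {m : ℕ} (hm : 0 < m) (t t' : Ty p) (x : Fin m)
    (f : List (Atom p N) → ℂ) :
    (𝔼 c : Fin (2 * m) → Atom p N, f (blockList t t' (x, c)))
      = 𝔼 i : Fin N, EL (m - 1 + x) fun mid => 𝔼 j : Fin N,
          f ((t, i) :: (mid ++ [(t'.flip, j)])) := by
  have hlen : ∀ (a b : ℕ) (h : a + b = 2 * m) (g : (Fin a → Atom p N) → ℂ),
      (𝔼 c : Fin (2 * m) → Atom p N, g fun j => c ⟨j, by omega⟩) = 𝔼 u, g u := by
    intro a b h g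
    rw [← expect_fun_prefix a b g]
    refine Fintype.expect_equiv ((finCongr h).symm.arrowCongr (Equiv.refl _)) _ _ fun w => ?_
    rfl
  have key := hlen (m + 1 + x) (m - 1 - x) (by omega)
    fun u => f (fixEnds t t'.flip (List.ofFn u))
  simp only [blockList_eq]
  rw [key]
  change EL (m + 1 + (x : ℕ)) (fun l => f (fixEnds t t'.flip l)) = _
  rw [show m + 1 + (x : ℕ) = 1 + (m - 1 + x) + 1 by omega, EL_add, EL_add, EL_one]
  have e : ∀ (s : Ty p) (g : Fin N → ℂ), (𝔼 a : Atom p N, g a.2) = 𝔼 j, g j := fun s g => by
    have : (𝔼 a : Atom p N, g a.2) = 𝔼 _s : Ty p, 𝔼 j : Fin N, g j :=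
      Finset.expect_product univ univ _
    rw [this, Fintype.expect_const]
  simp only [EL_one, List.cons_append, List.nil_append, fixEnds_append]
  have e₂ : ∀ (a : Fin N) (mid : List (Atom p N)),
      (𝔼 b : Atom p N, f ((t, a) :: (mid ++ [(t'.flip, b.2)])))
        = 𝔼 j, f ((t, a) :: (mid ++ [(t'.flip, j)])) :=
    fun a mid => e t fun j => f ((t, a) :: (mid ++ [(t'.flip, j)]))
  simp only [e₂]
  exact e t fun a => EL (m - 1 + x) fun mid => 𝔼 j, f ((t, a) :: (mid ++ [(t'.flip, j)]))

/-- The density of a block against letters drawn independently. -/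
def wgt (t s : Ty p) (l : List (Atom p N)) : ℝ :=
  (if l.head?.map Prod.fst = some t then (Fintype.card (Ty p) : ℝ) else 0)
    * (if l.getLast?.map Prod.fst = some s then (Fintype.card (Ty p) : ℝ) else 0)

lemma wgt_nonneg (t s : Ty p) (l : List (Atom p N)) : 0 ≤ wgt t s l := by
  unfold wgt; split_ifs <;> positivity

lemma wgt_le (t s : Ty p) (l : List (Atom p N)) :
    wgt t s l ≤ ((2 * (p + 1) : ℕ) : ℝ) ^ 2 := by
  have h : Fintype.card (Ty p) = 2 * (p + 1) := by simp [Ty, mul_comm]
  unfold wgt
  rw [h, sq]
  split_ifs <;> first | exact le_rfl | (simp only [mul_zero, zero_mul]; positivity)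

lemma block_density [NeZero N] {m : ℕ} (hm : 0 < m) (t t' : Ty p) (o : Bool) (x : Fin m)
    (f : List (Atom p N) → ℂ) :
    (𝔼 c : Fin (2 * m) → Atom p N, f (orient o (blockList t t' (x, c))))
      = EL (m + 1 + x) fun u => (wgt t t'.flip (orient o u) : ℂ) * f u := by
  refine Eq.trans ?_ (EL_orient o _ _)
  simp only [orient_orient]
  rw [block_three hm t t' x fun l => f (orient o l),
    show m + 1 + (x : ℕ) = 1 + (m - 1 + x) + 1 by omega, EL_add, EL_add, EL_one]
  simp only [EL_one, List.cons_append, List.nil_append]
  rw [expect_atom t fun a => EL (m - 1 + x) fun mid => 𝔼 j, f (orient o (a :: (mid ++ [(t'.flip, j)])))]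
  refine Finset.expect_congr rfl fun a _ => ?_
  rw [EL, EL, Finset.mul_expect]
  refine Finset.expect_congr rfl fun v _ => ?_
  rw [expect_atom t'.flip fun b => f (orient o (a :: (List.ofFn v ++ [b]))), Finset.mul_expect]
  refine Finset.expect_congr rfl fun b _ => ?_
  simp only [wgt, List.head?_cons, Option.map_some,
    Option.some.injEq]
  rw [show (a :: (List.ofFn v ++ [b])).getLast? = some b by
    rw [← List.cons_append, List.getLast?_append]; rfl]
  simp only [Option.map_some, Option.some.injEq]
  push_cast [apply_ite Complex.ofReal]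
  simp [mul_assoc]

/-- The first letters along the path of an oriented block. -/
lemma block_first [NeZero N] {m : ℕ} (hm : 0 < m) (t t' : Ty p) (o : Bool) (x : Fin m)
    (f : List (Atom p N) → ℂ) :
    (𝔼 c : Fin (2 * m) → Atom p N, f ((orient o (blockList t t' (x, c))).reverse.take m))
      = 𝔼 j : Fin N, EL (m - 1) fun w => f ((if o then t else t', j) :: w) := by
  obtain ⟨k, rfl⟩ : ∃ k, m = k + 1 := ⟨m - 1, by omega⟩
  rw [block_three hm t t' x fun l => f ((orient o l).reverse.take (k + 1))]
  cases o
  · simp only [Bool.false_eq_true, ↓reduceIte, Nat.add_sub_cancel]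
    unfold EL
    conv_lhs => enter [2, i]; rw [Finset.expect_comm]
    conv_lhs => rw [Finset.expect_comm]
    refine Finset.expect_congr rfl fun j _ => ?_
    have hh : ∀ (i : Fin N) (mid : List (Atom p N)), mid.length = k + x →
        (orient false ((t, i) :: (mid ++ [(t'.flip, j)]))).reverse.take (k + 1)
          = (t', j) :: ((mid.map (flipEquiv p N)).reverse.take k) := fun i mid hmid => by
      simp [orient, flipA, Ty.flip, List.take_append, hmid, flipEquiv]
    have : ∀ i : Fin N, (𝔼 w : Fin (k + x) → Atom p N,
        f ((orient false ((t, i) :: (List.ofFn w ++ [(t'.flip, j)]))).reverse.take (k + 1)))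
          = EL k fun w => f ((t', j) :: w) := fun i => by
      refine Eq.trans (Finset.expect_congr rfl fun w _ => ?_)
        (((EL_map (flipEquiv p N) (k + x) fun l => f ((t', j) :: l.reverse.take k)).trans
          (EL_reverse _ fun l => f ((t', j) :: l.take k))).trans
          (EL_take (Nat.le_add_right k x) fun l => f ((t', j) :: l)))
      rw [hh i _ List.length_ofFn]
    simp only [this]
    exact Fintype.expect_const _
  · simp only [↓reduceIte, Nat.add_sub_cancel]
    refine Finset.expect_congr rfl fun i _ => ?_
    refine Eq.trans (EL_congr fun mid hmid => ?_)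
      (EL_take (Nat.le_add_right k x) fun l => f ((t, i) :: l))
    simp [orient, List.take_append, hmid]

/-- The product of a list of atoms in product order. -/
def prodW {A : Type u} [CStarAlgebra A] (U : Fin p → unitary A) (v : Fin N → unitary A)
    (l : List (Atom p N)) : unitary A := (l.map (atom U v)).prod

variable {A : Type u} [CStarAlgebra A] (U : Fin p → unitary A) (v : Fin N → unitary A)

lemma pathProd_eq (l : List (Atom p N)) : pathProd (atom U v) l = prodW U v l.reverse := by
  simp [pathProd, prodW]

lemma atom_flipA (a : Atom p N) : atom U v (flipA a) = star (atom U v a) := by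
  rcases a with ⟨⟨o, b⟩, i⟩
  cases b <;> simp [flipA, Ty.flip, atom]

lemma prodW_append (l l' : List (Atom p N)) :
    prodW U v (l ++ l') = prodW U v l * prodW U v l' := by simp [prodW]

lemma star_prodW (l : List (Atom p N)) :
    star (prodW U v l) = prodW U v (l.reverse.map flipA) := by
  induction l with
  | nil => simp [prodW]
  | cons a l ih =>
    rw [List.reverse_cons, List.map_append, prodW_append, ← ih]
    simp [prodW, atom_flipA]

lemma blockU_orient {m : ℕ} (t t' : Ty p) (b : Blk p N m) (o : Bool) :
    (if o then blockU U v t t' b else star (blockU U v t t' b))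
      = prodW U v (orient o (blockList t t' b)) := by
  rw [blockU, pathProd_eq]
  cases o <;> simp [orient, star_prodW]

lemma wordVal_blockU {m n r : ℕ} (t t' : Ty p) (b : Fin n → Blk p N m) (i : Fin r → Fin n)
    (sg : Fin r → Bool) :
    wordVal (fun i => blockU U v t t' (b i)) (List.ofFn fun j => (i j, sg j))
      = prodW U v (List.ofFn fun j => orient (sg j) (blockList t t' (b (i j)))).flatten := by
  rw [prodW, List.map_flatten, List.prod_flatten, wordVal]
  congr 1
  simp only [List.map_ofFn, Function.comp_def, blockU_orient]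
  congr 1

end Vale.Agent.P082.Blocks
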