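import Vale.Agent.P082.Core.Spec
import Vale.Agent.P082.Core.BlocksList

/-!
# Words in blocks with different indices
-/

noncomputable section

namespace Vale.Agent.P082.Blocks

open scoped InnerProductSpace BigOperators
open Finset

universe u v

variable {A : Type u} {V : Type v} [CStarAlgebra A] [NormedAddCommGroup V] [InnerProductSpace ℂ V]
  {T : Tr A V} {p N m n D : ℕ} {δ : ℝ} {U : Fin p → unitary A} {w : Fin N → unitary A}
  {t t' : Ty p}

lemma Reduced.reverse {l : List (Atom p N)} (h : Reduced l) : Reduced l.reverse := by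
  unfold Reduced at *
  rw [List.isChain_reverse]
  exact h.imp fun a b hab e => (hab e.symm).symm

lemma tr_prodW_le (hG : T.Good U w D δ) {l : List (Atom p N)} (hne : l ≠ []) (hD : l.length ≤ D)
    (hc : Consistent l) (hr : Reduced l) : ‖T.tr (prodW U w l : unitary A)‖ ≤ δ := by
  have := hG l.reverse (by simpa using hne) (by simpa using hD)
    (fun a ha b hb => hc a (List.mem_reverse.1 ha) b (List.mem_reverse.1 hb)) (Reduced.reverse hr)
  rwa [pathProd_eq, List.reverse_reverse] at this

lemma reduced_of_nodup {l : List (Atom p N)} (h : (l.map Prod.snd).Nodup) : Reduced l :=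
  (List.pairwise_map.1 h).isChain.imp fun _ _ hne e => absurd e hne

/-- Two different words in the same atoms are nearly orthogonal. -/
lemma pair_tr (hG : T.Good U w D δ) :
    ∀ X X' : List (Atom p N), X.length = X'.length → X.length + X'.length ≤ D → X ≠ X' →
      (X.map Prod.snd).Nodup → (X'.map Prod.snd).Nodup →
      (∀ a ∈ X, ∀ a' ∈ X', a.2 = a'.2 → a = a') →
      ‖T.tr ((star (prodW U w X) * prodW U w X' : unitary A) : A)‖ ≤ δ
  | [], X', h, _, hne, _, _, _ => by
    exact absurd (List.length_eq_zero_iff.1 h.symm).symm hne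
  | a :: Xs, [], h, _, _, _, _, _ => by simp at h
  | a :: Xs, a' :: Xs', h, hD, hne, hX, hX', hag => by
    simp only [List.length_cons] at h hD
    by_cases he : a.2 = a'.2
    · obtain rfl := hag a (by simp) a' (by simp) he
      have : star (prodW U w (a :: Xs)) * prodW U w (a :: Xs')
          = star (prodW U w Xs) * prodW U w Xs' := by
        simp only [prodW, List.map_cons, List.prod_cons, star_mul]
        rw [mul_assoc, ← mul_assoc (star (atom U w a)), Unitary.star_mul_self, one_mul]
      rw [this]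
      simp only [List.map_cons, List.nodup_cons] at hX hX'
      exact pair_tr hG Xs Xs' (by omega) (by omega) (fun e => hne (by rw [e])) hX.2 hX'.2
        fun x hx y hy => hag x (List.mem_cons_of_mem _ hx) y (List.mem_cons_of_mem _ hy)
    · rw [star_prodW, ← prodW_append]
      have hflip : ∀ x ∈ (a :: Xs).reverse.map flipA,
          ∃ x₀ ∈ a :: Xs, x.2 = x₀.2 ∧ x.1.1 = x₀.1.1 := by
        intro x hx
        obtain ⟨x₀, hx₀, rfl⟩ := List.mem_map.1 hx
        exact ⟨x₀, List.mem_reverse.1 hx₀, rfl, rfl⟩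
      have hXflip : (((a :: Xs).reverse.map flipA).map Prod.snd).Nodup := by
        rw [List.map_map, show (Prod.snd ∘ flipA : Atom p N → Fin N) = Prod.snd from rfl,
          List.map_reverse]
        exact List.nodup_reverse.2 hX
      refine tr_prodW_le hG (by simp) (by simp; omega) ?_ ?_
      · intro x hx y hy e
        have key : ∀ z, z ∈ (a :: Xs).reverse.map flipA ++ a' :: Xs' →
            ∃ z₀, (z₀ ∈ a :: Xs ∨ z₀ ∈ a' :: Xs') ∧ z.2 = z₀.2 ∧ z.1.1 = z₀.1.1 := by
          intro z hz
          rcases List.mem_append.1 hz with hz | hz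
          · obtain ⟨z₀, h₁, h₂⟩ := hflip z hz
            exact ⟨z₀, .inl h₁, h₂⟩
          · exact ⟨z, .inr hz, rfl, rfl⟩
        obtain ⟨x₀, hx₀, ex, ex'⟩ := key x hx
        obtain ⟨y₀, hy₀, ey, ey'⟩ := key y hy
        have e₀ : x₀.2 = y₀.2 := by rw [← ex, ← ey, e]
        have : x₀ = y₀ := by
          rcases hx₀ with h₁ | h₁ <;> rcases hy₀ with h₂ | h₂
          · exact List.inj_on_of_nodup_map hX h₁ h₂ e₀
          · exact hag _ h₁ _ h₂ e₀
          · exact (hag _ h₂ _ h₁ e₀.symm).symm
          · exact List.inj_on_of_nodup_map hX' h₁ h₂ e₀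
        rw [ex', ey', this]
      · refine List.isChain_append.2 ⟨reduced_of_nodup hXflip, reduced_of_nodup hX', ?_⟩
        intro x hx y hy e
        rw [List.getLast?_map, List.getLast?_reverse] at hx
        simp only [List.head?_cons, Option.map_some, Option.mem_def, Option.some.injEq] at hx hy
        subst hx hy
        exact absurd e he

/-- The injectivity of all indices, seen on the letters of the blocks. -/
lemma blk_mem_eq {b : Fin n → Blk p N m} (hb : BlkInj b) {i i' : Fin n} {a a' : Atom p N}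
    (ha : a ∈ blockList t t' (b i)) (ha' : a' ∈ blockList t t' (b i')) (e : a.2 = a'.2) :
    i = i' ∧ a = a' := by
  simp only [blockList, List.mem_ofFn] at ha ha'
  obtain ⟨j, rfl⟩ := ha
  obtain ⟨j', rfl⟩ := ha'
  have hp : ∀ (q : Blk p N m) (j : Fin (m + 1 + (q.1 : ℕ))),
      (if (j : ℕ) = 0 then (t, (q.2 ⟨j, by have := q.1.isLt; have := j.isLt; omega⟩).2)
        else if (j : ℕ) = m + (q.1 : ℕ)
          then (t'.flip, (q.2 ⟨j, by have := q.1.isLt; have := j.isLt; omega⟩).2)
        else q.2 ⟨j, by have := q.1.isLt; have := j.isLt; omega⟩).2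
        = (q.2 ⟨j, by have := q.1.isLt; have := j.isLt; omega⟩).2 := fun q j => by
    split_ifs <;> rfl
  rw [hp, hp] at e
  have := @hb ⟨i, ⟨j, by have := (b i).1.isLt; have := j.isLt; omega⟩⟩
    ⟨i', ⟨j', by have := (b i').1.isLt; have := j'.isLt; omega⟩⟩ e
  simp only [Prod.mk.injEq, Fin.mk.injEq] at this
  obtain ⟨rfl, hj⟩ := this
  obtain rfl : j = j' := Fin.ext hj
  exact ⟨rfl, rfl⟩

lemma blockList_nodup {b : Fin n → Blk p N m} (hb : BlkInj b) (i : Fin n) :
    ((blockList t t' (b i)).map Prod.snd).Nodup := by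
  refine List.Nodup.map_on (fun a ha a' ha' e => (blk_mem_eq hb ha ha' e).2) ?_
  rw [blockList, List.nodup_ofFn]
  intro j j' e
  simp only at e
  have e' := congrArg Prod.snd e
  have hpos : ((b i).2 ⟨j, by have := (b i).1.isLt; omega⟩).2
      = ((b i).2 ⟨j', by have := (b i).1.isLt; omega⟩).2 := by
    revert e'
    split_ifs <;> exact id
  have := @hb ⟨i, ⟨j, by have := (b i).1.isLt; omega⟩⟩ ⟨i, ⟨j', by have := (b i).1.isLt; omega⟩⟩
    hpos
  simp only [Prod.mk.injEq, Fin.mk.injEq, true_and] at this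
  exact Fin.ext this

lemma mem_orient {o : Bool} {l : List (Atom p N)} {a : Atom p N} (h : a ∈ orient o l) :
    ∃ a₀ ∈ l, a₀.2 = a.2 ∧ a₀.1.1 = a.1.1 := by
  cases o
  · obtain ⟨a₀, h₀, rfl⟩ := List.mem_map.1 h
    exact ⟨a₀, h₀, rfl, rfl⟩
  · exact ⟨a, List.mem_reverse.1 h, rfl, rfl⟩

lemma orient_nodup {b : Fin n → Blk p N m} (hb : BlkInj b) (i : Fin n) (o : Bool) :
    ((orient o (blockList t t' (b i))).map Prod.snd).Nodup :=
  (orient_index_perm o _).nodup_iff.2 (blockList_nodup hb i)

lemma blockList_length (b : Blk p N m) : (blockList t t' b).length = m + 1 + (b.1 : ℕ) :=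
  List.length_ofFn

lemma orthFam_of_blkInj (hm : 0 < m) (hG : T.Good U w D δ) {D' : ℕ} (hD : 2 * m * D' ≤ D)
    {b : Fin n → Blk p N m} (hb : BlkInj b) :
    T.OrthFam (fun i => blockU U w t t' (b i)) D' δ := by
  intro l hne hl hred
  have hval : wordVal (fun i => blockU U w t t' (b i)) l
      = prodW U w (l.map fun a => orient a.2 (blockList t t' (b a.1))).flatten := by
    conv_lhs => rw [← List.ofFn_getElem (xs := l)]
    conv_rhs => rw [← List.ofFn_getElem (xs := l), List.map_ofFn]
    exact wordVal_blockU U w t t' b (fun j : Fin l.length => (l[(j : ℕ)]).1)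
      fun j : Fin l.length => (l[(j : ℕ)]).2
  rw [hval]
  have hlen : ∀ (o : Bool) (i : Fin n), m + 1 ≤ (orient o (blockList t t' (b i))).length ∧
      (orient o (blockList t t' (b i))).length ≤ 2 * m := fun o i => by
    have := (b i).1.isLt
    rw [orient_length, blockList_length]
    omega
  refine tr_prodW_le hG ?_ ?_ ?_ ?_
  · obtain ⟨x, xs, rfl⟩ := List.exists_cons_of_ne_nil hne
    have := (hlen x.2 x.1).1
    intro h
    have := congrArg List.length h
    simp only [List.map_cons, List.flatten_cons, List.length_append, List.length_nil] at this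
    omega
  · rw [List.length_flatten, List.map_map]
    refine ((List.sum_le_card_nsmul _ (2 * m) ?_).trans ?_)
    · intro x hx
      obtain ⟨a, -, rfl⟩ := List.mem_map.1 hx
      exact (hlen _ _).2
    · simp only [List.length_map, smul_eq_mul]
      calc l.length * (2 * m) ≤ D' * (2 * m) := Nat.mul_le_mul_right _ hl
        _ ≤ D := by rwa [mul_comm]
  · intro x hx y hy e
    simp only [List.mem_flatten, List.mem_map, exists_exists_and_eq_and] at hx hy
    obtain ⟨a, -, ha⟩ := hx
    obtain ⟨c, -, hc⟩ := hy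
    obtain ⟨x₀, hx₀, ex, ex'⟩ := mem_orient ha
    obtain ⟨y₀, hy₀, ey, ey'⟩ := mem_orient hc
    have := (blk_mem_eq hb hx₀ hy₀ (by rw [ex, ey, e])).2
    rw [← ex', ← ey', this]
  · unfold Reduced
    rw [List.isChain_flatten]
    swap
    · intro h
      obtain ⟨a, -, ha⟩ := List.mem_map.1 h
      have := (hlen a.2 a.1).1
      simp [ha] at this
    refine ⟨?_, ?_⟩
    · intro q hq
      obtain ⟨a, -, rfl⟩ := List.mem_map.1 hq
      exact reduced_of_nodup (orient_nodup hb _ _)
    · rw [List.isChain_map]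
      refine hred.imp fun a c hac => ?_
      intro x hx y hy e
      obtain ⟨x₀, hx₀, ex, -⟩ := mem_orient (List.mem_of_mem_getLast? hx)
      obtain ⟨y₀, hy₀, ey, -⟩ := mem_orient (List.mem_of_mem_head? hy)
      have hac' : a.1 = c.1 := (blk_mem_eq hb hx₀ hy₀ (by rw [ex, ey, e])).1
      obtain rfl : a = c := Prod.ext hac' (hac hac')
      exfalso
      have nd := orient_nodup (t := t) (t' := t') hb a.1 a.2
      have h2 := (hlen a.2 a.1).1
      generalize orient a.2 (blockList t t' (b a.1)) = q at hx hy nd h2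
      rcases q with _ | ⟨q₀, qs⟩
      · simp at h2
      simp only [List.head?_cons, Option.mem_def, Option.some.injEq] at hy
      subst hy
      rcases List.eq_nil_or_concat qs with rfl | ⟨qi, ql, rfl⟩
      · simp at h2; omega
      simp only [List.concat_eq_append] at hx nd
      rw [show (q₀ :: (qi ++ [ql])).getLast? = some ql by
        rw [← List.cons_append, List.getLast?_append]; rfl] at hx
      simp only [Option.mem_def, Option.some.injEq] at hx
      subst hx
      simp [e] at nd

/-- Two given indices agree with probability `1 / N`. -/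
lemma expect_index_eq (hN : 0 < N) (a c : Fin n × Fin (2 * m)) (hac : a ≠ c) (hm : 0 < m) :
    (𝔼 b : Fin n → Blk p N m,
      if ((b a.1).2 a.2).2 = ((b c.1).2 c.2).2 then (1 : ℝ) else 0) = 1 / N := by
  have : NeZero N := ⟨hN.ne'⟩
  have : NeZero m := ⟨hm.ne'⟩
  let sh : Fin N → (Fin n → Blk p N m) → Fin n → Blk p N m := fun s b =>
    Function.update b a.1 ((b a.1).1,
      Function.update (b a.1).2 a.2 (((b a.1).2 a.2).1, ((b a.1).2 a.2).2 + s))
  have hinv : ∀ s b, sh (-s) (sh s b) = b := fun s b => by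
    simp [sh, Function.update_self, add_assoc]
  let e : Fin N → (Fin n → Blk p N m) ≃ (Fin n → Blk p N m) := fun s =>
    ⟨sh s, sh (-s), hinv s, fun b => by simpa using hinv (-s) b⟩
  set f : (Fin n → Blk p N m) → ℝ :=
    fun b => if ((b a.1).2 a.2).2 = ((b c.1).2 c.2).2 then 1 else 0
  have hshift : ∀ s b, f (sh s b)
      = if s = ((b c.1).2 c.2).2 - ((b a.1).2 a.2).2 then 1 else 0 := fun s b => by
    have h₁ : ((sh s b a.1).2 a.2).2 = ((b a.1).2 a.2).2 + s := by simp [sh]
    have h₂ : ((sh s b c.1).2 c.2).2 = ((b c.1).2 c.2).2 := by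
      by_cases h : c.1 = a.1
      · have : c.2 ≠ a.2 := fun h' => hac (Prod.ext h.symm h'.symm)
        simp [sh, h, this]
      · simp [sh, h]
    simp only [f, h₁, h₂, eq_sub_iff_add_eq']
  calc (𝔼 b, f b) = 𝔼 _s : Fin N, 𝔼 b, f b := (Fintype.expect_const _).symm
    _ = 𝔼 s : Fin N, 𝔼 b, f (sh s b) :=
        Finset.expect_congr rfl fun s _ => (Fintype.expect_equiv (e s) _ _ fun b => rfl).symm
    _ = 𝔼 b, 𝔼 s : Fin N, f (sh s b) := Finset.expect_comm _ _ _
    _ = 1 / N := by
        have : Nonempty (Blk p N m) := ⟨(⟨0, hm⟩, fun _ => ((none, false), ⟨0, hN⟩))⟩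
        simp only [hshift, Fintype.expect_eq_sum_div_card (ι := Fin N), Finset.sum_ite_eq',
          Finset.mem_univ, if_true, Fintype.card_fin]
        exact Fintype.expect_const _

lemma expect_notInj_le (hm : 0 < m) (hN : 0 < N) (f : (Fin n → Blk p N m) → ℝ)
    (h₀ : ∀ b, BlkInj b → f b = 0) (h₁ : ∀ b, |f b| ≤ 1) :
    (𝔼 b, f b) ≤ ((n * (2 * m) : ℕ) : ℝ) ^ 2 / N := by
  classical
  let P : Finset ((Fin n × Fin (2 * m)) × (Fin n × Fin (2 * m))) :=
    Finset.univ.filter fun q => q.1 ≠ q.2
  have hle : ∀ b, f b ≤ ∑ q ∈ P,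
      if ((b q.1.1).2 q.1.2).2 = ((b q.2.1).2 q.2.2).2 then (1 : ℝ) else 0 := fun b => by
    by_cases hb : BlkInj b
    · rw [h₀ b hb]
      exact Finset.sum_nonneg fun q _ => by split_ifs <;> norm_num
    · simp only [BlkInj, Function.Injective, not_forall] at hb
      obtain ⟨a, c, e, hac⟩ := hb
      refine ((le_abs_self _).trans (h₁ b)).trans ?_
      refine le_trans (le_of_eq (if_pos e).symm) (Finset.single_le_sum
        (f := fun q : (Fin n × Fin (2 * m)) × (Fin n × Fin (2 * m)) =>
          if ((b q.1.1).2 q.1.2).2 = ((b q.2.1).2 q.2.2).2 then (1 : ℝ) else 0)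
        (fun q _ => by split_ifs <;> norm_num) (a := (a, c)) (by simp [P, hac]))
  refine (Finset.expect_le_expect fun b _ => hle b).trans ?_
  rw [Finset.expect_sum_comm, Finset.sum_congr rfl fun q hq =>
    expect_index_eq hN q.1 q.2 (Finset.mem_filter.1 hq).2 hm]
  rw [Finset.sum_const, nsmul_eq_mul, mul_one_div, sq]
  gcongr
  rw [← Nat.cast_mul]
  exact_mod_cast (Finset.card_filter_le _ _).trans (by simp)

end Vale.Agent.P082.Blocks

namespace Vale.Agent.P082

universe u v

variable {A : Type u} {V : Type v} [CStarAlgebra A] [NormedAddCommGroup V] [InnerProductSpace ℂ V]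

theorem injOut (T : Tr A V) : T.InjOut := fun _ _ _ _ _ _ _ _ _ _ _ hm hN hG hD =>
  ⟨fun _ hb => Blocks.orthFam_of_blkInj hm hG hD hb, fun f => Blocks.expect_notInj_le hm hN f⟩

end Vale.Agent.P082
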