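import Vale.Agent.P082.Core.Frame

/-!
# P082: signed words, charges and phases

Tools for `Core/Expand.lean`: reduction of signed words under relabellings, the charge of a letter,
and the orthogonality of phases with different charges.
-/

noncomputable section

namespace Vale.Agent.P082.Expand

open FreeGroup (reduce invRev mk Red IsReduced)
open scoped BigOperators ComplexConjugate

variable {α β : Type*} [DecidableEq α] [DecidableEq β]

/-- The exponent sum of a letter. -/
def charge (i : α) (l : List (α × Bool)) : ℤ :=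
  (l.map fun a => if a.1 = i then (if a.2 then (1 : ℤ) else -1) else 0).sum

/-- The number of occurrences of a letter. -/
def cnt (i : α) (l : List (α × Bool)) : ℕ := (l.map Prod.fst).count i

/-- Relabel the letters. -/
def relabel (f : α → β) (l : List (α × Bool)) : List (β × Bool) := l.map fun a => (f a.1, a.2)

@[simp] lemma charge_nil (i : α) : charge i ([] : List (α × Bool)) = 0 := rfl

lemma charge_cons (i : α) (a : α × Bool) (l : List (α × Bool)) :
    charge i (a :: l) = (if a.1 = i then (if a.2 then (1 : ℤ) else -1) else 0) + charge i l := by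
  simp [charge]

lemma charge_append (i : α) (l l' : List (α × Bool)) :
    charge i (l ++ l') = charge i l + charge i l' := by
  simp [charge]

lemma charge_invRev (i : α) : ∀ l : List (α × Bool), charge i (invRev l) = -charge i l
  | [] => by simp [invRev]
  | a :: l => by
    rw [FreeGroup.invRev_cons, charge_append, charge_invRev i l, charge_cons i a l]
    obtain ⟨x, b⟩ := a
    by_cases h : x = i <;> cases b <;> simp [invRev, charge, h]

lemma cnt_cons (i : α) (a : α × Bool) (l : List (α × Bool)) :
    cnt i (a :: l) = cnt i l + if a.1 = i then 1 else 0 := by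
  simp [cnt, List.count_cons]

lemma abs_charge_le (i : α) : ∀ l : List (α × Bool), |charge i l| ≤ (cnt i l : ℤ)
  | [] => by simp [cnt]
  | a :: l => by
    have := abs_charge_le i l
    rw [abs_le] at this ⊢
    rw [charge_cons, cnt_cons]
    push_cast
    split_ifs <;> omega

lemma charge_parity (i : α) : ∀ l : List (α × Bool), (charge i l - (cnt i l : ℤ)) % 2 = 0
  | [] => by simp [cnt]
  | a :: l => by
    have := charge_parity i l
    rw [charge_cons, cnt_cons]
    push_cast
    split_ifs <;> omega

lemma cnt_le_length (i : α) (l : List (α × Bool)) : cnt i l ≤ l.length := by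
  unfold cnt
  exact List.count_le_length.trans (by simp)

lemma sum_cnt [Fintype α] : ∀ l : List (α × Bool), ∑ i, cnt i l = l.length
  | [] => by simp [cnt]
  | a :: l => by
    simp [cnt_cons, Finset.sum_add_distrib, sum_cnt l]

lemma charge_relabel [Fintype α] (f : α → β) (y : β) : ∀ l : List (α × Bool),
    charge y (relabel f l) = ∑ x ∈ Finset.univ.filter (fun x => f x = y), charge x l
  | [] => by simp [relabel]
  | a :: l => by
    rw [relabel, List.map_cons, ← relabel, charge_cons, charge_relabel f y l]
    simp only [charge_cons, Finset.sum_add_distrib]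
    congr 1
    rw [Finset.sum_ite_eq]
    simp

lemma red_charge {i : α} {l l' : List (α × Bool)} (h : Red l l') : charge i l = charge i l' := by
  induction h with
  | refl => rfl
  | tail _ hs ih =>
    rw [ih]
    obtain @⟨L₁, L₂, x, b⟩ := hs
    simp only [charge_append, charge_cons]
    by_cases h : x = i <;> cases b <;> simp [h]

lemma charge_reduce (i : α) (l : List (α × Bool)) : charge i (reduce l) = charge i l :=
  (red_charge FreeGroup.reduce.red).symm

lemma cnt_reduce_le (i : α) (l : List (α × Bool)) : cnt i (reduce l) ≤ cnt i l :=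
  ((FreeGroup.Red.sublist FreeGroup.reduce.red).map Prod.fst).count_le i

lemma length_reduce_le (l : List (α × Bool)) : (reduce l).length ≤ l.length :=
  (FreeGroup.Red.sublist FreeGroup.reduce.red).length_le

lemma isReduced_reduce (l : List (α × Bool)) : IsReduced (reduce l) :=
  FreeGroup.IsReduced.of_reduce_eq FreeGroup.reduce.idem

omit [DecidableEq α] [DecidableEq β] in
lemma red_relabel (f : α → β) {l l' : List (α × Bool)} (h : Red l l') :
    Red (relabel f l) (relabel f l') := by
  refine Relation.ReflTransGen.lift (relabel f) (fun a b hs => ?_) _ _ h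
  obtain @⟨L₁, L₂, x, b⟩ := hs
  show FreeGroup.Red.Step (List.map _ _) (List.map _ _)
  simp only [List.map_append, List.map_cons]
  exact FreeGroup.Red.Step.not

lemma reduce_relabel {f : α → β} (hf : Function.Injective f) (l : List (α × Bool)) :
    reduce (relabel f l) = relabel f (reduce l) := by
  rw [FreeGroup.reduce.eq_of_red (red_relabel f (FreeGroup.reduce.red (L := l)))]
  refine FreeGroup.IsReduced.reduce_eq ?_
  unfold relabel FreeGroup.IsReduced
  rw [List.isChain_map]
  refine (isReduced_reduce l).imp fun a b hab h => hab (hf h)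

/-! ## Sign patterns -/

omit [DecidableEq α] [DecidableEq β] in
lemma pat_step {b : Bool} {L₁ L₂ : List Bool} {x : Bool}
    (h : Pat b (L₁ ++ x :: (!x) :: L₂)) : Pat b (L₁ ++ L₂) := by
  obtain ⟨hh, hl, hc⟩ := h
  rw [List.isChain_append] at hc
  obtain ⟨c1, c2, c3⟩ := hc
  rw [List.isChain_cons_cons, List.isChain_cons] at c2
  obtain ⟨-, c4, c5⟩ := c2
  rcases eq_or_ne L₁ [] with rfl | h1
  · simp only [List.nil_append, List.head?_cons, Option.some.injEq] at hh
    subst hh
    cases L₂ with
    | nil => simp at hl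
    | cons y t =>
      have hy := c4 y (by simp)
      refine ⟨?_, ?_, c5⟩
      · cases x <;> cases y <;> simp_all
      · simpa [List.getLast?_cons] using hl
  · obtain ⟨w, hw⟩ : ∃ w, L₁.getLast? = some w := ⟨_, List.getLast?_eq_getLast_of_ne_nil h1⟩
    have hwx := c3 w hw x (by simp)
    cases L₂ with
    | nil =>
      refine ⟨?_, ?_, by simpa using c1⟩
      · rw [List.head?_append_of_ne_nil _ h1] at hh
        simpa using hh
      · simp only [List.append_nil, hw, Option.some.injEq]
        rw [List.getLast?_append_of_ne_nil _ (by simp)] at hl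
        simp only [List.getLast?_cons_cons, List.getLast?_singleton, Option.some.injEq] at hl
        cases x <;> cases w <;> cases b <;> simp_all
    | cons y t =>
      have hy := c4 y (by simp)
      refine ⟨?_, ?_, List.isChain_append.2 ⟨c1, c5, ?_⟩⟩
      · rw [List.head?_append_of_ne_nil _ h1] at hh ⊢
        exact hh
      · simp [List.getLast?_append, List.getLast?_cons] at hl ⊢
        exact hl
      · intro a ha c hc
        simp only [hw, Option.mem_def, Option.some.injEq] at ha
        simp only [List.head?_cons, Option.mem_def, Option.some.injEq] at hc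
        subst ha hc
        cases x <;> cases w <;> cases y <;> cases b <;> simp_all

omit [DecidableEq α] [DecidableEq β] in
lemma pat_red {b : Bool} {l l' : List (α × Bool)} (h : Red l l')
    (hp : Pat b (l.map Prod.snd)) : Pat b (l'.map Prod.snd) := by
  induction h with
  | refl => exact hp
  | tail _ hs ih =>
    obtain @⟨L₁, L₂, x, c⟩ := hs
    simp only [List.map_append, List.map_cons] at ih ⊢
    exact pat_step ih

/-! ## Values of words -/

variable {A : Type*} [CStarAlgebra A]

omit [DecidableEq α] [DecidableEq β] in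
lemma wordVal_eq_lift (W : α → unitary A) (l : List (α × Bool)) :
    wordVal W l = FreeGroup.lift W (mk l) := by
  rw [FreeGroup.lift_mk, wordVal]
  congr 1
  refine List.map_congr_left fun a _ => ?_
  cases a.2 <;> simp [Unitary.star_eq_inv]

omit [DecidableEq α] [DecidableEq β] in
lemma wordVal_relabel (W : β → unitary A) (f : α → β) (l : List (α × Bool)) :
    wordVal W (relabel f l) = wordVal (W ∘ f) l := by
  simp only [wordVal, relabel, List.map_map]
  rfl

lemma wordVal_reduce (W : α → unitary A) (l : List (α × Bool)) :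
    wordVal W (reduce l) = wordVal W l := by
  rw [wordVal_eq_lift, wordVal_eq_lift, FreeGroup.reduce.self]

omit [DecidableEq α] [DecidableEq β] in
lemma star_wordVal_mul (W : α → unitary A) (l l' : List (α × Bool)) :
    star (wordVal W l) * wordVal W l' = wordVal W (invRev l ++ l') := by
  rw [wordVal_eq_lift, wordVal_eq_lift, wordVal_eq_lift, ← FreeGroup.mul_mk, ← FreeGroup.inv_mk,
    map_mul, map_inv]
  rfl

/-! ## Phases -/

variable {M : ℕ}

lemma ph_eq_pow (x : Fin M) :
    ph x = Complex.exp (2 * Real.pi * Complex.I / (M : ℂ)) ^ (x : ℕ) := by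
  rw [ph, ← Complex.exp_nat_mul]
  ring_nf

lemma norm_ph (x : Fin M) : ‖ph x‖ = 1 := by
  rw [ph, show 2 * (Real.pi : ℂ) * Complex.I * ((x : ℕ) : ℂ) / (M : ℂ)
    = ((2 * Real.pi * (x : ℕ) / M : ℝ) : ℂ) * Complex.I by push_cast; ring,
    Complex.norm_exp_ofReal_mul_I]

lemma ph_ne_zero (x : Fin M) : ph x ≠ 0 := Complex.exp_ne_zero _

lemma conj_ph (x : Fin M) : conj (ph x) = (ph x)⁻¹ := (Complex.inv_eq_conj (norm_ph x)).symm

lemma ph_add_one [NeZero M] (hM : 1 < M) (x : Fin M) :
    ph (x + 1) = Complex.exp (2 * Real.pi * Complex.I / (M : ℂ)) * ph x := by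
  rw [ph_eq_pow, ph_eq_pow, Fin.val_add, Fin.val_one', Nat.mod_eq_of_lt hM,
    ← pow_eq_pow_mod _ (Complex.isPrimitiveRoot_exp M (NeZero.ne M)).pow_eq_one, pow_succ']

/-- The phase of a signed word in any alphabet. -/
def phaseG (ϑ : α → Fin M) (l : List (α × Bool)) : ℂ :=
  (l.map fun a => if a.2 then ph (ϑ a.1) else conj (ph (ϑ a.1))).prod

lemma phase_eq {n : ℕ} (θ : Fin n → Fin M) (l : List (Fin n × Bool)) :
    phase θ l = phaseG θ l := rfl

omit [DecidableEq α] [DecidableEq β] in
lemma phaseG_cons (ϑ : α → Fin M) (a : α × Bool) (l : List (α × Bool)) :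
    phaseG ϑ (a :: l) = (if a.2 then ph (ϑ a.1) else conj (ph (ϑ a.1))) * phaseG ϑ l := by
  simp [phaseG]

omit [DecidableEq α] [DecidableEq β] in
lemma phaseG_append (ϑ : α → Fin M) (l l' : List (α × Bool)) :
    phaseG ϑ (l ++ l') = phaseG ϑ l * phaseG ϑ l' := by
  simp [phaseG]

omit [DecidableEq α] [DecidableEq β] in
lemma phaseG_relabel (ϑ : β → Fin M) (f : α → β) (l : List (α × Bool)) :
    phaseG ϑ (relabel f l) = phaseG (ϑ ∘ f) l := by
  simp only [phaseG, relabel, List.map_map]
  rfl

omit [DecidableEq α] [DecidableEq β] in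
lemma norm_phaseG (ϑ : α → Fin M) : ∀ l : List (α × Bool), ‖phaseG ϑ l‖ = 1
  | [] => by simp [phaseG]
  | a :: l => by
    rw [phaseG_cons, norm_mul, norm_phaseG ϑ l]
    split_ifs <;> simp [norm_ph]

omit [DecidableEq α] [DecidableEq β] in
lemma conj_phaseG (ϑ : α → Fin M) : ∀ l : List (α × Bool),
    conj (phaseG ϑ l) = phaseG ϑ (invRev l)
  | [] => by simp [phaseG, invRev]
  | a :: l => by
    rw [phaseG_cons, map_mul, conj_phaseG ϑ l, FreeGroup.invRev_cons, phaseG_append, mul_comm]
    congr 1
    obtain ⟨x, b⟩ := a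
    cases b <;> simp [invRev, phaseG]

omit [DecidableEq β] in
lemma phaseG_eq_reduce (ϑ : α → Fin M) (l : List (α × Bool)) :
    phaseG ϑ (reduce l) = phaseG ϑ l := by
  have : ∀ l l' : List (α × Bool), Red l l' → phaseG ϑ l = phaseG ϑ l' := by
    intro l l' h
    induction h with
    | refl => rfl
    | tail _ hs ih =>
      rw [ih]
      obtain @⟨L₁, L₂, x, b⟩ := hs
      simp only [phaseG_append, phaseG_cons]
      cases b <;> simp [conj_ph, ph_ne_zero]
  exact (this _ _ FreeGroup.reduce.red).symm

/-- The contribution of one letter to the phase is a power given by its charge. -/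
lemma phaseG_split (ϑ : α → Fin M) (i : α) : ∀ l : List (α × Bool),
    phaseG ϑ l = ph (ϑ i) ^ charge i l * phaseG ϑ (l.filter fun a => decide (a.1 ≠ i))
  | [] => by simp [phaseG]
  | a :: l => by
    obtain ⟨x, b⟩ := a
    rw [phaseG_cons, charge_cons, phaseG_split ϑ i l]
    by_cases h : x = i
    · subst h
      rw [List.filter_cons_of_neg (by simp), if_pos rfl, zpow_add₀ (ph_ne_zero _)]
      cases b <;> simp [conj_ph] <;> ring
    · rw [List.filter_cons_of_pos (by simp [h]), if_neg h, zero_add, phaseG_cons]
      ring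

lemma phaseG_congr (ϑ ϑ' : α → Fin M) (i : α) (h : ∀ x, x ≠ i → ϑ x = ϑ' x)
    {l : List (α × Bool)} (hc : charge i l = 0) : phaseG ϑ l = phaseG ϑ' l := by
  rw [phaseG_split ϑ i l, phaseG_split ϑ' i l, hc, zpow_zero, zpow_zero]
  unfold phaseG
  congr 2
  refine List.map_congr_left fun a ha => ?_
  rw [h a.1 (by simpa using (List.mem_filter.1 ha).2)]

/-- Phases average to zero unless all charges vanish. -/
lemma expect_phaseG [Fintype α] [NeZero M] {l : List (α × Bool)} {i : α}
    (hne : charge i l ≠ 0) (hlt : l.length < M) : (𝔼 θ : α → Fin M, phaseG θ l) = 0 := by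
  set ζ := Complex.exp (2 * Real.pi * Complex.I / (M : ℂ)) with hζ
  have hprim := Complex.isPrimitiveRoot_exp M (NeZero.ne M)
  have habs := (abs_charge_le i l).trans (Int.ofNat_le.2 (cnt_le_length i l))
  have h1M : 1 < M := by
    by_contra h
    have : l.length = 0 := by omega
    rw [List.length_eq_zero_iff] at this
    exact hne (by simp [this])
  have hshift : ∀ θ : α → Fin M, phaseG (θ + Pi.single i 1) l = ζ ^ charge i l * phaseG θ l := by
    intro θ
    rw [phaseG_split (θ + Pi.single i 1) i l, phaseG_split θ i l, Pi.add_apply,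
      Pi.single_eq_same, ph_add_one h1M, mul_zpow, ← hζ, mul_assoc]
    congr 2
    unfold phaseG
    congr 1
    refine List.map_congr_left fun a ha => ?_
    rw [Pi.add_apply, Pi.single_eq_of_ne (by simpa using (List.mem_filter.1 ha).2), add_zero]
  have hfix : (𝔼 θ : α → Fin M, phaseG θ l) = ζ ^ charge i l * 𝔼 θ : α → Fin M, phaseG θ l := by
    rw [Finset.mul_expect]
    simp only [← hshift]
    exact (Fintype.expect_equiv (Equiv.addRight (Pi.single i 1)) _ _ fun _ => rfl).symm
  have hne1 : ζ ^ charge i l ≠ 1 := by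
    intro h
    have hd := (hprim.zpow_eq_one_iff_dvd _).1 h
    have := Int.eq_zero_of_abs_lt_dvd hd (by omega)
    exact hne this
  have : (ζ ^ charge i l - 1) * (𝔼 θ : α → Fin M, phaseG θ l) = 0 := by
    rw [sub_mul, one_mul, ← hfix, sub_self]
  exact (mul_eq_zero.1 this).resolve_left (sub_ne_zero.2 hne1)

/-! ## The mean square of a sum with phases -/

variable {V : Type*} [NormedAddCommGroup V] [InnerProductSpace ℂ V]

/-- Only pairs with the same charged letters contribute to the mean square. -/
lemma expect_sq_le [Fintype α] [NeZero M] {X : Type*} [Fintype X] (l : X → List (α × Bool))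
    (y : X → V) (Y : ℝ) (hy : ∀ x, ‖y x‖ ≤ Y) (hlen : ∀ x, 2 * (l x).length < M) (N : ℝ)
    (hN : ∀ x, (((Finset.univ.filter fun x' : X => ∀ i, charge i (l x') = 0 ↔ charge i (l x) = 0)
      ).card : ℝ) ≤ N) :
    (𝔼 θ : α → Fin M, ‖∑ x, phaseG θ (l x) • y x‖ ^ 2) ≤ Fintype.card X * N * Y ^ 2 := by
  have hexp : ∀ θ : α → Fin M, ((‖∑ x, phaseG θ (l x) • y x‖ ^ 2 : ℝ) : ℂ) =
      ∑ x, ∑ x', phaseG θ (invRev (l x) ++ l x') * inner ℂ (y x) (y x') := by
    intro θ
    rw [Complex.ofReal_pow]
    refine (inner_self_eq_norm_sq_to_K (𝕜 := ℂ) (∑ x, phaseG θ (l x) • y x)).symm.trans ?_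
    rw [sum_inner]
    simp only [inner_smul_left, inner_sum, inner_smul_right, phaseG_append, ← conj_phaseG]
    exact Finset.sum_congr rfl fun _ _ => Finset.sum_congr rfl fun _ _ => by ring
  have hC : ((𝔼 θ : α → Fin M, ‖∑ x, phaseG θ (l x) • y x‖ ^ 2 : ℝ) : ℂ) =
      ∑ x, ∑ x', (𝔼 θ : α → Fin M, phaseG θ (invRev (l x) ++ l x')) * inner ℂ (y x) (y x') := by
    rw [← Complex.ofRealHom_eq_coe, map_expect]
    simp only [Complex.ofRealHom_eq_coe, hexp, Finset.expect_sum_comm, ← Finset.expect_mul]
  have hterm : ∀ x, ‖∑ x', (𝔼 θ : α → Fin M, phaseG θ (invRev (l x) ++ l x'))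
      * inner ℂ (y x) (y x')‖ ≤ N * Y ^ 2 := by
    intro x
    have hY : 0 ≤ Y := (norm_nonneg _).trans (hy x)
    rw [← Finset.sum_filter_of_ne (p := fun x' : X => ∀ i, charge i (l x') = 0 ↔ charge i (l x) = 0)]
    · refine ((norm_sum_le _ _).trans (Finset.sum_le_card_nsmul _ _ (Y ^ 2) fun x' _ => ?_)).trans ?_
      · rw [norm_mul]
        refine (mul_le_of_le_one_left (norm_nonneg _) ?_).trans
          ((norm_inner_le_norm _ _).trans ?_)
        · refine (RCLike.norm_expect_le (K := ℂ)).trans (Finset.expect_le Finset.univ_nonempty ?_)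
          intro θ _
          rw [norm_phaseG]
        · rw [sq]
          exact mul_le_mul (hy x) (hy x') (norm_nonneg _) hY
      · rw [nsmul_eq_mul]
        exact mul_le_mul_of_nonneg_right (hN x) (sq_nonneg Y)
    · intro x' _ hne i
      by_contra hc
      refine hne ?_
      rw [expect_phaseG (i := i) ?_ ?_, zero_mul]
      · rw [charge_append, charge_invRev]
        intro h
        apply hc
        omega
      · have := hlen x
        have := hlen x'
        simp only [List.length_append, FreeGroup.invRev_length]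
        omega
  calc (𝔼 θ : α → Fin M, ‖∑ x, phaseG θ (l x) • y x‖ ^ 2)
      ≤ ‖((𝔼 θ : α → Fin M, ‖∑ x, phaseG θ (l x) • y x‖ ^ 2 : ℝ) : ℂ)‖ := by
        rw [Complex.norm_real]; exact le_abs_self _
    _ ≤ ∑ _x : X, N * Y ^ 2 := by
        rw [hC]; exact (norm_sum_le _ _).trans (Finset.sum_le_sum fun x _ => hterm x)
    _ = _ := by simp [mul_assoc]

end Vale.Agent.P082.Expand
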