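import Vale.Agent.P082.Core.Spec
import Vale.Agent.P082.Core.ExpandWords

/-!
# P082: expansion of a word in a random sum

A word in `c` and `star c` expands into words in the unitaries. Words with pairwise different
indices after reduction give the combination of the `pGood`; the others are grouped by the
pattern of equal indices. A pattern with a surviving index of charge zero is small by an
average over that index, every other bad pattern has too few free indices.
-/

noncomputable section

namespace Vale.Agent.P082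

open FreeGroup (reduce invRev)
open scoped InnerProductSpace BigOperators
open Finset

universe u v

variable {A : Type u} {V : Type v} [CStarAlgebra A] [NormedAddCommGroup V] [InnerProductSpace ℂ V]

namespace Expand

lemma norm_e_le (T : Tr A V) (a : A) : ‖T.e a‖ ≤ ‖a‖ := by
  have := T.mul_le a 1
  rwa [mul_one, T.norm_one, mul_one] at this

lemma norm_unitary_le (x : unitary A) : ‖(x : A)‖ ≤ 1 := by
  rcases subsingleton_or_nontrivial A with h | h
  · simp [Subsingleton.elim (x : A) 0]
  · exact (CStarRing.norm_coe_unitary x).le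

/-! ## Patterns of equal indices -/

variable {r n : ℕ}

/-- The first position with the same value. -/
def can (ι : Fin r → Fin n) (j : Fin r) : Fin r :=
  (univ.filter fun i => ι i = ι j).min' ⟨j, by simp⟩

lemma can_spec (ι : Fin r → Fin n) (j : Fin r) : ι (can ι j) = ι j :=
  (mem_filter.1 (min'_mem (univ.filter fun i => ι i = ι j) ⟨j, by simp⟩)).2

lemma can_eq_iff (ι : Fin r → Fin n) (i j : Fin r) : can ι i = can ι j ↔ ι i = ι j := by
  constructor
  · intro h
    rw [← can_spec ι i, h, can_spec ι j]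
  · intro h
    unfold can
    simp only [h]

lemma can_congr {m : ℕ} {ι : Fin r → Fin n} {κ : Fin r → Fin m}
    (h : ∀ i j, ι i = ι j ↔ κ i = κ j) : can ι = can κ := by
  funext j
  unfold can
  simp only [h]

lemma card_image_can_le :
    ((univ : Finset (Fin r → Fin n)).image can).card ≤ (r + 1) ^ r := by
  refine (card_le_univ _).trans ?_
  rw [Fintype.card_fun, Fintype.card_fin]
  exact Nat.pow_le_pow_left (by omega) _

/-- The tuples with the pattern of a given one are the injective images of a surjection. -/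
lemma exists_pattern (ι₀ : Fin r → Fin n) :
    ∃ (B : Type) (_ : Fintype B) (_ : DecidableEq B) (pB : Fin r → B) (_ : Function.Surjective pB)
      (Φ : (B ↪ Fin n) ↪ (Fin r → Fin n)), (∀ σ, Φ σ = σ ∘ pB) ∧
      (univ.filter fun ι => can ι = can ι₀) = univ.map Φ := by
  set p := can ι₀ with hp
  have hidem : ∀ j, p (p j) = p j := fun j => (can_eq_iff ι₀ _ _).2 (can_spec ι₀ j)
  let pB : Fin r → {b : Fin r // p b = b} := fun j => ⟨p j, hidem j⟩
  have hsurj : Function.Surjective pB := fun b => ⟨b.1, Subtype.ext b.2⟩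
  let Φ : ({b : Fin r // p b = b} ↪ Fin n) ↪ (Fin r → Fin n) :=
    ⟨fun σ => σ ∘ pB, fun σ τ h => DFunLike.coe_injective (hsurj.injective_comp_right h)⟩
  refine ⟨_, inferInstance, inferInstance, pB, hsurj, Φ, fun σ => rfl, ?_⟩
  ext ι
  simp only [mem_filter, mem_univ, true_and, mem_map]
  constructor
  · intro h
    refine ⟨⟨fun b => ι b.1, fun a b hab => Subtype.ext ?_⟩, ?_⟩
    · have he := (can_eq_iff ι _ _).2 hab
      rw [h] at he
      exact a.2.symm.trans (he.trans b.2)
    · funext j
      show ι (p j) = ι j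
      rw [← h]
      exact can_spec ι j
  · rintro ⟨σ, rfl⟩
    refine can_congr fun i j => ?_
    show σ (pB i) = σ (pB j) ↔ _
    rw [σ.injective.eq_iff, Subtype.ext_iff]
    exact can_eq_iff ι₀ i j

/-! ## One pattern -/

variable {B : Type} [Fintype B] [DecidableEq B]

/-- The word of a pattern. -/
def patList (s : List Bool) (pB : Fin s.length → B) : List (B × Bool) :=
  List.ofFn fun j => (pB j, s.get j)

omit [Fintype B] [DecidableEq B] in
lemma relabel_patList (s : List Bool) (pB : Fin s.length → B) (f : B → Fin n) :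
    relabel f (patList s pB) = goodList s (f ∘ pB) := by
  simp only [relabel, patList, goodList, List.map_ofFn]
  rfl

omit [Fintype B] [DecidableEq B] in
lemma length_patList (s : List Bool) (pB : Fin s.length → B) :
    (patList s pB).length = s.length := by simp [patList]

omit [Fintype B] in
lemma cnt_patList_pos (s : List Bool) {pB : Fin s.length → B} (hp : Function.Surjective pB)
    (b : B) : 1 ≤ cnt b (patList s pB) := by
  obtain ⟨j, rfl⟩ := hp b
  refine List.count_pos_iff.2 ?_
  simp only [patList, List.map_ofFn, List.mem_ofFn]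
  exact ⟨j, rfl⟩

/-- A letter of charge zero occurs at least twice. -/
lemma two_le_cnt {α : Type*} [DecidableEq α] {i : α} {l : List (α × Bool)}
    (h : charge i l = 0) (h1 : 1 ≤ cnt i l) : 2 ≤ cnt i l := by
  have := charge_parity i l
  omega

/-- The bound on the number of tuples with prescribed charged values. -/
lemma card_same_le {X : Type*} [Fintype X] [DecidableEq X] (l : List (B × Bool))
    (hl : (univ.filter fun b => charge b l ≠ 0).card ≤ r)
    (f : X → B → Fin n) (hinj : ∀ x, Set.InjOn (f x) {b | charge b l ≠ 0})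
    (O : Finset B) (hdet : ∀ x x', (∀ b, charge b l ≠ 0 → f x b = f x' b) →
      (∀ b ∈ O, f x b = f x' b) → x = x') (x : X) :
    (((univ.filter fun x' => ∀ i, charge i (relabel (f x') l) = 0 ↔
      charge i (relabel (f x) l) = 0).card : ℕ) : ℝ) ≤ ((r : ℝ) + 1) ^ r * (n : ℝ) ^ O.card := by
  set Vs := univ.filter fun b => charge b l ≠ 0 with hVs
  have hsupp : ∀ x i, charge i (relabel (f x) l) ≠ 0 ↔ i ∈ Vs.image (f x) := by
    intro x i
    rw [charge_relabel]
    constructor
    · intro h
      obtain ⟨b, hb, hb0⟩ := exists_ne_zero_of_sum_ne_zero h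
      exact mem_image.2 ⟨b, mem_filter.2 ⟨mem_univ b, hb0⟩, (mem_filter.1 hb).2⟩
    · intro h
      obtain ⟨b, hb, rfl⟩ := mem_image.1 h
      have hb' := (mem_filter.1 hb).2
      rw [sum_eq_single b]
      · exact hb'
      · intro c hc hcb
        by_contra hc0
        exact hcb (hinj x hc0 hb' (mem_filter.1 hc).2)
      · intro h
        simp at h
  set key := Vs.image (f x)
  have hkey : key.card ≤ r + 1 := (card_image_le.trans hl).trans (by omega)
  have : (univ.filter fun x' => ∀ i, charge i (relabel (f x') l) = 0 ↔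
      charge i (relabel (f x) l) = 0).card ≤ key.card ^ Vs.card * n ^ O.card := by
    refine le_trans (card_le_card_of_injOn (t := (Fintype.piFinset fun _ : Vs => key) ×ˢ
      (univ : Finset (O → Fin n))) (fun x' => (fun b => f x' b.1, fun b => f x' b.1)) ?_ ?_) ?_
    · intro x' hx'
      simp only [Finset.mem_coe, mem_filter, mem_univ, true_and] at hx'
      simp only [Finset.mem_coe, mem_product, Fintype.mem_piFinset, mem_univ, and_true]
      intro b
      exact (hsupp x _).1 fun h => (hsupp x' _).2 (mem_image_of_mem _ b.2) ((hx' _).2 h)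
    · intro a _ b _ hab
      simp only [Prod.mk.injEq] at hab
      refine hdet a b (fun c hc => ?_) fun c hc => congr_fun hab.2 ⟨c, hc⟩
      exact congr_fun hab.1 ⟨c, mem_filter.2 ⟨mem_univ c, hc⟩⟩
    · simp
  refine (Nat.cast_le.2 this).trans ?_
  rw [Nat.cast_mul, Nat.cast_pow, Nat.cast_pow]
  refine mul_le_mul_of_nonneg_right ?_ (by positivity)
  calc (key.card : ℝ) ^ Vs.card ≤ ((r : ℝ) + 1) ^ Vs.card :=
        pow_le_pow_left₀ (by positivity) (by exact_mod_cast hkey) _
    _ ≤ _ := pow_le_pow_right₀ (by linarith [Nat.cast_nonneg (α := ℝ) r]) hl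

/-- A pattern with a surviving index of charge zero is negligible. -/
lemma pattern_avg_le (T : Tr A V) (L : A →ₗ[ℂ] V) {C η δF δ : ℝ} {M : ℕ} [NeZero M]
    (hδF : 0 ≤ δF)
    (hη : ∀ a : A, ‖a‖ ≤ 1 → ‖T.e a‖ ≤ δF → ‖L a‖ ≤ η)
    (s : List Bool) (l : List (B × Bool)) (hlen : l.length = s.length) (hM : 2 * s.length < M)
    (hn : 0 < n) (hδ0 : 0 ≤ δ)
    (hnδ : (n : ℝ)⁻¹ + δ ≤ δF ^ 2) (W : Fin n → unitary A)
    (hW : T.OrthFam W (2 * s.length) δ)
    (hpos : ∀ b, 1 ≤ cnt b l) (z : B) (hz : 2 ≤ cnt z (reduce l)) (hz0 : charge z l = 0) :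
    (𝔼 θ : Fin n → Fin M, ‖∑ σ : B ↪ Fin n, phaseG θ (relabel σ l)
        • L (wordVal W (relabel σ l) : unitary A)‖ ^ 2) ≤
      (n : ℝ) ^ s.length * ((s.length : ℝ) + 1) ^ s.length * (η ^ 2 + C ^ 2 / n) := by
  have hlenf : ∀ f : B → Fin n, 2 * (relabel f l).length < M := fun f => by
    simp only [relabel, List.length_map, hlen]; omega
  set Os := univ.filter fun b => charge b l = 0 with hOs
  set Vs := univ.filter fun b => charge b l ≠ 0 with hVs
  have hBcard : Os.card + Vs.card = Fintype.card B := by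
    rw [hOs, hVs]
    exact card_filter_add_card_filter_not _
  have hlow : ∀ b, (if charge b l = 0 then 2 else 1) ≤ cnt b l := fun b => by
    split_ifs with h
    · exact two_le_cnt h (hpos b)
    · exact hpos b
  have hsum2 : ∑ b, (if charge b l = 0 then 2 else 1) = 2 * Os.card + Vs.card := by
    rw [sum_ite, sum_const, sum_const, smul_eq_mul, smul_eq_mul, hOs, hVs]
    ring
  have hn1 : (1 : ℝ) ≤ n := by exact_mod_cast hn
  have hle : 2 * Os.card + Vs.card ≤ s.length := by
    rw [← hsum2, ← hlen, ← sum_cnt l]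
    exact sum_le_sum fun b _ => hlow b
  classical
  let i₀ : Fin n := ⟨0, hn⟩
  let ext : ({b : B // b ≠ z} ↪ Fin n) → Fin n → B → Fin n :=
    fun x i b => if h : b = z then i else x ⟨b, h⟩
  let free : ({b : B // b ≠ z} ↪ Fin n) → Finset (Fin n) :=
    fun x => univ.filter fun i => ∀ b, x b ≠ i
  have hext : ∀ x i, i ∈ free x → Function.Injective (ext x i) := by
    intro x i hi a b hab
    have hi' := (mem_filter.1 hi).2
    simp only [ext] at hab
    split_ifs at hab with h1 h2 h2
    · exact h1.trans h2.symm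
    · exact absurd hab.symm (hi' _)
    · exact absurd hab (hi' _)
    · exact congrArg Subtype.val (x.injective hab)
  let res : (B ↪ Fin n) → ({b : B // b ≠ z} ↪ Fin n) := fun σ =>
    ⟨fun b => σ b.1, fun a b h => Subtype.ext (σ.injective h)⟩
  have hres : ∀ σ : B ↪ Fin n, ext (res σ) (σ z) = σ := fun σ => funext fun b => by
    by_cases hb : b = z
    · simp [ext, hb]
    · simp [ext, hb, res]; rfl
  let y : ({b : B // b ≠ z} ↪ Fin n) → V := fun x =>
    L (∑ i ∈ free x, (wordVal W (relabel (ext x i) l) : A))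
  have hrewrite : ∀ θ : Fin n → Fin M,
      (∑ σ : B ↪ Fin n, phaseG θ (relabel σ l) • L (wordVal W (relabel σ l) : unitary A)) =
      ∑ x, phaseG θ (relabel (ext x i₀) l) • y x := by
    intro θ
    have h1 : ∀ x, phaseG θ (relabel (ext x i₀) l) • y x = ∑ i ∈ free x,
        phaseG θ (relabel (ext x i) l) • L (wordVal W (relabel (ext x i) l) : unitary A) := by
      intro x
      simp only [y, map_sum, smul_sum]
      refine sum_congr rfl fun i _ => ?_
      congr 1
      rw [phaseG_relabel, phaseG_relabel]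
      refine phaseG_congr _ _ z (fun b hb => ?_) hz0
      simp [ext, hb]
    simp only [h1]
    rw [sum_sigma']
    refine sum_bij' (fun σ _ => (⟨res σ, σ z⟩ : Σ _ : {b : B // b ≠ z} ↪ Fin n, Fin n))
      (fun xi h => ⟨ext xi.1 xi.2, hext _ _ (mem_sigma.1 h).2⟩)
      (fun σ _ => ?_) (fun _ _ => mem_univ _) (fun σ _ => ?_) (fun xi h => ?_) (fun σ _ => ?_)
    · simp only [mem_sigma, mem_univ, true_and, free, mem_filter, ne_eq]
      exact fun b h => b.2 (σ.injective h)
    · exact DFunLike.coe_injective (hres σ)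
    · refine Sigma.ext ?_ (heq_of_eq ?_)
      · refine DFunLike.coe_injective (funext fun b => ?_)
        simp [ext, res, b.2]
      · simp [ext]
    · simp only [hres]
  have hy : ∀ x, ‖y x‖ ≤ n * η := by
    intro x
    set a := ∑ i ∈ free x, (wordVal W (relabel (ext x i) l) : A) with ha
    have hcard : (free x).card ≤ n := (card_le_univ _).trans_eq (Fintype.card_fin n)
    have hcR : ((free x).card : ℝ) ≤ n := by exact_mod_cast hcard
    have hna : ‖a‖ ≤ n :=
      (norm_sum_le_of_le _ fun i _ => norm_unitary_le _).trans (by simpa using hcR)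
    have hoff : ∀ i ∈ free x, ∀ j ∈ free x, i ≠ j →
        ‖⟪T.e (wordVal W (relabel (ext x i) l) : A), T.e (wordVal W (relabel (ext x j) l) : A)⟫_ℂ‖
          ≤ δ := by
      intro i hi j hj hij
      rw [T.inner_eq, ← Unitary.coe_star, ← Submonoid.coe_mul, star_wordVal_mul,
        ← wordVal_reduce]
      refine hW _ ?_ ?_ (isReduced_reduce _)
      · intro h
        have hm : FreeGroup.mk (relabel (ext x i) l) = FreeGroup.mk (relabel (ext x j) l) := by
          have := FreeGroup.reduce.self (L := invRev (relabel (ext x i) l) ++ relabel (ext x j) l)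
          rw [h, ← FreeGroup.mul_mk, ← FreeGroup.inv_mk, ← FreeGroup.one_eq_mk] at this
          exact inv_mul_eq_one.1 this.symm
        have h2 := FreeGroup.reduce.sound hm
        rw [reduce_relabel (hext x i hi), reduce_relabel (hext x j hj)] at h2
        have hz' : z ∈ (reduce l).map Prod.fst := List.count_pos_iff.1 (Nat.lt_of_lt_of_le two_pos hz)
        obtain ⟨c, hc, hcz⟩ := List.mem_map.1 hz'
        have := congrArg Prod.fst (List.map_inj_left.1 h2 c hc)
        simp [ext, hcz] at this
        exact hij this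
      · refine (length_reduce_le _).trans ?_
        simp only [List.length_append, FreeGroup.invRev_length, relabel, List.length_map, hlen]
        omega
    have hea : ‖T.e a‖ ^ 2 ≤ n + (n : ℝ) ^ 2 * δ := by
      have h1 : ‖T.e a‖ ^ 2 = ‖⟪T.e a, T.e a⟫_ℂ‖ := by
        rw [inner_self_eq_norm_sq_to_K]; simp
      rw [h1, ha, map_sum, sum_inner]
      refine ((norm_sum_le _ _).trans
        (sum_le_card_nsmul _ _ (1 + n * δ) fun i hi => ?_)).trans ?_
      · rw [inner_sum]
        refine (norm_sum_le _ _).trans ?_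
        rw [← add_sum_erase _ _ hi]
        refine add_le_add ?_ ((sum_le_card_nsmul _ _ δ fun j hj =>
          hoff i hi j (erase_subset _ _ hj) (ne_of_mem_erase hj).symm).trans ?_)
        · refine (norm_inner_le_norm _ _).trans ?_
          have h1 := (norm_e_le T _).trans (norm_unitary_le (wordVal W (relabel (ext x i) l)))
          exact mul_le_one₀ h1 (norm_nonneg _) h1
        · rw [nsmul_eq_mul]
          exact mul_le_mul_of_nonneg_right
            (by exact_mod_cast (card_le_card (erase_subset i _)).trans hcard) hδ0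
      · rw [nsmul_eq_mul]
        refine (mul_le_mul_of_nonneg_right hcR (by positivity)).trans_eq (by ring)
    have hb : ‖(n : ℂ)⁻¹ • a‖ ≤ 1 := by
      rw [norm_smul, norm_inv, Complex.norm_natCast]
      exact (inv_mul_le_one₀ (by linarith)).2 hna
    have heb : ‖T.e ((n : ℂ)⁻¹ • a)‖ ≤ δF := by
      rw [map_smul, norm_smul, norm_inv, Complex.norm_natCast, inv_mul_le_iff₀ (by linarith)]
      refine (sq_le_sq₀ (norm_nonneg _) (by positivity)).1 (hea.trans ?_)
      calc (n : ℝ) + (n : ℝ) ^ 2 * δ = (n : ℝ) ^ 2 * ((n : ℝ)⁻¹ + δ) := by field_simp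
        _ ≤ (n : ℝ) ^ 2 * δF ^ 2 := by gcongr
        _ = _ := by ring
    have := hη _ hb heb
    rw [map_smul, norm_smul, norm_inv, Complex.norm_natCast,
      inv_mul_le_iff₀ (by linarith)] at this
    exact this
  have hinj : ∀ x, Set.InjOn (ext x i₀) {b | charge b l ≠ 0} := fun x a ha b hb hab => by
    have ha' : a ≠ z := by rintro rfl; exact ha hz0
    have hb' : b ≠ z := by rintro rfl; exact hb hz0
    simp only [ext, dif_neg ha', dif_neg hb'] at hab
    exact congrArg Subtype.val (x.injective hab)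
  have hdet : ∀ x x', (∀ b, charge b l ≠ 0 → ext x i₀ b = ext x' i₀ b) →
      (∀ b ∈ Os.erase z, ext x i₀ b = ext x' i₀ b) → x = x' := fun x x' h1 h2 =>
    DFunLike.ext _ _ fun b => by
      by_cases hb : charge b.1 l = 0
      · simpa [ext, b.2] using h2 b.1 (mem_erase.2 ⟨b.2, mem_filter.2 ⟨mem_univ _, hb⟩⟩)
      · simpa [ext, b.2] using h1 b.1 hb
  simp only [hrewrite]
  refine (expect_sq_le (fun x => relabel (ext x i₀) l) y (n * η) hy (fun x => hlenf _)
    (((s.length : ℝ) + 1) ^ s.length * (n : ℝ) ^ (Os.erase z).card) (fun x => by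
      convert card_same_le (r := s.length) l (show Vs.card ≤ s.length by omega)
        (fun x => ext x i₀) hinj (Os.erase z) hdet x using 4)).trans ?_
  have hX : (Fintype.card ({b : B // b ≠ z} ↪ Fin n) : ℝ) ≤ (n : ℝ) ^ (Fintype.card B - 1) := by
    have := Fintype.card_le_of_injective (fun x : {b : B // b ≠ z} ↪ Fin n => (x : _ → Fin n))
      DFunLike.coe_injective
    rw [Fintype.card_fun, Fintype.card_fin, Fintype.card_subtype_compl,
      Fintype.card_subtype_eq] at this
    exact_mod_cast this
  have hzO : z ∈ Os := mem_filter.2 ⟨mem_univ _, hz0⟩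
  have hOpos := card_pos.2 ⟨z, hzO⟩
  rw [card_erase_of_mem hzO]
  calc (Fintype.card ({b : B // b ≠ z} ↪ Fin n) : ℝ)
        * (((s.length : ℝ) + 1) ^ s.length * (n : ℝ) ^ (Os.card - 1)) * ((n : ℝ) * η) ^ 2
      ≤ (n : ℝ) ^ (Fintype.card B - 1)
        * (((s.length : ℝ) + 1) ^ s.length * (n : ℝ) ^ (Os.card - 1)) * ((n : ℝ) * η) ^ 2 := by gcongr
    _ = (n : ℝ) ^ (Fintype.card B - 1 + (Os.card - 1) + 2) * ((s.length : ℝ) + 1) ^ s.length * η ^ 2 := by
        rw [pow_add, pow_add]; ring
    _ ≤ (n : ℝ) ^ s.length * ((s.length : ℝ) + 1) ^ s.length * η ^ 2 := by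
        gcongr
        omega
    _ ≤ _ := by
        refine mul_le_mul_of_nonneg_left ?_ (by positivity)
        linarith [show 0 ≤ C ^ 2 / (n : ℝ) by positivity]

/-- A pattern with a repeated charged index has too few free indices. -/
lemma pattern_few_le (L : A →ₗ[ℂ] V) {C η : ℝ} {M : ℕ} [NeZero M]
    (hC : ∀ x : unitary A, ‖L x‖ ≤ C)
    (s : List Bool) (l : List (B × Bool)) (hlen : l.length = s.length) (hM : 2 * s.length < M)
    (hn : 0 < n) (W : Fin n → unitary A)
    (hpos : ∀ b, 1 ≤ cnt b l) (z : B) (hz : 2 ≤ cnt z (reduce l)) (hz0 : charge z l ≠ 0) :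
    (𝔼 θ : Fin n → Fin M, ‖∑ σ : B ↪ Fin n, phaseG θ (relabel σ l)
        • L (wordVal W (relabel σ l) : unitary A)‖ ^ 2) ≤
      (n : ℝ) ^ s.length * ((s.length : ℝ) + 1) ^ s.length * (η ^ 2 + C ^ 2 / n) := by
  have hlenf : ∀ f : B → Fin n, 2 * (relabel f l).length < M := fun f => by
    simp only [relabel, List.length_map, hlen]; omega
  set Os := univ.filter fun b => charge b l = 0 with hOs
  set Vs := univ.filter fun b => charge b l ≠ 0 with hVs
  have hBcard : Os.card + Vs.card = Fintype.card B := by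
    rw [hOs, hVs]
    exact card_filter_add_card_filter_not _
  have hlow : ∀ b, (if charge b l = 0 then 2 else 1) ≤ cnt b l := fun b => by
    split_ifs with h
    · exact two_le_cnt h (hpos b)
    · exact hpos b
  have hsum2 : ∑ b, (if charge b l = 0 then 2 else 1) = 2 * Os.card + Vs.card := by
    rw [sum_ite, sum_const, sum_const, smul_eq_mul, smul_eq_mul, hOs, hVs]
    ring
  have hn1 : (1 : ℝ) ≤ n := by exact_mod_cast hn
  have hstrict : 2 * Os.card + Vs.card + 1 ≤ s.length := by
    rw [← hsum2, ← hlen, ← sum_cnt l]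
    refine Nat.succ_le_of_lt (sum_lt_sum (fun b _ => hlow b) ⟨z, mem_univ _, ?_⟩)
    rw [if_neg hz0]
    exact lt_of_lt_of_le (by norm_num) (hz.trans (cnt_reduce_le z l))
  have hdet : ∀ σ τ : B ↪ Fin n, (∀ b, charge b l ≠ 0 → σ b = τ b) →
      (∀ b ∈ Os, σ b = τ b) → σ = τ := fun σ τ h1 h2 => DFunLike.ext _ _ fun b => by
    by_cases hb : charge b l = 0
    · exact h2 b (mem_filter.2 ⟨mem_univ _, hb⟩)
    · exact h1 b hb
  refine (expect_sq_le (fun σ : B ↪ Fin n => relabel σ l)
    (fun σ => L (wordVal W (relabel σ l) : unitary A)) C (fun σ => hC _) (fun σ => hlenf _)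
    (((s.length : ℝ) + 1) ^ s.length * (n : ℝ) ^ Os.card) (fun σ => by
      convert card_same_le (r := s.length) l (show Vs.card ≤ s.length by omega)
        (fun σ : B ↪ Fin n => ⇑σ) (fun σ => σ.injective.injOn) Os hdet σ using 4)).trans ?_
  have hX : (Fintype.card (B ↪ Fin n) : ℝ) ≤ (n : ℝ) ^ Fintype.card B := by
    have := Fintype.card_le_of_injective (fun x : B ↪ Fin n => (x : B → Fin n))
      DFunLike.coe_injective
    rw [Fintype.card_fun, Fintype.card_fin] at this
    exact_mod_cast this
  calc (Fintype.card (B ↪ Fin n) : ℝ) * (((s.length : ℝ) + 1) ^ s.length * (n : ℝ) ^ Os.card) * C ^ 2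
      ≤ (n : ℝ) ^ Fintype.card B * (((s.length : ℝ) + 1) ^ s.length * (n : ℝ) ^ Os.card) * C ^ 2 := by
        gcongr
    _ = (n : ℝ) ^ (Fintype.card B + Os.card + 1) * ((s.length : ℝ) + 1) ^ s.length * (C ^ 2 / n) := by
        rw [pow_succ, pow_add]; field_simp; ring
    _ ≤ (n : ℝ) ^ s.length * ((s.length : ℝ) + 1) ^ s.length * (C ^ 2 / n) := by
        gcongr
        omega
    _ ≤ _ := by
        refine mul_le_mul_of_nonneg_left ?_ (by positivity)
        linarith [sq_nonneg η]

/-- A pattern whose reduced word repeats an index is negligible. -/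
lemma pattern_le (T : Tr A V) (L : A →ₗ[ℂ] V) {C η δF δ : ℝ} {M : ℕ} [NeZero M]
    (hC : ∀ x : unitary A, ‖L x‖ ≤ C) (hδF : 0 ≤ δF)
    (hη : ∀ a : A, ‖a‖ ≤ 1 → ‖T.e a‖ ≤ δF → ‖L a‖ ≤ η)
    (s : List Bool) (hM : 2 * s.length < M) (hn : 0 < n) (hδ0 : 0 ≤ δ)
    (hnδ : (n : ℝ)⁻¹ + δ ≤ δF ^ 2) (W : Fin n → unitary A)
    (hW : T.OrthFam W (2 * s.length) δ) (pB : Fin s.length → B) (hp : Function.Surjective pB)
    (hbad : ¬ ((reduce (patList s pB)).map Prod.fst).Nodup) :
    (𝔼 θ : Fin n → Fin M, ‖∑ σ : B ↪ Fin n, phaseG θ (relabel σ (patList s pB))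
        • L (wordVal W (relabel σ (patList s pB)) : unitary A)‖ ^ 2) ≤
      (n : ℝ) ^ s.length * ((s.length : ℝ) + 1) ^ s.length * (η ^ 2 + C ^ 2 / n) := by
  rw [List.nodup_iff_count_le_one] at hbad
  push Not at hbad
  obtain ⟨z, hz⟩ := hbad
  by_cases hz0 : charge z (patList s pB) = 0
  · exact pattern_avg_le T L hδF hη s _ (length_patList s pB) hM hn hδ0 hnδ W hW
      (cnt_patList_pos s hp) z hz hz0
  · exact pattern_few_le L hC s _ (length_patList s pB) hM hn W (cnt_patList_pos s hp) z hz hz0

/-! ## All tuples -/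

/-- The reduced word of a tuple. -/
def red (s : List Bool) (ι : Fin s.length → Fin n) : List (Fin n × Bool) := reduce (goodList s ι)

omit [Fintype B] in
lemma red_comp (s : List Bool) (pB : Fin s.length → B) (σ : B ↪ Fin n) :
    red s (σ ∘ pB) = relabel σ (reduce (patList s pB)) := by
  rw [red, ← relabel_patList, reduce_relabel σ.injective]

lemma fst_relabel {α β : Type*} (f : α → β) (l : List (α × Bool)) :
    (relabel f l).map Prod.fst = (l.map Prod.fst).map f := by
  simp [relabel, Function.comp_def]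

lemma map_snd_goodList (s : List Bool) (ι : Fin s.length → Fin n) :
    (goodList s ι).map Prod.snd = s := by
  simp [goodList, List.map_ofFn, Function.comp_def]

lemma map_fst_goodList (s : List Bool) (ι : Fin s.length → Fin n) :
    (goodList s ι).map Prod.fst = List.ofFn ι := by
  simp [goodList, List.map_ofFn, Function.comp_def]

/-- The normalised number of tuples with a given reduced word. -/
def weight (s : List Bool) (tg : List (Fin n × Bool)) : ℝ :=
  ((Real.sqrt n)⁻¹) ^ (s.length - tg.length) *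
    ((univ.filter fun ι : Fin s.length → Fin n => red s ι = tg).card : ℝ)

lemma weight_le (s : List Bool) (tg : List (Fin n × Bool)) (htg : (tg.map Prod.fst).Nodup) :
    weight s tg ≤ ((s.length : ℝ) + 1) ^ s.length := by
  classical
  set r := s.length with hr
  set q : ℝ := (Real.sqrt n)⁻¹ with hq
  have hq0 : 0 ≤ q := by positivity
  have hq1 : q ≤ 1 := by
    rcases Nat.eq_zero_or_pos n with h | h
    · simp [hq, h]
    · exact inv_le_one_of_one_le₀ (Real.one_le_sqrt.2 (by exact_mod_cast h))
  set S := univ.filter fun ι : Fin r → Fin n => red s ι = tg with hS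
  have hsplit : ((S.card : ℕ) : ℝ) =
      ∑ p ∈ univ.image (can (n := n) (r := r)), ((S.filter fun ι => can ι = p).card : ℝ) := by
    exact_mod_cast card_eq_sum_card_fiberwise fun ι _ =>
      mem_coe.2 (mem_image_of_mem can (mem_univ ι))
  have hone : ∀ p ∈ univ.image (can (n := n) (r := r)),
      q ^ (r - tg.length) * ((S.filter fun ι => can ι = p).card : ℝ) ≤ 1 := by
    intro p _
    rcases (S.filter fun ι => can ι = p).eq_empty_or_nonempty with h | ⟨ι₀, hι₀⟩
    · simp [h]
    obtain ⟨h₀, rfl⟩ := mem_filter.1 hι₀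
    have h₀' : red s ι₀ = tg := (mem_filter.1 h₀).2
    obtain ⟨B, _, _, pB, hp, Φ, hΦ, hfib⟩ := exists_pattern ι₀
    have hmem : ι₀ ∈ univ.map Φ := by rw [← hfib]; simp
    obtain ⟨σ₀, -, rfl⟩ := mem_map.1 hmem
    rw [hΦ, red_comp] at h₀'
    set l := patList s pB with hl
    set D := ((reduce l).map Prod.fst).toFinset with hD
    have hnd : ((reduce l).map Prod.fst).Nodup := by
      rw [← h₀', fst_relabel] at htg
      exact List.Nodup.of_map _ htg
    have hDcard : D.card = tg.length := by
      rw [hD, List.toFinset_card_of_nodup hnd, List.length_map, ← h₀', relabel, List.length_map]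
    have h2 : 2 * (univ \ D).card + tg.length ≤ r := by
      rw [← hDcard, hr, ← length_patList s pB, ← sum_cnt (patList s pB)]
      rw [← sum_sdiff (subset_univ D)]
      refine add_le_add ?_ ?_
      · rw [mul_comm, ← smul_eq_mul]
        refine card_nsmul_le_sum _ _ _ fun b hb => two_le_cnt ?_ (cnt_patList_pos s hp b)
        have hnot : b ∉ (reduce l).map Prod.fst := fun h =>
          (mem_sdiff.1 hb).2 (List.mem_toFinset.2 h)
        rw [← charge_reduce]
        have := abs_charge_le b (reduce l)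
        rw [show cnt b (reduce l) = 0 from List.count_eq_zero.2 hnot] at this
        simpa using this
      · refine (le_of_eq ?_).trans (card_nsmul_le_sum _ _ 1 fun b _ => cnt_patList_pos s hp b)
        simp
    have hsub : ((S.filter fun ι => can ι = can (Φ σ₀)).card) ≤ n ^ (univ \ D).card := by
      have e : (S.filter fun ι => can ι = can (Φ σ₀)) =
          (univ.filter fun σ : B ↪ Fin n => relabel σ (reduce l) = tg).map Φ := by
        ext ι
        have := Finset.ext_iff.1 hfib ι
        simp only [mem_filter, mem_univ, true_and, mem_map] at this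
        simp only [hS, mem_filter, mem_univ, true_and, mem_map]
        constructor
        · rintro ⟨h, hc⟩
          obtain ⟨σ, rfl⟩ := this.1 hc
          refine ⟨σ, ?_, rfl⟩
          rwa [hΦ, red_comp] at h
        · rintro ⟨σ, h, rfl⟩
          refine ⟨?_, this.2 ⟨σ, rfl⟩⟩
          rwa [hΦ, red_comp]
      rw [e, card_map]
      refine le_trans (card_le_card_of_injOn (t := (univ : Finset (↥(univ \ D) → Fin n)))
        (fun σ b => σ b.1) (fun _ _ => mem_coe.2 (mem_univ _)) ?_) ?_
      · intro σ hσ τ hτ h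
        ext b
        congr 1
        by_cases hb : b ∈ D
        · obtain ⟨c, hc, rfl⟩ := List.mem_map.1 (List.mem_toFinset.1 hb)
          have := List.map_inj_left.1
            ((mem_filter.1 (mem_coe.1 hσ)).2.trans (mem_filter.1 (mem_coe.1 hτ)).2.symm) c hc
          exact congrArg Prod.fst this
        · exact congr_fun h ⟨b, mem_sdiff.2 ⟨mem_univ _, hb⟩⟩
      · simp [Finset.card_univ_sdiff]
    refine (mul_le_mul_of_nonneg_left (Nat.cast_le.2 hsub) (by positivity)).trans ?_
    push_cast
    calc q ^ (r - tg.length) * (n : ℝ) ^ (univ \ D).card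
        ≤ q ^ (2 * (univ \ D).card) * (n : ℝ) ^ (univ \ D).card := by
          refine mul_le_mul_of_nonneg_right ?_ (by positivity)
          exact pow_le_pow_of_le_one hq0 hq1 (by omega)
      _ ≤ 1 := by
          rw [pow_mul, ← mul_pow]
          refine pow_le_one₀ (by positivity) ?_
          rw [hq, inv_pow, Real.sq_sqrt (Nat.cast_nonneg n)]
          exact inv_mul_le_one
  calc weight s tg = ∑ p ∈ univ.image (can (n := n) (r := r)),
        q ^ (r - tg.length) * ((S.filter fun ι => can ι = p).card : ℝ) := by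
        rw [weight, ← hS, hsplit, mul_sum]
    _ ≤ ((univ.image (can (n := n) (r := r))).card : ℕ) • (1 : ℝ) := sum_le_card_nsmul _ _ _ hone
    _ ≤ _ := by
        rw [nsmul_eq_mul, mul_one]
        exact_mod_cast card_image_can_le

/-- The coefficient of a sign pattern. -/
def coefE (n : ℕ) (s s' : List Bool) : ℝ :=
  if h : s'.length ≤ n then weight s (goodList s' (Fin.castLEEmb h : Fin s'.length ↪ Fin n)) else 0

lemma coefE_eq (s s' : List Bool) (e : Fin s'.length ↪ Fin n) :
    coefE n s s' = weight s (goodList s' e) := by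
  have h : s'.length ≤ n := by simpa using Fintype.card_le_of_embedding e
  rw [coefE, dif_pos h]
  obtain ⟨g, hg⟩ := Equiv.Perm.exists_extending_pair
    (Fin.castLEEmb h : Fin s'.length ↪ Fin n) e (Fin.castLEEmb h).injective e.injective
  have hmap : relabel g (goodList s' (Fin.castLEEmb h : Fin s'.length ↪ Fin n)) = goodList s' e := by
    simp only [relabel, goodList, List.map_ofFn]
    congr 1
    funext j
    exact Prod.ext (hg j) rfl
  have hred : ∀ ι : Fin s.length → Fin n, red s (g ∘ ι) = relabel g (red s ι) := fun ι => by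
    rw [red, red, ← reduce_relabel g.injective]
    simp [relabel, goodList, List.map_ofFn, Function.comp_def]
  unfold weight
  rw [← hmap]
  have hlen : (relabel g (goodList s' (Fin.castLEEmb h : Fin s'.length ↪ Fin n))).length =
      (goodList s' (Fin.castLEEmb h : Fin s'.length ↪ Fin n)).length := by simp [relabel]
  rw [hlen]
  congr 2
  refine card_equiv (Equiv.arrowCongr (Equiv.refl _) g) fun ι => ?_
  simp only [mem_filter, mem_univ, true_and]
  show _ ↔ red s (g ∘ ι) = _
  rw [hred]
  exact ⟨fun h => by rw [h], fun h =>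
    (List.map_injective_iff (f := fun a : Fin n × Bool => (g a.1, a.2))).2 (fun a b hab => Prod.ext (g.injective (congrArg Prod.fst hab)) (congrArg Prod.snd hab :) ) h⟩

lemma cWord_expand {M : ℕ} (θ : Fin n → Fin M) (W : Fin n → unitary A) : ∀ s : List Bool,
    cWord (cSum θ W) s = ((Real.sqrt n)⁻¹ : ℂ) ^ s.length •
      ∑ ι : Fin s.length → Fin n, phase θ (goodList s ι) • (wordVal W (goodList s ι) : A)
  | [] => by simp [cWord, goodList, phase, wordVal]
  | b :: s => by
    have hb : (if b then cSum θ W else star (cSum θ W)) = ((Real.sqrt n)⁻¹ : ℂ) •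
        ∑ i, (if b then ph (θ i) else (starRingEnd ℂ) (ph (θ i))) •
          ((if b then W i else star (W i) : unitary A) : A) := by
      cases b <;> simp [cSum, star_smul, star_sum]
    have : cWord (cSum θ W) (b :: s)
        = (if b then cSum θ W else star (cSum θ W)) * cWord (cSum θ W) s := by simp [cWord]
    rw [this, cWord_expand θ W s, hb, smul_mul_smul_comm]
    change _ = ((Real.sqrt n)⁻¹ : ℂ) ^ (s.length + 1) • _
    rw [pow_succ']
    congr 1
    rw [sum_mul_sum, ← Fintype.sum_prod_type']
    refine Fintype.sum_equiv (Fin.consEquiv fun _ : Fin (s.length + 1) => Fin n) _ _ fun x => ?_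
    have hg : goodList (b :: s) (Fin.cons x.1 x.2) = (x.1, b) :: goodList s x.2 := by
      simp [goodList, List.ofFn_succ]
    show _ = phase θ (goodList (b :: s) (Fin.cons x.1 x.2)) •
      ((wordVal W (goodList (b :: s) (Fin.cons x.1 x.2)) : unitary A) : A)
    rw [hg]
    cases b <;> simp [phase, wordVal, smul_smul, mul_comm]

/-- The sum of the tuples whose reduced word repeats an index. -/
def rest {M : ℕ} (θ : Fin n → Fin M) (W : Fin n → unitary A) (s : List Bool) : A :=
  ((Real.sqrt n)⁻¹ : ℂ) ^ s.length •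
    ∑ ι ∈ univ.filter (fun ι : Fin s.length → Fin n => ¬ ((red s ι).map Prod.fst).Nodup),
      phase θ (goodList s ι) • (wordVal W (goodList s ι) : A)

lemma rest_eq {M : ℕ} (θ : Fin n → Fin M) (W : Fin n → unitary A) (s : List Bool) :
    cWord (cSum θ W) s - ∑ s' ∈ patsLE s.length, (coefE n s s' : ℂ) • pGood θ W s' =
      rest θ W s := by
  classical
  set q : ℂ := ((Real.sqrt n)⁻¹ : ℂ) with hq
  set f : (Fin s.length → Fin n) → A :=
    fun ι => phase θ (goodList s ι) • (wordVal W (goodList s ι) : A) with hf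
  have hterm : ∀ ι, ∀ tg, red s ι = tg →
      f ι = phase θ tg • (wordVal W tg : A) := by
    intro ι tg h
    subst h
    simp only [hf, red, wordVal_reduce, phase_eq]
    congr 1
    rw [phaseG_eq_reduce]
  have key : ∀ s' ∈ patsLE s.length, (coefE n s s' : ℂ) • pGood θ W s' =
      q ^ s.length • ∑ e : Fin s'.length ↪ Fin n,
        ∑ ι, if red s ι = goodList s' e then f ι else 0 := by
    intro s' hs'
    have hlen : s'.length ≤ s.length := by
      simp only [patsLE, mem_biUnion, mem_range, mem_image, mem_univ, true_and] at hs'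
      obtain ⟨k, hk, g, rfl⟩ := hs'
      simp
      omega
    rw [pGood, smul_sum, smul_sum, smul_sum]
    refine sum_congr rfl fun e _ => ?_
    rw [← sum_filter, sum_congr rfl fun ι hι => hterm ι _ (mem_filter.1 hι).2, sum_const,
      ← Nat.cast_smul_eq_nsmul ℂ, smul_smul, smul_smul, smul_smul, smul_smul, coefE_eq s s' e,
      weight]
    congr 1
    have : (goodList s' e).length = s'.length := by simp [goodList]
    rw [this, ← hq]
    push_cast
    rw [← hq, ← pow_sub_mul_pow q hlen]
    ring
  rw [sum_congr rfl key, ← smul_sum, cWord_expand, ← smul_sub, rest]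
  congr 1
  rw [sum_congr rfl fun s' _ => sum_comm, sum_comm]
  rw [← sum_sub_distrib, sum_filter]
  refine sum_congr rfl fun ι _ => ?_
  rw [sum_sigma' (patsLE s.length) (fun s' => (univ : Finset (Fin s'.length ↪ Fin n)))]
  by_cases hg : ((red s ι).map Prod.fst).Nodup
  · rw [if_neg (not_not.2 hg)]
    set l := red s ι with hl
    set s' := l.map Prod.snd with hs'
    have hls : s'.length = l.length := by simp [s']
    have hmem : s' ∈ patsLE s.length := by
      simp only [patsLE, mem_biUnion, mem_range, mem_image, mem_univ, true_and]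
      refine ⟨s'.length, ?_, s'.get, List.ofFn_get s'⟩
      have h := length_reduce_le (goodList s ι)
      simp only [goodList, List.length_ofFn] at h
      change s'.length < s.length + 1
      rw [hls]
      exact Nat.lt_succ_of_le h
    let e : Fin s'.length ↪ Fin n := ⟨fun j => (l.get (j.cast hls)).1, fun a b h => by
      have := List.nodup_iff_injective_get.1 hg
        (a₁ := a.cast (by simp [s'])) (a₂ := b.cast (by simp [s'])) (by simpa using h)
      exact Fin.ext (by simpa using congrArg Fin.val this)⟩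
    have he : goodList s' e = l := by
      refine List.ext_get (by simp [goodList, hls]) fun i h1 h2 => ?_
      simp [goodList, s', e]
      rfl
    rw [sum_eq_single_of_mem ⟨s', e⟩ (by simpa using hmem), if_pos he.symm, sub_self]
    rintro ⟨t, d⟩ _ hne
    refine if_neg fun h => hne ?_
    rw [← he] at h
    have ht : t = s' := by
      have := congrArg (List.map Prod.snd) h
      rwa [map_snd_goodList, map_snd_goodList, eq_comm] at this
    subst ht
    have := congrArg (List.map Prod.fst) h
    rw [map_fst_goodList, map_fst_goodList] at this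
    rw [DFunLike.coe_injective (List.ofFn_injective this)]
  · rw [if_pos hg, sum_eq_zero, sub_zero]
    rintro ⟨t, d⟩ _
    refine if_neg fun h => hg ?_
    rw [h, map_fst_goodList]
    exact List.nodup_ofFn.2 d.injective

lemma rest_le (T : Tr A V) (L : A →ₗ[ℂ] V) {C η δF δ : ℝ} {M : ℕ} [NeZero M]
    (hC : ∀ x : unitary A, ‖L x‖ ≤ C) (hδF : 0 ≤ δF)
    (hη : ∀ a : A, ‖a‖ ≤ 1 → ‖T.e a‖ ≤ δF → ‖L a‖ ≤ η)
    (s : List Bool) (hM : 2 * s.length < M) (hn : 0 < n) (hδ0 : 0 ≤ δ)
    (hnδ : (n : ℝ)⁻¹ + δ ≤ δF ^ 2) (W : Fin n → unitary A)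
    (hW : T.OrthFam W (2 * s.length) δ) :
    (𝔼 θ : Fin n → Fin M, ‖L (rest θ W s)‖ ^ 2) ≤
      (((s.length : ℝ) + 1) ^ s.length) ^ 3 * (η ^ 2 + C ^ 2 / n) := by
  classical
  set r := s.length with hr
  set K : ℝ := ((r : ℝ) + 1) ^ r with hK
  set bad := univ.filter (fun ι : Fin r → Fin n => ¬ ((red s ι).map Prod.fst).Nodup) with hbad
  set g : (Fin n → Fin M) → (Fin r → Fin n) → V :=
    fun θ ι => phase θ (goodList s ι) • L (wordVal W (goodList s ι) : unitary A) with hg
  set P := univ.image (can (n := n) (r := r))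
  have hPK : (P.card : ℝ) ≤ K := by
    rw [hK]; exact_mod_cast card_image_can_le
  have hE0 : 0 ≤ η ^ 2 + C ^ 2 / n := by positivity
  have hsum : ∀ θ, L (rest θ W s) = ((Real.sqrt n)⁻¹ : ℂ) ^ r •
      ∑ p ∈ P, ∑ ι ∈ bad.filter (fun ι => can ι = p), g θ ι := by
    intro θ
    rw [rest, map_smul, map_sum,
      sum_fiberwise_of_maps_to fun ι _ => mem_image_of_mem can (mem_univ ι)]
    simp only [map_smul, hg]
    rfl
  have hone : ∀ p ∈ P, (𝔼 θ, ‖∑ ι ∈ bad.filter (fun ι => can ι = p), g θ ι‖ ^ 2) ≤
      (n : ℝ) ^ r * K * (η ^ 2 + C ^ 2 / n) := by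
    intro p _
    rcases (bad.filter fun ι => can ι = p).eq_empty_or_nonempty with h | ⟨ι₀, hι₀⟩
    · simp only [h, sum_empty, norm_zero, ne_eq, OfNat.ofNat_ne_zero, not_false_eq_true, zero_pow,
        Finset.expect_const_zero]
      positivity
    obtain ⟨hb, rfl⟩ := mem_filter.1 hι₀
    have hb' := (mem_filter.1 hb).2
    obtain ⟨B, _, _, pB, hp, Φ, hΦ, hfib⟩ := exists_pattern ι₀
    have hnd : ∀ σ : B ↪ Fin n, ((red s (Φ σ)).map Prod.fst).Nodup ↔
        ((reduce (patList s pB)).map Prod.fst).Nodup := fun σ => by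
      rw [hΦ, red_comp, fst_relabel, List.nodup_map_iff σ.injective]
    have hmem : ι₀ ∈ univ.map Φ := by rw [← hfib]; simp
    obtain ⟨σ₀, -, rfl⟩ := mem_map.1 hmem
    have e : bad.filter (fun ι => can ι = can (Φ σ₀)) = univ.map Φ := by
      rw [← hfib]
      ext ι
      simp only [hbad, mem_filter, mem_univ, true_and, and_iff_right_iff_imp]
      intro h
      have hι : ι ∈ univ.map Φ := by rw [← hfib]; simp [h]
      obtain ⟨σ, -, rfl⟩ := mem_map.1 hι
      rw [hnd σ, ← hnd σ₀]
      exact hb'
    simp only [e]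
    have hgl : ∀ σ : B ↪ Fin n, goodList s (⇑σ ∘ pB) = relabel σ (patList s pB) := fun σ =>
      (relabel_patList s pB σ).symm
    simp only [sum_map, hg, hΦ, hgl, phase_eq]
    exact pattern_le T L hC hδF hη s hM hn hδ0 hnδ W hW pB hp fun h => hb' ((hnd σ₀).2 h)
  simp only [hsum]
  have hq : ‖((Real.sqrt n)⁻¹ : ℂ) ^ r‖ ^ 2 * (n : ℝ) ^ r = 1 := by
    rw [norm_pow, norm_inv, Complex.norm_real, Real.norm_of_nonneg (Real.sqrt_nonneg _),
      ← pow_mul, mul_comm r 2, pow_mul, inv_pow, Real.sq_sqrt (Nat.cast_nonneg n), ← mul_pow,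
      inv_mul_cancel₀ (by positivity), one_pow]
  simp only [norm_smul, mul_pow, ← mul_expect]
  calc ‖((Real.sqrt n)⁻¹ : ℂ) ^ r‖ ^ 2 *
        (𝔼 θ, ‖∑ p ∈ P, ∑ ι ∈ bad.filter (fun ι => can ι = p), g θ ι‖ ^ 2)
      ≤ ‖((Real.sqrt n)⁻¹ : ℂ) ^ r‖ ^ 2 * (𝔼 θ, (P.card : ℝ) *
          ∑ p ∈ P, ‖∑ ι ∈ bad.filter (fun ι => can ι = p), g θ ι‖ ^ 2) := by
        refine mul_le_mul_of_nonneg_left (expect_le_expect fun θ _ => ?_) (by positivity)
        exact (pow_le_pow_left₀ (norm_nonneg _) (norm_sum_le _ _) 2).trans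
          sq_sum_le_card_mul_sum_sq
    _ ≤ ‖((Real.sqrt n)⁻¹ : ℂ) ^ r‖ ^ 2 *
          ((P.card : ℝ) * ((P.card : ℝ) * ((n : ℝ) ^ r * K * (η ^ 2 + C ^ 2 / n)))) := by
        rw [← mul_expect, expect_sum_comm]
        gcongr
        exact (sum_le_sum hone).trans_eq (by rw [sum_const, nsmul_eq_mul])
    _ = (P.card : ℝ) ^ 2 * K * (η ^ 2 + C ^ 2 / n)
          * (‖((Real.sqrt n)⁻¹ : ℂ) ^ r‖ ^ 2 * (n : ℝ) ^ r) := by ring
    _ ≤ K ^ 2 * K * (η ^ 2 + C ^ 2 / n) := by
        rw [hq, mul_one]
        gcongr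
    _ = _ := by ring

end Expand

open Expand in
/-- (E) -/
theorem expandOut (T : Tr A V) : T.ExpandOut := by
  refine ⟨fun n s s' => coefE n s s', fun s => ((s.length : ℝ) + 1) ^ s.length, ?_, ?_, ?_⟩
  · intro n s s' hne
    dsimp only at hne
    unfold coefE weight at hne
    split_ifs at hne with h
    · obtain ⟨ι, hι⟩ := card_pos.1 (Nat.pos_of_ne_zero fun h0 => hne (by rw [h0]; simp))
      have hred : reduce (goodList s ι) = _ := (mem_filter.1 hι).2
      constructor
      · have := length_reduce_le (goodList s ι)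
        rw [hred] at this
        simpa [goodList] using this
      · intro b hb
        have := pat_red (FreeGroup.reduce.red (L := goodList s ι)) (b := b)
          (by rwa [map_snd_goodList])
        rwa [hred, map_snd_goodList] at this
    · exact absurd rfl hne
  · intro n s s'
    dsimp only
    unfold coefE
    split_ifs with h
    · rw [abs_of_nonneg (by unfold weight; positivity)]
      refine weight_le s _ ?_
      rw [map_fst_goodList]
      exact List.nodup_ofFn.2 (Fin.castLEEmb h).injective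
    · rw [abs_zero]; positivity
  · intro s M hM F hF ε hε
    have : NeZero M := ⟨by omega⟩
    set K : ℝ := (((s.length : ℝ) + 1) ^ s.length) ^ 3 with hK
    have hK0 : 0 < K := by positivity
    set η : ℝ := Real.sqrt (ε / (2 * K)) with hη
    have hηpos : 0 < η := Real.sqrt_pos.2 (by positivity)
    obtain ⟨δ₁, hδ₁, hF'⟩ := hF η hηpos
    set δF := min δ₁ η with hδF
    have hδFpos : 0 < δF := lt_min hδ₁ hηpos
    set C : ℝ := ‖F‖ + 1 with hC
    have hC1 : 1 ≤ C := by rw [hC]; linarith [norm_nonneg F]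
    refine ⟨⌈2 / δF ^ 2 + 2 * K * C ^ 2 / ε⌉₊ + 1, fun n hn => ⟨δF ^ 2 / 2, by positivity,
      fun W hW => ?_⟩⟩
    have hn0 : 0 < n := by omega
    have hnR : 2 / δF ^ 2 + 2 * K * C ^ 2 / ε ≤ (n : ℝ) :=
      (Nat.le_ceil _).trans (by exact_mod_cast (by omega : ⌈2 / δF ^ 2 + 2 * K * C ^ 2 / ε⌉₊ ≤ n))
    have hn1 : (0 : ℝ) < n := by exact_mod_cast hn0
    have ha : 2 / δF ^ 2 ≤ (n : ℝ) := by
      linarith [show 0 ≤ 2 * K * C ^ 2 / ε by positivity]
    have hb : 2 * K * C ^ 2 / ε ≤ (n : ℝ) := by linarith [show 0 ≤ 2 / δF ^ 2 by positivity]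
    have hnδ : (n : ℝ)⁻¹ + δF ^ 2 / 2 ≤ δF ^ 2 := by
      have : (n : ℝ)⁻¹ ≤ δF ^ 2 / 2 := by
        rw [inv_le_comm₀ hn1 (by positivity), inv_div]
        exact ha
      linarith
    have hfinal : K * (η ^ 2 + C ^ 2 / n) ≤ ε := by
      rw [hη, Real.sq_sqrt (by positivity), mul_add]
      have h1 : K * (ε / (2 * K)) = ε / 2 := by field_simp
      have h2 : K * (C ^ 2 / n) ≤ ε / 2 := by
        rw [mul_div_assoc', div_le_iff₀ hn1]
        rw [div_le_iff₀ hε] at hb
        linarith
      linarith
    have main : ∀ (H : A →L[ℂ] A), ‖H‖ ≤ C →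
        (∀ a, ‖a‖ ≤ 1 → ‖T.e a‖ ≤ δF → ‖T.e (H a)‖ ≤ η) → ∀ G h : unitary A,
        (𝔼 θ : Fin n → Fin M, ‖T.e (H ((G : A) * (cWord (cSum θ W) s
          - ∑ s' ∈ patsLE s.length, (coefE n s s' : ℂ) • pGood θ W s') * (h : A)))‖ ^ 2) ≤ ε := by
      intro H hH hH' G h
      let L : A →ₗ[ℂ] V := T.e.comp ((H : A →ₗ[ℂ] A).comp
        ((LinearMap.mulRight ℂ (h : A)).comp (LinearMap.mulLeft ℂ (G : A))))
      have hL : ∀ a, L a = T.e (H ((G : A) * a * (h : A))) := fun a => rfl
      have hGh : ∀ a : A, ‖(G : A) * a * (h : A)‖ ≤ ‖a‖ := fun a =>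
        (norm_mul_le _ _).trans ((mul_le_of_le_one_right (norm_nonneg _) (norm_unitary_le h)).trans
          ((norm_mul_le _ _).trans (mul_le_of_le_one_left (norm_nonneg _) (norm_unitary_le G))))
      simp only [rest_eq, ← hL]
      refine (rest_le T L (C := C) (η := η) (δF := δF) (fun x => ?_) hδFpos.le
        (fun a ha1 ha2 => ?_) s hM hn0 (by positivity) hnδ W hW).trans hfinal
      · rw [hL]
        refine (norm_e_le T _).trans ((H.le_opNorm _).trans ?_)
        exact (mul_le_of_le_one_right (norm_nonneg _)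
          ((hGh _).trans (norm_unitary_le x))).trans hH
      · rw [hL]
        refine hH' _ ((hGh a).trans ha1) (le_trans ?_ ha2)
        refine (T.mul_le' _ _).trans ((mul_le_of_le_one_right (norm_nonneg _)
          (norm_unitary_le h)).trans ((T.mul_le _ _).trans ?_))
        exact mul_le_of_le_one_left (norm_nonneg _) (norm_unitary_le G)
    constructor
    · have := main (ContinuousLinearMap.id ℂ A) (ContinuousLinearMap.norm_id_le.trans hC1)
        (fun a _ ha => ha.trans (min_le_right _ _)) 1 1
      simpa using this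
    · exact main F (by rw [hC]; linarith)
        (fun a h1 h2 => hF' a h1 (h2.trans (min_le_left _ _)))

end Vale.Agent.P082
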