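import Mathlib
import Vale.Agent.P082.Defs

/-!
# Vocabulary of the averaging theorem

`Tr` abstracts a finite algebra with a faithful normal tracial state by its trace vectors.
Walks: `pathProd` multiplies with the first letter rightmost. Words in a family `W`:
`wordVal` multiplies in list order, `true` is the letter itself, so the last letter acts first.
-/

noncomputable section

namespace Vale.Agent.P082

open scoped InnerProductSpace BigOperators
open Finset

universe u v

/-- A tracial state given by its vectors. -/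
structure Tr (A : Type u) (V : Type v) [CStarAlgebra A] [NormedAddCommGroup V]
    [InnerProductSpace ℂ V] where
  /-- the vector of an element -/
  e : A →ₗ[ℂ] V
  norm_one : ‖e 1‖ = 1
  mul_le : ∀ a b, ‖e (a * b)‖ ≤ ‖a‖ * ‖e b‖
  mul_le' : ∀ a b, ‖e (a * b)‖ ≤ ‖e a‖ * ‖b‖
  inner_eq : ∀ a b, ⟪e a, e b⟫_ℂ = ⟪e 1, e (star a * b)⟫_ℂ
  comm : ∀ a b, ⟪e 1, e (a * b)⟫_ℂ = ⟪e 1, e (b * a)⟫_ℂ
  faithful : ∀ a, e a = 0 → a = 0

variable {A : Type u} {V : Type v} [CStarAlgebra A] [NormedAddCommGroup V] [InnerProductSpace ℂ V]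

/-- The trace. -/
def Tr.tr (T : Tr A V) (a : A) : ℂ := ⟪T.e 1, T.e a⟫_ℂ

/-- Continuity for the trace norm on the unit ball. -/
def Tr.Cont2 (T : Tr A V) (F : A →L[ℂ] A) : Prop :=
  ∀ ε : ℝ, 0 < ε → ∃ δ : ℝ, 0 < δ ∧ ∀ a, ‖a‖ ≤ 1 → ‖T.e a‖ ≤ δ → ‖T.e (F a)‖ ≤ ε

/-- The form of a map. -/
def Tr.phi2 (T : Tr A V) (F : A →L[ℂ] A) (z X Y : A) : ℂ := T.tr (z * star X * F Y)

/-- The function on unitaries that is to be averaged. -/
def Tr.phiU (T : Tr A V) (F : A →L[ℂ] A) (z : A) (w : unitary A) : ℂ := T.phi2 F z (w : A) (w : A)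

/-! ## Atoms and walks -/

/-- Types of atoms: which unitary multiplies the free one, and whether it is inverted. -/
abbrev Ty (p : ℕ) : Type := Option (Fin p) × Bool

/-- The atom, an element of a type and an index. -/
abbrev Atom (p N : ℕ) : Type := Ty p × Fin N

/-- The inverse type. -/
def Ty.flip {p : ℕ} (t : Ty p) : Ty p := (t.1, !t.2)

/-- The unitary of an atom. -/
def atom {p N : ℕ} (U : Fin p → unitary A) (v : Fin N → unitary A) (a : Atom p N) : unitary A :=
  if a.1.2 then star (v a.2 * a.1.1.elim 1 U) else v a.2 * a.1.1.elim 1 U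

/-- Product along a path, the first letter rightmost. -/
def pathProd {Ω G : Type*} [Monoid G] (a : Ω → G) (l : List Ω) : G := (l.map a).reverse.prod

/-- The average of `φ` along the walk started at `g`. -/
def walkH {Ω G : Type*} [Monoid G] [Fintype Ω] (a : Ω → G) (φ : G → ℂ) (n : ℕ) (g : G) : ℂ :=
  𝔼 i : Fin n, 𝔼 w : Fin (i : ℕ) → Ω, φ (pathProd a (List.ofFn w) * g)

/-- One index never carries two different types up to inversion. -/
def Consistent {p N : ℕ} (l : List (Atom p N)) : Prop :=
  ∀ a ∈ l, ∀ b ∈ l, a.2 = b.2 → a.1.1 = b.1.1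

/-- No atom is next to an inverse atom of the same index. -/
def Reduced {p N : ℕ} (l : List (Atom p N)) : Prop :=
  l.IsChain fun a b => a.2 = b.2 → a.1.2 = b.1.2

/-- The atoms are free Haar unitaries up to degree `D` and precision `δ`. -/
def Tr.Good (T : Tr A V) {p N : ℕ} (U : Fin p → unitary A) (v : Fin N → unitary A) (D : ℕ)
    (δ : ℝ) : Prop :=
  ∀ l : List (Atom p N), l ≠ [] → l.length ≤ D → Consistent l → Reduced l →
    ‖T.tr (pathProd (atom U v) l : unitary A)‖ ≤ δ

/-! ## Blocks -/

/-- The raw data of a block: its excess length and its letters. -/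
abbrev Blk (p N m : ℕ) : Type := Fin m × (Fin (2 * m) → Atom p N)

/-- The letters of a block of length `m + 1 + x`: the first of type `t`, the last inverse to type
`t'`, the others free. -/
def blockList {p N m : ℕ} (t t' : Ty p) (b : Blk p N m) : List (Atom p N) :=
  List.ofFn fun j : Fin (m + 1 + (b.1 : ℕ)) =>
    let c := b.2 ⟨j, by have := b.1.isLt; have := j.isLt; omega⟩
    if (j : ℕ) = 0 then (t, c.2) else if (j : ℕ) = m + (b.1 : ℕ) then (t'.flip, c.2) else c

/-- The unitary of a block. -/
def blockU {p N m : ℕ} (U : Fin p → unitary A) (v : Fin N → unitary A) (t t' : Ty p)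
    (b : Blk p N m) : unitary A :=
  pathProd (atom U v) (blockList t t' b)

/-- All indices of a family of blocks are different. -/
def BlkInj {p N m n : ℕ} (b : Fin n → Blk p N m) : Prop :=
  Function.Injective fun ij : Fin n × Fin (2 * m) => ((b ij.1).2 ij.2).2

/-! ## Words in a family of unitaries, phases -/

/-- The value of a signed word. -/
def wordVal {ι : Type*} (W : ι → unitary A) (l : List (ι × Bool)) : unitary A :=
  (l.map fun a => if a.2 then W a.1 else star (W a.1)).prod

/-- A family of free Haar unitaries up to degree `D` and precision `δ`. -/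
def Tr.OrthFam (T : Tr A V) {n : ℕ} (W : Fin n → unitary A) (D : ℕ) (δ : ℝ) : Prop :=
  ∀ l : List (Fin n × Bool), l ≠ [] → l.length ≤ D → FreeGroup.IsReduced l →
    ‖T.tr (wordVal W l : unitary A)‖ ≤ δ

/-- The root of unity with number `x`. -/
def ph {M : ℕ} (x : Fin M) : ℂ := Complex.exp (2 * Real.pi * Complex.I * ((x : ℕ) : ℂ) / (M : ℂ))

/-- The phase of a signed word. -/
def phase {n M : ℕ} (θ : Fin n → Fin M) (l : List (Fin n × Bool)) : ℂ :=
  (l.map fun a => if a.2 then ph (θ a.1) else starRingEnd ℂ (ph (θ a.1))).prod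

/-- The normalised random sum of a family. -/
def cSum {n M : ℕ} (θ : Fin n → Fin M) (W : Fin n → unitary A) : A :=
  ((Real.sqrt n)⁻¹ : ℂ) • ∑ i, ph (θ i) • (W i : A)

/-- The product of `c` and `star c` following a list of signs. -/
def cWord (c : A) (s : List Bool) : A := (s.map fun b => if b then c else star c).prod

/-- The word with signs `s` and indices `ι`. -/
def goodList {n : ℕ} (s : List Bool) (ι : Fin s.length → Fin n) : List (Fin n × Bool) :=
  List.ofFn fun j => (ι j, s.get j)

/-- The sum of all words of a sign pattern with different indices. -/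
def pGood {n M : ℕ} (θ : Fin n → Fin M) (W : Fin n → unitary A) (s : List Bool) : A :=
  ((Real.sqrt n)⁻¹ : ℂ) ^ s.length • ∑ ι : Fin s.length ↪ Fin n,
    phase θ (goodList s ι) • (wordVal W (goodList s ι) : A)

/-- Starts and ends with `b`, and never two letters `!b` in a row. -/
def Pat (b : Bool) (s : List Bool) : Prop :=
  s.head? = some b ∧ s.getLast? = some b ∧ s.IsChain fun x y => x = b ∨ y = b

/-- The pattern of the adjoint. -/
def flipRev (s : List Bool) : List Bool := (s.map Bool.not).reverse

/-- All sign lists of length at most `R`. -/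
def patsLE (R : ℕ) : Finset (List Bool) :=
  (Finset.range (R + 1)).biUnion fun r => (Finset.univ : Finset (Fin r → Bool)).image List.ofFn

/-- `c q (c⋆ c)`. -/
def xPoly (Q : Polynomial ℝ) (c : A) : A :=
  c * ∑ j ∈ Finset.range (Q.natDegree + 1), ((Q.coeff j : ℝ) : ℂ) • (star c * c) ^ j

/-- The moment functional of the square of a semicircular variable. -/
def catL (Q : Polynomial ℝ) : ℝ :=
  ∑ j ∈ Finset.range (Q.natDegree + 1), Q.coeff j * (catalan j : ℝ)

end Vale.Agent.P082
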