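import Vale.Agent.P082.Core.Spec

/-!
# Moments of the square of a normalised random sum of free Haar unitaries

Alternating words reducing to the empty word are the nested ones, counted by the Catalan recursion.
-/

noncomputable section

namespace Vale.Agent.P082

open scoped InnerProductSpace BigOperators
open Finset

universe u v

/-! ## Nested alternating lists -/

section Combinatorics

variable {α : Type*}

/-- Lists built by nesting inverse pairs. -/
inductive Nested : List (α × Bool) → Prop
  | nil : Nested []
  | node (a : α) (b : Bool) (x y : List (α × Bool)) :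
      Nested x → Nested y → Nested ((a, b) :: x ++ (a, !b) :: y)

lemma Nested.insert {l : List (α × Bool)} (h : Nested l) : ∀ (u v : List (α × Bool)) (c : α)
    (e : Bool), l = u ++ v → Nested (u ++ (c, e) :: (c, !e) :: v) := by
  induction h with
  | nil =>
    intro u v c e hl
    obtain ⟨rfl, rfl⟩ := List.append_eq_nil_iff.1 hl.symm
    exact .node c e [] [] .nil .nil
  | node a b x y hx hy ihx ihy =>
    intro u v c e hl
    rcases u with _ | ⟨w, u⟩
    · simp only [List.nil_append] at hl
      subst hl
      exact .node c e [] _ .nil (.node a b x y hx hy)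
    · simp only [List.cons_append, List.cons.injEq] at hl
      obtain ⟨rfl, hl⟩ := hl
      rcases List.append_eq_append_iff.1 hl with ⟨t, rfl, hy'⟩ | ⟨t, rfl, hv⟩
      · rcases t with _ | ⟨q, t⟩
        · simp only [List.nil_append] at hy'
          subst hy'
          have := Nested.node a b (x ++ [(c, e), (c, !e)]) y
            (by simpa using ihx x [] c e (by simp)) hy
          simpa using this
        · simp only [List.cons_append, List.cons.injEq] at hy'
          obtain ⟨rfl, rfl⟩ := hy'
          simpa using Nested.node a b x _ hx (ihy t v c e rfl)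
      · subst hv
        simpa using Nested.node a b _ y (ihx u t c e rfl) hy

lemma nested_of_red {l : List (α × Bool)} (h : FreeGroup.Red l []) : Nested l := by
  induction h using Relation.ReflTransGen.head_induction_on with
  | refl => exact .nil
  | head hs _ ih =>
    cases hs with
    | not => exact ih.insert _ _ _ _ rfl

lemma Nested.mk_eq_one {l : List (α × Bool)} (h : Nested l) : FreeGroup.mk l = 1 := by
  induction h with
  | nil => rfl
  | node a b x y _ _ ihx ihy =>
    have e : FreeGroup.mk ((a, b) :: x ++ (a, !b) :: y)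
        = FreeGroup.mk [(a, b)] * FreeGroup.mk x * FreeGroup.mk [(a, !b)] * FreeGroup.mk y := by
      simp [FreeGroup.mul_mk]
    rw [e, ihx, ihy, mul_one, mul_one, FreeGroup.mul_mk]
    exact Quot.sound (FreeGroup.Red.Step.not (L₁ := []) (L₂ := []))

lemma nested_of_mk_eq_one [DecidableEq α] {l : List (α × Bool)} (h : FreeGroup.mk l = 1) :
    Nested l := by
  obtain ⟨c, h1, h2⟩ := FreeGroup.Red.exact.1 (h.trans FreeGroup.one_eq_mk)
  rw [FreeGroup.Red.nil_iff.1 h2] at h1
  exact nested_of_red h1

lemma Nested.even_length {l : List (α × Bool)} (h : Nested l) : Even l.length := by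
  induction h with
  | nil => simp
  | node a b x y _ _ ihx ihy =>
    obtain ⟨i, hi⟩ := ihx
    obtain ⟨j, hj⟩ := ihy
    exact ⟨i + j + 1, by simp only [List.length_append, List.length_cons]; omega⟩

/-- The signs alternate, starting with `b`. -/
def Alt : Bool → List (α × Bool) → Prop
  | _, [] => True
  | b, x :: l => x.2 = b ∧ Alt (!b) l

/-- The sign after `k` alternations. -/
def flipN : ℕ → Bool → Bool
  | 0, b => b
  | k + 1, b => flipN k (!b)

lemma flipN_two_mul (i : ℕ) (b : Bool) : flipN (2 * i) b = b := by
  induction i with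
  | zero => rfl
  | succ i ih =>
    show flipN (2 * i) (!(!b)) = b
    rw [Bool.not_not, ih]

lemma alt_append (x y : List (α × Bool)) (b : Bool) :
    Alt b (x ++ y) ↔ Alt b x ∧ Alt (flipN x.length b) y := by
  induction x generalizing b with
  | nil => simp [Alt, flipN]
  | cons a x ih =>
    simp only [List.cons_append, Alt, List.length_cons, flipN, ih, and_assoc]

lemma alt_node {a : α} {b : Bool} {x y : List (α × Bool)} {i : ℕ} (hi : x.length = 2 * i) :
    Alt b ((a, b) :: x ++ (a, !b) :: y) ↔ Alt (!b) x ∧ Alt b y := by
  simp [Alt, alt_append, hi, flipN_two_mul, List.cons_append]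

variable [DecidableEq α]

/-- The indices of a list. -/
def idx (l : List (α × Bool)) : Finset α := (l.map Prod.fst).toFinset

lemma idx_node (a : α) (b : Bool) (x y : List (α × Bool)) :
    idx ((a, b) :: x ++ (a, !b) :: y) = insert a (idx x ∪ idx y) := by
  ext z
  simp [idx]

lemma split_unique {a : α} {e : Bool} {x x' y y' : List (α × Bool)} (hx : a ∉ idx x)
    (hx' : a ∉ idx x') (h : x ++ (a, e) :: y = x' ++ (a, e) :: y') : x = x' ∧ y = y' := by
  induction x generalizing x' with
  | nil =>
    rcases x' with _ | ⟨q, x'⟩
    · simpa using h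
    · simp only [List.nil_append, List.cons_append, List.cons.injEq] at h
      exact absurd (by simp [idx, ← h.1]) hx'
  | cons q x ih =>
    rcases x' with _ | ⟨q', x'⟩
    · simp only [List.nil_append, List.cons_append, List.cons.injEq] at h
      exact absurd (by simp [idx, h.1]) hx
    · simp only [List.cons_append, List.cons.injEq] at h
      obtain ⟨rfl, h⟩ := h
      have m1 : a ∉ idx x := fun hm => hx (by simp [idx] at hm ⊢; exact Or.inr hm)
      have m2 : a ∉ idx x' := fun hm => hx' (by simp [idx] at hm ⊢; exact Or.inr hm)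
      obtain ⟨rfl, rfl⟩ := ih m1 m2 h
      exact ⟨rfl, rfl⟩

/-- All nested alternating lists with `p` pairs. -/
def nest (S : Finset α) : ℕ → Bool → Finset (List (α × Bool))
  | 0, _ => {[]}
  | p + 1, b => (univ : Finset (Fin (p + 1))).biUnion fun i => S.biUnion fun a =>
      (nest S i (!b)).biUnion fun x =>
        (nest S (p - i) b).image fun y => (a, b) :: x ++ (a, !b) :: y
  termination_by p => p
  decreasing_by all_goals omega

/-- The nested alternating lists with `p` pairs of different indices. -/
def gest : ℕ → Finset α → Bool → Finset (List (α × Bool))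
  | 0, _, _ => {[]}
  | p + 1, S, b => (univ : Finset (Fin (p + 1))).biUnion fun i => S.biUnion fun a =>
      (gest i (S.erase a) (!b)).biUnion fun x =>
        (gest (p - i) (S.erase a \ idx x) b).image fun y => (a, b) :: x ++ (a, !b) :: y
  termination_by p => p
  decreasing_by all_goals omega

lemma card_nest_le (S : Finset α) : ∀ (p : ℕ) (b : Bool),
    (nest S p b).card ≤ catalan p * S.card ^ p := by
  intro p
  induction p using Nat.strong_induction_on with
  | _ p ih =>
    intro b
    cases p with
    | zero => simp [nest]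
    | succ p =>
      rw [nest, catalan_succ, Finset.sum_mul]
      refine card_biUnion_le.trans (Finset.sum_le_sum fun i _ => ?_)
      refine card_biUnion_le.trans ?_
      have hb : ∀ a ∈ S, ((nest S i (!b)).biUnion fun x =>
          (nest S (p - i) b).image fun y => (a, b) :: x ++ (a, !b) :: y).card ≤
          (catalan i * S.card ^ (i : ℕ)) * (catalan (p - i) * S.card ^ (p - i)) := by
        intro a _
        refine card_biUnion_le.trans ?_
        refine (Finset.sum_le_card_nsmul _ _ _ fun x _ =>
          card_image_le.trans (ih (p - i) (by omega) b)).trans ?_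
        rw [smul_eq_mul]
        exact Nat.mul_le_mul_right _ (ih i i.isLt _)
      refine (Finset.sum_le_card_nsmul _ _ _ hb).trans (le_of_eq ?_)
      have e : S.card ^ (p + 1) = S.card ^ (i : ℕ) * S.card ^ (p - i) * S.card := by
        rw [← pow_add, ← pow_succ]
        congr 1
        omega
      rw [smul_eq_mul, e]
      ring

lemma mem_nest_of_nested {S : Finset α} {l : List (α × Bool)} (h : Nested l) :
    ∀ (p : ℕ) (b : Bool), l.length = 2 * p → Alt b l → idx l ⊆ S → l ∈ nest S p b := by
  induction h with
  | nil =>
    intro p b hp _ _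
    obtain rfl : p = 0 := by simp at hp; omega
    simp [nest]
  | node a c x y hx hy ihx ihy =>
    intro p b hp halt hS
    obtain ⟨i, hi⟩ := hx.even_length
    have hi' : x.length = 2 * i := by omega
    obtain rfl : c = b := halt.1
    obtain ⟨hax, hay⟩ := (alt_node hi').1 halt
    simp only [List.length_append, List.length_cons] at hp
    obtain ⟨q, rfl⟩ : ∃ q, p = q + 1 := ⟨p - 1, by omega⟩
    rw [idx_node] at hS
    rw [nest]
    simp only [mem_biUnion, mem_image, mem_univ, true_and]
    exact ⟨⟨i, by omega⟩, a, hS (mem_insert_self _ _), x,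
      ihx i _ hi' hax (fun z hz => hS (mem_insert_of_mem (mem_union_left _ hz))), y,
      ihy (q - i) c (by omega) hay (fun z hz => hS (mem_insert_of_mem (mem_union_right _ hz))), rfl⟩

lemma gest_spec : ∀ (p : ℕ) (S : Finset α) (b : Bool), ∀ l ∈ gest p S b,
    Nested l ∧ Alt b l ∧ l.length = 2 * p ∧ idx l ⊆ S ∧ (idx l).card = p := by
  intro p
  induction p using Nat.strong_induction_on with
  | _ p ih =>
    intro S b l hl
    cases p with
    | zero =>
      rw [gest, mem_singleton] at hl
      subst hl
      exact ⟨.nil, trivial, rfl, by simp [idx], by simp [idx]⟩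
    | succ p =>
      rw [gest] at hl
      simp only [mem_biUnion, mem_image, mem_univ, true_and] at hl
      obtain ⟨i, a, ha, x, hx, y, hy, rfl⟩ := hl
      obtain ⟨xn, xa, xl, xs, xc⟩ := ih i i.isLt _ _ x hx
      obtain ⟨yn, ya, yl, ys, yc⟩ := ih (p - i) (by omega) _ _ y hy
      have hax : a ∉ idx x := fun h => by simpa using xs h
      have hay : a ∉ idx y := fun h => by
        have h' := (mem_sdiff.1 (ys h)).1
        simp at h'
      have hd : Disjoint (idx x) (idx y) :=
        Finset.disjoint_right.2 fun z hz => (mem_sdiff.1 (ys hz)).2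
      refine ⟨.node a b x y xn yn, (alt_node xl).2 ⟨xa, ya⟩, ?_, ?_, ?_⟩
      · simp only [List.length_append, List.length_cons, xl, yl]
        omega
      · rw [idx_node]
        exact insert_subset ha (union_subset (xs.trans (erase_subset _ _))
          (ys.trans (sdiff_subset.trans (erase_subset _ _))))
      · rw [idx_node, card_insert_of_notMem (by simp [hax, hay]), card_union_of_disjoint hd, xc, yc]
        omega

lemma card_gest : ∀ (p : ℕ) (S : Finset α) (b : Bool),
    (gest p S b).card = catalan p * S.card.descFactorial p := by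
  intro p
  induction p using Nat.strong_induction_on with
  | _ p ih =>
    intro S b
    cases p with
    | zero => simp [gest]
    | succ p =>
      rw [gest, catalan_succ, Finset.sum_mul]
      rw [card_biUnion]
      swap
      · intro i _ j _ hij
        refine Finset.disjoint_left.2 fun l hl hl' => hij ?_
        simp only [mem_biUnion, mem_image] at hl hl'
        obtain ⟨a, _, x, hx, y, _, rfl⟩ := hl
        obtain ⟨a', _, x', hx', y', _, he⟩ := hl'
        simp only [List.cons_append, List.cons.injEq, Prod.mk.injEq, and_true] at he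
        obtain ⟨rfl, he⟩ := he
        obtain ⟨_, _, xl, xs, _⟩ := gest_spec i _ _ x hx
        obtain ⟨_, _, xl', xs', _⟩ := gest_spec j _ _ x' hx'
        obtain ⟨rfl, rfl⟩ := split_unique (fun h => by simpa using xs' h)
          (fun h => by simpa using xs h) he
        exact Fin.ext (by omega)
      refine Finset.sum_congr rfl fun i _ => ?_
      rw [card_biUnion]
      swap
      · intro a _ a' _ haa
        refine Finset.disjoint_left.2 fun l hl hl' => haa ?_
        simp only [mem_biUnion, mem_image] at hl hl'
        obtain ⟨x, _, y, _, rfl⟩ := hl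
        obtain ⟨x', _, y', _, he⟩ := hl'
        simp only [List.cons_append, List.cons.injEq, Prod.mk.injEq, and_true] at he
        exact he.1.symm
      have hb : ∀ a ∈ S, ((gest i (S.erase a) (!b)).biUnion fun x =>
          (gest (p - i) (S.erase a \ idx x) b).image fun y => (a, b) :: x ++ (a, !b) :: y).card =
          catalan i * catalan (p - i) * (S.card - 1).descFactorial p := by
        intro a ha
        rw [card_biUnion]
        swap
        · intro x hx x' hx' hne
          refine Finset.disjoint_left.2 fun l hl hl' => hne ?_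
          simp only [mem_image] at hl hl'
          obtain ⟨y, _, rfl⟩ := hl
          obtain ⟨y', _, he⟩ := hl'
          simp only [List.cons_append, List.cons.injEq, true_and] at he
          exact (split_unique (fun h => by simpa using (gest_spec i _ _ x' hx').2.2.2.1 h)
            (fun h => by simpa using (gest_spec i _ _ x hx).2.2.2.1 h) he).1.symm
        have hx : ∀ x ∈ gest i (S.erase a) (!b),
            ((gest (p - i) (S.erase a \ idx x) b).image fun y => (a, b) :: x ++ (a, !b) :: y).card =
            catalan (p - i) * (S.card - 1 - i).descFactorial (p - i) := by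
          intro x hx
          rw [card_image_of_injective _ (fun y y' h => by simpa using h), ih (p - i) (by omega),
            card_sdiff_of_subset (gest_spec i _ _ x hx).2.2.2.1, card_erase_of_mem ha,
            (gest_spec i _ _ x hx).2.2.2.2]
        rw [Finset.sum_congr rfl hx, Finset.sum_const, smul_eq_mul, ih i i.isLt,
          card_erase_of_mem ha,
          ← Nat.descFactorial_mul_descFactorial (n := S.card - 1) (show (i : ℕ) ≤ p by omega)]
        ring
      rw [Finset.sum_congr rfl hb, Finset.sum_const, smul_eq_mul]
      rcases Nat.eq_zero_or_pos S.card with h0 | h0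
      · simp [h0]
      · obtain ⟨s, hs⟩ : ∃ s, S.card = s + 1 := ⟨S.card - 1, by omega⟩
        rw [hs, Nat.succ_descFactorial_succ, Nat.add_sub_cancel]
        ring

/-- The alternating list of a tuple. -/
def altL : ∀ p, (Fin p → α × α) → List (α × Bool)
  | 0, _ => []
  | p + 1, f => ((f 0).1, false) :: ((f 0).2, true) :: altL p (Fin.tail f)

omit [DecidableEq α] in
lemma altL_length : ∀ (p : ℕ) (f : Fin p → α × α), (altL p f).length = 2 * p
  | 0, _ => rfl
  | p + 1, f => by simp only [altL, List.length_cons, altL_length p]; omega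

omit [DecidableEq α] in
lemma altL_alt : ∀ (p : ℕ) (f : Fin p → α × α), Alt false (altL p f)
  | 0, _ => trivial
  | p + 1, f => ⟨rfl, rfl, altL_alt p _⟩

omit [DecidableEq α] in
lemma altL_injective : ∀ p : ℕ, Function.Injective (altL (α := α) p)
  | 0 => fun f g _ => funext fun i => i.elim0
  | p + 1 => fun f g h => by
      simp only [altL, List.cons.injEq, Prod.mk.injEq, and_true] at h
      obtain ⟨h1, h2, h3⟩ := h
      rw [← Fin.cons_self_tail f, ← Fin.cons_self_tail g, altL_injective p h3,
        Prod.ext h1 h2]

omit [DecidableEq α] in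
lemma exists_altL : ∀ (p : ℕ) (l : List (α × Bool)), l.length = 2 * p → Alt false l →
    ∃ f, altL p f = l
  | 0, l, hl, _ => ⟨Fin.elim0, (List.eq_nil_of_length_eq_zero (by simpa using hl)).symm⟩
  | p + 1, [], hl, _ => by simp at hl
  | p + 1, [_], hl, _ => by simp at hl; omega
  | p + 1, (a, x) :: (c, y) :: l, hl, h => by
      obtain ⟨rfl, rfl, h⟩ := h
      obtain ⟨f, rfl⟩ := exists_altL p l (by simp only [List.length_cons] at hl; omega) h
      exact ⟨Fin.cons (a, c) f, by simp [altL]⟩

variable [Fintype α]

open Classical in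
/-- The trivial alternating words are at most as many as nested ones, at least as many as those
with different indices. -/
lemma card_trivial (p : ℕ) :
    let A := (univ : Finset (Fin p → α × α)).filter fun f => FreeGroup.mk (altL p f) = 1
    A.card ≤ catalan p * Fintype.card α ^ p ∧
      catalan p * (Fintype.card α).descFactorial p ≤ A.card := by
  intro A
  rw [← card_image_of_injective A (altL_injective p)]
  constructor
  · refine le_trans (card_le_card ?_) (card_nest_le univ p false)
    intro l hl
    simp only [A, mem_image, mem_filter, mem_univ, true_and] at hl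
    obtain ⟨f, hf, rfl⟩ := hl
    exact mem_nest_of_nested (nested_of_mk_eq_one hf) p false (altL_length p f) (altL_alt p f)
      (subset_univ _)
  · rw [← card_univ, ← card_gest p univ false]
    refine card_le_card fun l hl => ?_
    obtain ⟨hn, ha, hlen, _, _⟩ := gest_spec p _ _ l hl
    obtain ⟨f, rfl⟩ := exists_altL p l hlen ha
    simp only [A, mem_image, mem_filter, mem_univ, true_and]
    exact ⟨f, hn.mk_eq_one, rfl⟩

end Combinatorics

lemma descFactorial_ge (n : ℕ) : ∀ p : ℕ,
    ((n : ℝ) ^ p) * ((n : ℝ) - (p : ℝ) ^ 2) ≤ (n : ℝ) * n.descFactorial p := by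
  intro p
  induction p with
  | zero => simp
  | succ p ih =>
    by_cases hp : p < n
    · rw [Nat.descFactorial_succ, Nat.cast_mul, Nat.cast_sub hp.le, pow_succ]
      have hnp : (0 : ℝ) ≤ (n : ℝ) - p := by
        rw [sub_nonneg]; exact_mod_cast hp.le
      have := mul_le_mul_of_nonneg_left ih hnp
      push_cast
      nlinarith [mul_nonneg (pow_nonneg (Nat.cast_nonneg n : (0 : ℝ) ≤ n) p)
          (mul_nonneg (Nat.cast_nonneg (α := ℝ) p) (sq_nonneg ((p : ℝ)))),
        mul_nonneg (pow_nonneg (Nat.cast_nonneg n : (0 : ℝ) ≤ n) p)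
          (mul_nonneg (Nat.cast_nonneg (α := ℝ) n)
            (by positivity : (0 : ℝ) ≤ (p : ℝ) + 1))]
    · have hnp : (n : ℝ) ≤ p := by exact_mod_cast not_lt.1 hp
      refine le_trans ?_ (by positivity : (0 : ℝ) ≤ _)
      refine mul_nonpos_of_nonneg_of_nonpos (by positivity) ?_
      push_cast
      nlinarith [Nat.cast_nonneg (α := ℝ) p]

/-! ## The moments -/

variable {A : Type u} {V : Type v} [CStarAlgebra A] [NormedAddCommGroup V] [InnerProductSpace ℂ V]

lemma wordVal_eq_lift {ι : Type*} (W : ι → unitary A) (l : List (ι × Bool)) :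
    wordVal W l = FreeGroup.lift W (FreeGroup.mk l) := by
  rw [FreeGroup.lift_mk, wordVal]
  congr 1
  refine List.map_congr_left fun x _ => ?_
  cases x.2 <;> rfl

lemma wordVal_cons {ι : Type*} (W : ι → unitary A) (a : ι × Bool) (l : List (ι × Bool)) :
    wordVal W (a :: l) = (if a.2 then W a.1 else star (W a.1)) * wordVal W l := by
  simp [wordVal]

private lemma norm_ph {M : ℕ} (x : Fin M) : ‖ph x‖ = 1 := by
  rw [ph, Complex.norm_exp]
  simp [Complex.div_re, Complex.mul_re, Complex.mul_im]

/-- The rotated unitaries. -/
private def rot {n M : ℕ} (θ : Fin n → Fin M) (W : Fin n → unitary A) (i : Fin n) : unitary A :=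
  ⟨ph (θ i) • (W i : A), by
    have h : starRingEnd ℂ (ph (θ i)) * ph (θ i) = 1 := by
      rw [Complex.conj_mul', norm_ph]; norm_num
    constructor
    · rw [star_smul, smul_mul_smul_comm, Unitary.star_mul_self_of_mem (W i).2, ← starRingEnd_apply,
        h, one_smul]
    · rw [star_smul, smul_mul_smul_comm, Unitary.mul_star_self_of_mem (W i).2, ← starRingEnd_apply,
        mul_comm, h, one_smul]⟩

private lemma wordVal_rot {n M : ℕ} (θ : Fin n → Fin M) (W : Fin n → unitary A)
    (l : List (Fin n × Bool)) :
    (wordVal (rot θ W) l : A) = phase θ l • (wordVal W l : A) := by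
  induction l with
  | nil => simp [wordVal, phase]
  | cons a l ih =>
    obtain ⟨i, b⟩ := a
    rw [wordVal_cons, wordVal_cons]
    cases b <;>
    · simp only [Submonoid.coe_mul, ih, if_true, Bool.false_eq_true, if_false, phase,
        List.map_cons, List.prod_cons, Unitary.coe_star, rot, star_smul, smul_mul_smul_comm,
        starRingEnd_apply]

private lemma norm_phase {n M : ℕ} (θ : Fin n → Fin M) (l : List (Fin n × Bool)) :
    ‖phase θ l‖ = 1 := by
  induction l with
  | nil => simp [phase]
  | cons a l ih =>
    simp only [phase, List.map_cons, List.prod_cons, norm_mul] at ih ⊢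
    rw [ih, mul_one]
    split_ifs
    · exact norm_ph _
    · rw [RCLike.norm_conj]; exact norm_ph _

private lemma pow_expand {n M : ℕ} (θ : Fin n → Fin M) (W : Fin n → unitary A) : ∀ p : ℕ,
    (star (cSum θ W) * cSum θ W) ^ p
      = (((n : ℝ)⁻¹ : ℝ) : ℂ) ^ p • ∑ f : Fin p → Fin n × Fin n,
          (wordVal (rot θ W) (altL p f) : A) := by
  intro p
  induction p with
  | zero => simp [altL, wordVal]
  | succ p ih =>
    have hc : cSum θ W = ((Real.sqrt n)⁻¹ : ℂ) • ∑ i, (rot θ W i : A) := rfl
    have hr : starRingEnd ℂ ((Real.sqrt n)⁻¹ : ℂ) * ((Real.sqrt n)⁻¹ : ℂ)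
        = (((n : ℝ)⁻¹ : ℝ) : ℂ) := by
      rw [map_inv₀, Complex.conj_ofReal, ← mul_inv, ← Complex.ofReal_mul,
        Real.mul_self_sqrt (Nat.cast_nonneg n), Complex.ofReal_inv]
    rw [pow_succ', ih, hc, star_smul, smul_mul_smul_comm, smul_mul_smul_comm,
      ← starRingEnd_apply, hr, ← pow_succ', star_sum, Finset.sum_mul]
    congr 1
    rw [← Equiv.sum_comp (Fin.consEquiv fun _ => Fin n × Fin n), Fintype.sum_prod_type,
      Fintype.sum_prod_type, Finset.sum_mul]
    refine Finset.sum_congr rfl fun i _ => ?_
    simp only [Finset.mul_sum, Finset.sum_mul]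
    rw [Finset.sum_comm]
    refine Finset.sum_congr rfl fun j _ => ?_
    refine Finset.sum_congr rfl fun f _ => ?_
    rw [show (Fin.consEquiv fun _ : Fin (p + 1) => Fin n × Fin n) ((i, j), f) = Fin.cons (i, j) f
      from rfl]
    simp [altL, wordVal_cons, mul_assoc]

/-- (C2) the moments of the square of the random sum. -/
theorem momentsOut (T : Tr A V) : T.MomentsOut := by
  classical
  intro p n M θ W δ hn hW hδ
  have htr1 : T.tr 1 = 1 := by
    rw [Tr.tr, inner_self_eq_norm_sq_to_K, T.norm_one]; norm_num
  have hterm : ∀ f : Fin p → Fin n × Fin n,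
      |(T.tr (wordVal (rot θ W) (altL p f) : A)).re
        - (if FreeGroup.mk (altL p f) = 1 then 1 else 0)| ≤ δ := by
    intro f
    by_cases h : FreeGroup.mk (altL p f) = 1
    · rw [if_pos h, wordVal_eq_lift, h, map_one]
      simpa [htr1] using hδ
    · rw [if_neg h, sub_zero, wordVal_rot]
      have hb : ‖T.tr (wordVal W (altL p f) : A)‖ ≤ δ := by
        rw [wordVal_eq_lift, ← FreeGroup.reduce.self, ← wordVal_eq_lift]
        refine hW _ ?_ ?_ (FreeGroup.isReduced_toWord (x := FreeGroup.mk (altL p f)))
        · intro he
          exact h (by rw [← FreeGroup.reduce.self, he]; rfl)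
        · calc (FreeGroup.reduce (altL p f)).length ≤ (altL p f).length :=
                FreeGroup.Red.length_le FreeGroup.reduce.red
            _ = 2 * p := altL_length p f
      refine (Complex.abs_re_le_norm _).trans ?_
      rw [Tr.tr, map_smul, inner_smul_right, norm_mul, norm_phase, one_mul]
      exact hb
  have hsum : |(∑ f : Fin p → Fin n × Fin n, (T.tr (wordVal (rot θ W) (altL p f) : A)).re)
      - ((univ.filter fun f : Fin p → Fin n × Fin n => FreeGroup.mk (altL p f) = 1).card : ℝ)|
      ≤ ((n : ℝ) * n) ^ p * δ := by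
    have e : ((univ.filter fun f : Fin p → Fin n × Fin n =>
        FreeGroup.mk (altL p f) = 1).card : ℝ)
        = ∑ f : Fin p → Fin n × Fin n, (if FreeGroup.mk (altL p f) = 1 then (1 : ℝ) else 0) := by
      simp
    rw [e, ← Finset.sum_sub_distrib]
    refine (abs_sum_le_sum_abs _ _).trans ((Finset.sum_le_card_nsmul _ _ δ fun f _ => hterm f).trans
      (le_of_eq ?_))
    simp [Fintype.card_prod, nsmul_eq_mul]
  have hval : (T.tr ((star (cSum θ W) * cSum θ W) ^ p)).re
      = ((n : ℝ)⁻¹) ^ p * ∑ f : Fin p → Fin n × Fin n,
          (T.tr (wordVal (rot θ W) (altL p f) : A)).re := by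
    rw [pow_expand θ W p, Tr.tr, map_smul, inner_smul_right, map_sum, inner_sum,
      ← Complex.ofReal_pow, Complex.re_ofReal_mul, Complex.re_sum]
    rfl
  obtain ⟨hup, hlo⟩ := card_trivial (α := Fin n) p
  simp only [Fintype.card_fin] at hup hlo
  set N := (univ.filter fun f : Fin p → Fin n × Fin n => FreeGroup.mk (altL p f) = 1).card
  set S' := ∑ f : Fin p → Fin n × Fin n, (T.tr (wordVal (rot θ W) (altL p f) : A)).re
  have hn' : (0 : ℝ) < n := by exact_mod_cast hn
  have hnp : (0 : ℝ) < (n : ℝ) ^ p := pow_pos hn' p
  have hupR : (N : ℝ) ≤ catalan p * (n : ℝ) ^ p := by exact_mod_cast hup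
  have hloR : (catalan p : ℝ) * n.descFactorial p ≤ N := by exact_mod_cast hlo
  have hd := descFactorial_ge n p
  obtain ⟨hs1, hs2⟩ := abs_le.1 hsum
  rw [mul_pow] at hs1 hs2
  rw [hval, inv_pow]
  constructor
  · rw [inv_mul_le_iff₀ hnp]
    nlinarith
  · rw [le_inv_mul_iff₀ hnp]
    have : (catalan p : ℝ) * ((n : ℝ) ^ p * (1 - (p : ℝ) ^ 2 / n)) ≤ N := by
      refine le_trans (mul_le_mul_of_nonneg_left ?_ (Nat.cast_nonneg _)) hloR
      rw [show (n : ℝ) ^ p * (1 - (p : ℝ) ^ 2 / n) = (n : ℝ) ^ p * ((n : ℝ) - p ^ 2) / n by
        field_simp, div_le_iff₀ hn']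
      linarith
    nlinarith

end Vale.Agent.P082
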