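import Vale.Agent.P082.Core.Spec

/-!
# Averaging over phases (P082, module P)

A sesquilinear form of two sums of words with different indices, averaged over roots of unity as
phases, only keeps pairs of words using the same indices with the same signs.
-/

noncomputable section

namespace Vale.Agent.P082

open scoped BigOperators ComplexConjugate
open Finset

universe u

namespace Phase

/-- The phase of one signed letter. -/
def letterPh {M : ℕ} (x : Fin M) (b : Bool) : ℂ := if b then ph x else conj (ph x)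

/-- The generating root of unity. -/
def om (M : ℕ) : ℂ := Complex.exp (2 * Real.pi * Complex.I / (M : ℂ))

/-- The factor by which a letter phase moves when its index is shifted. -/
def omS (M : ℕ) (b : Bool) : ℂ := if b then om M else conj (om M)

lemma ph_eq {M : ℕ} (x : Fin M) : ph x = om M ^ (x : ℕ) := by
  rw [ph, om, ← Complex.exp_nat_mul]; ring_nf

lemma om_prim {M : ℕ} (h : M ≠ 0) : IsPrimitiveRoot (om M) M := Complex.isPrimitiveRoot_exp M h

lemma norm_om {M : ℕ} (h : M ≠ 0) : ‖om M‖ = 1 := (om_prim h).norm'_eq_one h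

lemma conj_mul_self_of_norm {z : ℂ} (h : ‖z‖ = 1) : conj z * z = 1 := by
  rw [mul_comm, Complex.mul_conj']; simp [h]

lemma norm_letterPh {M : ℕ} [NeZero M] (x : Fin M) (b : Bool) : ‖letterPh x b‖ = 1 := by
  cases b <;> simp [letterPh, ph_eq, norm_om (NeZero.ne M)]

lemma norm_omS {M : ℕ} [NeZero M] (b : Bool) : ‖omS M b‖ = 1 := by
  cases b <;> simp [omS, norm_om (NeZero.ne M)]

lemma ph_add_one {M : ℕ} [NeZero M] (x : Fin M) : ph (x + 1) = ph x * om M := by
  have h1 := (om_prim (NeZero.ne M)).pow_eq_one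
  rw [ph_eq, ph_eq, ← pow_succ, Fin.val_add, Fin.val_one', Nat.add_mod_mod]
  exact (pow_eq_pow_mod _ h1).symm

lemma letterPh_add_one {M : ℕ} [NeZero M] (x : Fin M) (b : Bool) :
    letterPh (x + 1) b = letterPh x b * omS M b := by
  cases b <;> simp [letterPh, omS, ph_add_one]

lemma omS_ne_one {M : ℕ} (hM : 3 ≤ M) (b : Bool) : omS M b ≠ 1 := by
  have h := (om_prim (M := M) (by omega)).ne_one (by omega)
  cases b
  · intro hb
    apply h
    have := congrArg conj hb
    simpa [omS] using this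
  · simpa [omS] using h

lemma omS_ne {M : ℕ} (hM : 3 ≤ M) {b c : Bool} (hbc : b ≠ c) : omS M b ≠ omS M c := by
  have hne : om M ≠ conj (om M) := by
    intro h
    have h2 : om M ^ 2 = 1 := by
      rw [pow_two]
      nth_rewrite 1 [h]
      exact conj_mul_self_of_norm (norm_om (by omega))
    exact (om_prim (M := M) (by omega)).pow_ne_one_of_pos_of_lt (by omega) (by omega) h2
  cases b <;> cases c <;> simp_all [omS, eq_comm]

lemma phase_goodList {n M : ℕ} (θ : Fin n → Fin M) (s : List Bool) (ι : Fin s.length → Fin n) :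
    phase θ (goodList s ι) = ∏ j, letterPh (θ (ι j)) (s.get j) := by
  simp [phase, goodList, List.map_ofFn, List.prod_ofFn, letterPh]

/-- Two indexed patterns use the same indices with the same signs. -/
def Matched {n : ℕ} (s s' : List Bool) (ι : Fin s.length ↪ Fin n) (ι' : Fin s'.length ↪ Fin n) :
    Prop :=
  ∃ σ : Fin s.length ≃ Fin s'.length, (∀ j, s'.get (σ j) = s.get j) ∧ ∀ j, ι' (σ j) = ι j

/-- The average of the product of two phases. -/
def phCorr (M : ℕ) {n : ℕ} (s s' : List Bool) (ι : Fin s.length → Fin n)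
    (ι' : Fin s'.length → Fin n) : ℂ :=
  𝔼 θ : Fin n → Fin M, conj (phase θ (goodList s ι)) * phase θ (goodList s' ι')

lemma phCorr_matched {M n : ℕ} [NeZero M] {s s' : List Bool} {ι : Fin s.length ↪ Fin n}
    {ι' : Fin s'.length ↪ Fin n} (h : Matched s s' ι ι') : phCorr M s s' ι ι' = 1 := by
  obtain ⟨σ, hs, hι⟩ := h
  have hone : ∀ θ : Fin n → Fin M,
      conj (phase θ (goodList s ι)) * phase θ (goodList s' ι') = 1 := by
    intro θ
    rw [phase_goodList, phase_goodList, map_prod,
      ← Equiv.prod_comp σ (fun j => letterPh (θ (ι' j)) (s'.get j)), ← Finset.prod_mul_distrib]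
    refine Finset.prod_eq_one fun j _ => ?_
    rw [hs, hι]
    exact conj_mul_self_of_norm (norm_letterPh _ _)
  simp only [phCorr, hone]
  exact Fintype.expect_const _

/-- The factor of a shift at one index. -/
def shiftC (M : ℕ) {n : ℕ} (s : List Bool) (ι : Fin s.length → Fin n) (i : Fin n) : ℂ :=
  ∏ j, if ι j = i then omS M (s.get j) else 1

lemma phase_shift {M n : ℕ} [NeZero M] (θ : Fin n → Fin M) (i : Fin n) (s : List Bool)
    (ι : Fin s.length → Fin n) :
    phase (θ + Pi.single i 1) (goodList s ι) = phase θ (goodList s ι) * shiftC M s ι i := by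
  rw [phase_goodList, phase_goodList, shiftC, ← Finset.prod_mul_distrib]
  refine Finset.prod_congr rfl fun j _ => ?_
  by_cases h : ι j = i
  · simp [h, Pi.add_apply, letterPh_add_one]
  · simp [h, Pi.add_apply]

lemma phCorr_eq_zero_of_shift {M n : ℕ} [NeZero M] {s s' : List Bool}
    {ι : Fin s.length → Fin n} {ι' : Fin s'.length → Fin n} (i : Fin n)
    (h : shiftC M s ι i ≠ shiftC M s' ι' i) : phCorr M s s' ι ι' = 0 := by
  set c := conj (shiftC M s ι i) * shiftC M s' ι' i with hc
  have hn : ‖shiftC M s ι i‖ = 1 := by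
    rw [shiftC, norm_prod]
    refine Finset.prod_eq_one fun j _ => ?_
    split_ifs <;> simp [norm_omS]
  have hc1 : c ≠ 1 := by
    intro hc'
    apply h
    calc shiftC M s ι i = shiftC M s ι i * c := by rw [hc', mul_one]
      _ = shiftC M s' ι' i := by
        rw [hc, ← mul_assoc, mul_comm (shiftC M s ι i), conj_mul_self_of_norm hn, one_mul]
  have hE : phCorr M s s' ι ι' = phCorr M s s' ι ι' * c := by
    conv_lhs => rw [phCorr]
    rw [phCorr, Finset.expect_mul]
    refine (Fintype.expect_equiv (Equiv.addRight (Pi.single i (1 : Fin M))) _ _ fun θ => ?_).symm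
    simp only [Equiv.coe_addRight, phase_shift, map_mul, hc]
    ring
  have : phCorr M s s' ι ι' * (c - 1) = 0 := by rw [mul_sub, ← hE]; ring
  rcases mul_eq_zero.mp this with h0 | h0
  · exact h0
  · exact absurd (sub_eq_zero.mp h0) hc1

lemma shiftC_self {M n : ℕ} {s : List Bool} (ι : Fin s.length ↪ Fin n) (j : Fin s.length) :
    shiftC M s ι (ι j) = omS M (s.get j) := by
  rw [shiftC, Finset.prod_eq_single j]
  · simp
  · intro b _ hb; simp [ι.injective.ne hb]
  · simp

lemma phCorr_unmatched {M n : ℕ} {s s' : List Bool} {ι : Fin s.length ↪ Fin n}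
    {ι' : Fin s'.length ↪ Fin n} (hs : 2 * s.length < M) (hs' : 2 * s'.length < M)
    (h : ¬ Matched s s' ι ι') : phCorr M s s' ι ι' = 0 := by
  have : NeZero M := ⟨by omega⟩
  by_cases h1 : ∀ j, ∃ j', ι' j' = ι j ∧ s'.get j' = s.get j
  · by_cases h2 : ∀ j', ∃ j, ι j = ι' j' ∧ s.get j = s'.get j'
    · exfalso
      choose f hf hfs using h1
      have hbij : Function.Bijective f := by
        constructor
        · intro a b hab
          exact ι.injective ((hf a).symm.trans ((congrArg ι' hab).trans (hf b)))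
        · intro j'
          obtain ⟨j, hj, -⟩ := h2 j'
          exact ⟨j, ι'.injective ((hf j).trans hj)⟩
      exact h ⟨Equiv.ofBijective f hbij, hfs, hf⟩
    · push Not at h2
      obtain ⟨j', hj'⟩ := h2
      have hM3 : 3 ≤ M := by have := j'.isLt; omega
      apply phCorr_eq_zero_of_shift (ι' j')
      rw [shiftC_self ι' j']
      by_cases hex : ∃ j, ι j = ι' j'
      · obtain ⟨j, hj⟩ := hex
        rw [← hj, shiftC_self ι j]
        exact omS_ne hM3 (hj' j hj)
      · push Not at hex
        have : shiftC M s ι (ι' j') = 1 :=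
          Finset.prod_eq_one fun j _ => if_neg (hex j)
        rw [this]
        exact (omS_ne_one hM3 _).symm
  · push Not at h1
    obtain ⟨j, hj⟩ := h1
    have hM3 : 3 ≤ M := by have := j.isLt; omega
    apply phCorr_eq_zero_of_shift (ι j)
    rw [shiftC_self ι j]
    by_cases hex : ∃ j', ι' j' = ι j
    · obtain ⟨j', hj'⟩ := hex
      rw [← hj', shiftC_self ι' j']
      exact omS_ne hM3 (hj j' hj').symm
    · push Not at hex
      have : shiftC M s' ι' (ι j) = 1 :=
        Finset.prod_eq_one fun j' _ => if_neg (hex j')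
      rw [this]
      exact omS_ne_one hM3 _

lemma expect_embedding {β : Type} [Fintype β] [Nonempty β] {r n : ℕ} (ι : Fin r ↪ Fin n)
    (g : (Fin r → β) → ℂ) : (𝔼 b : Fin n → β, g (b ∘ ι)) = 𝔼 b : Fin r → β, g b := by
  classical
  let e : Fin r ⊕ {i // i ∉ Set.range ι} ≃ Fin n :=
    (Equiv.sumCongr (Equiv.ofInjective ι ι.injective) (Equiv.refl _)).trans
      (Equiv.Set.sumCompl (Set.range ι))
  let E : (Fin n → β) ≃ (Fin r → β) × ({i // i ∉ Set.range ι} → β) :=
    (e.arrowCongr (Equiv.refl β)).symm.trans (Equiv.sumArrowEquivProdArrow _ _ _)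
  have h1 : (𝔼 b : Fin n → β, g (b ∘ ι)) =
      𝔼 p : (Fin r → β) × ({i // i ∉ Set.range ι} → β), g p.1 :=
    Fintype.expect_equiv E _ _ fun b => rfl
  rw [h1, ← Finset.univ_product_univ, Finset.expect_product]
  simp

variable {A : Type u} [CStarAlgebra A]

/-- The averaged form of the two words of a pair. -/
def formAvg {β : Type} [Fintype β] (Wf : β → unitary A) (B : A →ₗ⋆[ℂ] A →ₗ[ℂ] ℂ) {n : ℕ}
    (s s' : List Bool) (ι : Fin s.length → Fin n) (ι' : Fin s'.length → Fin n) : ℂ :=
  𝔼 b : Fin n → β, B (wordVal (Wf ∘ b) (goodList s ι) : unitary A)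
    (wordVal (Wf ∘ b) (goodList s' ι') : unitary A)

lemma wordVal_comp {r' n : ℕ} (s : List Bool) (W : Fin n → unitary A) (f : Fin r' → Fin n)
    (g : Fin s.length → Fin r') :
    wordVal W (goodList s fun j => f (g j)) = wordVal (W ∘ f) (goodList s g) := by
  simp [wordVal, goodList, List.map_ofFn, Function.comp_def]

lemma formAvg_matched {β : Type} [Fintype β] [Nonempty β] (Wf : β → unitary A)
    (B : A →ₗ⋆[ℂ] A →ₗ[ℂ] ℂ) {n : ℕ} {s s' : List Bool} {ι : Fin s.length ↪ Fin n}
    {ι' : Fin s'.length ↪ Fin n} (σ : Fin s.length ≃ Fin s'.length)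
    (hσ : ∀ j, ι' (σ j) = ι j) :
    formAvg Wf B s s' ι ι' = 𝔼 b : Fin s'.length → β,
      B (wordVal (Wf ∘ b) (goodList s σ) : unitary A)
        (wordVal (Wf ∘ b) (goodList s' id) : unitary A) := by
  rw [← expect_embedding ι' (fun b => B (wordVal (Wf ∘ b) (goodList s σ) : unitary A)
        (wordVal (Wf ∘ b) (goodList s' id) : unitary A))]
  refine Finset.expect_congr rfl fun b _ => ?_
  have h1 : wordVal (Wf ∘ b) (goodList s ι) = wordVal (Wf ∘ (b ∘ ι')) (goodList s σ) := by
    rw [show (ι : Fin s.length → Fin n) = fun j => ι' (σ j) from funext fun j => (hσ j).symm]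
    exact wordVal_comp s _ _ _
  have h2 : wordVal (Wf ∘ b) (goodList s' ι') = wordVal (Wf ∘ (b ∘ ι')) (goodList s' id) :=
    wordVal_comp s' _ ι' id
  rw [h1, h2]

/-- The averaged form of two sums of words. -/
def termAvg {β : Type} [Fintype β] (Wf : β → unitary A) (B : A →ₗ⋆[ℂ] A →ₗ[ℂ] ℂ) (n M : ℕ)
    (s s' : List Bool) : ℂ :=
  𝔼 b : Fin n → β, 𝔼 θ : Fin n → Fin M, B (pGood θ (Wf ∘ b) s) (pGood θ (Wf ∘ b) s')

lemma termAvg_eq {β : Type} [Fintype β] (Wf : β → unitary A) (B : A →ₗ⋆[ℂ] A →ₗ[ℂ] ℂ) (n M : ℕ)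
    (s s' : List Bool) :
    termAvg Wf B n M s s' = ∑ ι' : Fin s'.length ↪ Fin n, ∑ ι : Fin s.length ↪ Fin n,
      ((Real.sqrt n)⁻¹ : ℂ) ^ s.length * ((Real.sqrt n)⁻¹ : ℂ) ^ s'.length
        * (phCorr M s s' ι ι' * formAvg Wf B s s' ι ι') := by
  simp only [phCorr, formAvg, Finset.expect_mul_expect]
  simp only [Finset.mul_expect]
  simp only [← Finset.expect_sum_comm]
  rw [termAvg, Finset.expect_comm]
  refine Finset.expect_congr rfl fun θ _ => Finset.expect_congr rfl fun b _ => ?_
  simp only [pGood, map_smulₛₗ, map_sum, LinearMap.smul_apply, LinearMap.sum_apply, map_pow,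
    map_inv₀, Complex.conj_ofReal, RingHom.id_apply, smul_eq_mul, Finset.mul_sum]
  exact Finset.sum_congr rfl fun ι' _ => Finset.sum_congr rfl fun ι _ => by ring

lemma scale_eq (n r : ℕ) :
    ((Real.sqrt n)⁻¹ : ℂ) ^ r * ((Real.sqrt n)⁻¹ : ℂ) ^ r = ((((n : ℝ) ^ r)⁻¹ : ℝ) : ℂ) := by
  rw [← mul_pow, ← mul_inv, ← Complex.ofReal_mul, Real.mul_self_sqrt n.cast_nonneg]
  simp [inv_pow]

lemma term_bound {β : Type} [Fintype β] [Nonempty β] (Wf : β → unitary A)
    (B : A →ₗ⋆[ℂ] A →ₗ[ℂ] ℂ) (n M R : ℕ) {s s' : List Bool} (hs : s.length ≤ R)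
    (hs' : s'.length ≤ R) (hM : 2 * R < M) (Val : List Bool → ℂ) {ε₁ ε₂ : ℝ} (hε₂ : 0 ≤ ε₂)
    (hdiag : ‖(𝔼 b : Fin s.length → β, B (wordVal (Wf ∘ b) (goodList s id) : unitary A)
          (wordVal (Wf ∘ b) (goodList s id) : unitary A)) - Val s‖ ≤ ε₁)
    (hoff : ∀ σ : Fin s.length ≃ Fin s'.length,
        (∀ j, s'.get (σ j) = s.get j) → (s ≠ s' ∨ ∃ j, (σ j : ℕ) ≠ (j : ℕ)) →
        ‖𝔼 b : Fin s'.length → β, B (wordVal (Wf ∘ b) (goodList s σ) : unitary A)
          (wordVal (Wf ∘ b) (goodList s' id) : unitary A)‖ ≤ ε₂) :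
    ‖termAvg Wf B n M s s'
        - (if s = s' then (((n.descFactorial s.length : ℝ) / (n : ℝ) ^ s.length : ℝ) : ℂ) * Val s
            else 0)‖ ≤
      (if s = s' then ε₁ else 0) + (R.factorial : ℝ) * ε₂ := by
  classical
  have : NeZero M := ⟨by omega⟩
  have key : ∀ (ι : Fin s.length ↪ Fin n) (ι' : Fin s'.length ↪ Fin n),
      phCorr M s s' ι ι' * formAvg Wf B s s' ι ι' =
        if Matched s s' ι ι' then formAvg Wf B s s' ι ι' else 0 := by
    intro ι ι'
    split_ifs with h
    · rw [phCorr_matched h, one_mul]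
    · rw [phCorr_unmatched (by omega) (by omega) h, zero_mul]
  rw [termAvg_eq]
  simp only [key]
  by_cases hlen : s.length = s'.length
  swap
  · have hne : s ≠ s' := fun h => hlen (congrArg List.length h)
    have h0 : ∀ (ι : Fin s.length ↪ Fin n) (ι' : Fin s'.length ↪ Fin n), ¬ Matched s s' ι ι' := by
      rintro ι ι' ⟨σ, -⟩
      exact hlen (by simpa using Fintype.card_congr σ)
    simp only [h0, if_false, mul_zero, Finset.sum_const_zero, if_neg hne, sub_zero, norm_zero,
      zero_add]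
    positivity
  -- the number of partners of one tuple
  have hcard : ∀ ι' : Fin s'.length ↪ Fin n,
      #(univ.filter fun ι : Fin s.length ↪ Fin n => Matched s s' ι ι') ≤ R.factorial := by
    intro ι'
    have hle : #(univ.filter fun ι : Fin s.length ↪ Fin n => Matched s s' ι ι') ≤
        Fintype.card (Fin s.length ≃ Fin s'.length) := by
      refine Finset.card_le_card_of_surjOn
        (fun σ => (σ.toEmbedding.trans ι')) ?_
      intro ι hι
      obtain ⟨σ, -, hσ⟩ := (Finset.mem_filter.mp hι).2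
      exact ⟨σ, Finset.mem_univ _, Function.Embedding.ext hσ⟩
    rw [Fintype.card_equiv (finCongr hlen), Fintype.card_fin] at hle
    exact hle.trans (Nat.factorial_le hs)
  set d : ℝ := (n.descFactorial s.length : ℝ) with hd
  have hN : (Fintype.card (Fin s'.length ↪ Fin n) : ℝ) = d := by
    simp [hd, Fintype.card_embedding_eq, hlen]
  have hd1 : d / (n : ℝ) ^ s.length ≤ 1 := by
    refine div_le_one_of_le₀ ?_ (by positivity)
    rw [hd]; exact_mod_cast Nat.descFactorial_le_pow n s.length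
  have hd0 : 0 ≤ d / (n : ℝ) ^ s.length := by positivity
  have hε₁ : 0 ≤ ε₁ := le_trans (norm_nonneg _) hdiag
  -- one tuple against its partners
  have inner : ∀ ι' : Fin s'.length ↪ Fin n,
      ‖(∑ ι : Fin s.length ↪ Fin n, if Matched s s' ι ι' then formAvg Wf B s s' ι ι' else 0)
          - (if s = s' then Val s else 0)‖ ≤
        (if s = s' then ε₁ else 0) + (R.factorial : ℝ) * ε₂ := by
    intro ι'
    have hoff' : ∀ ι : Fin s.length ↪ Fin n, Matched s s' ι ι' →
        (s ≠ s' ∨ ∃ j j' : ℕ, ∃ (hj : j < s.length) (hj' : j' < s'.length), j = j' ∧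
          ι ⟨j, hj⟩ ≠ ι' ⟨j', hj'⟩) →
        ‖formAvg Wf B s s' ι ι'‖ ≤ ε₂ := by
      rintro ι ⟨σ, hsg, hσ⟩ hcase
      rw [formAvg_matched Wf B σ hσ]
      refine hoff σ hsg ?_
      rcases hcase with h | ⟨j, j', hj, hj', rfl, hne⟩
      · exact Or.inl h
      · refine Or.inr ⟨⟨j, hj⟩, fun heq => hne ?_⟩
        have : σ ⟨j, hj⟩ = ⟨j, hj'⟩ := Fin.ext heq
        rw [← hσ ⟨j, hj⟩, this]
    rw [← Finset.sum_filter]
    by_cases hss : s = s'
    · subst hss
      rw [if_pos rfl, if_pos rfl]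
      have hmem : ι' ∈ univ.filter fun ι : Fin s.length ↪ Fin n => Matched s s ι ι' :=
        Finset.mem_filter.mpr ⟨Finset.mem_univ _, Equiv.refl _, fun _ => rfl, fun _ => rfl⟩
      rw [← Finset.add_sum_erase _ _ hmem, add_sub_right_comm]
      refine (norm_add_le _ _).trans (add_le_add ?_ ?_)
      · rw [formAvg_matched Wf B (Equiv.refl _) (fun _ => rfl)]
        simpa using hdiag
      · refine (norm_sum_le_of_le _ (n := fun _ => ε₂) fun ι hι => ?_).trans ?_
        · obtain ⟨hne, hm⟩ := Finset.mem_erase.mp hι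
          refine hoff' ι (Finset.mem_filter.mp hm).2 (Or.inr ?_)
          obtain ⟨j, hj⟩ := Function.ne_iff.mp (fun h => hne (DFunLike.coe_injective h))
          exact ⟨j, j, j.isLt, j.isLt, rfl, hj⟩
        · rw [Finset.sum_const, nsmul_eq_mul]
          refine mul_le_mul_of_nonneg_right ?_ hε₂
          exact_mod_cast (Finset.card_erase_le).trans (hcard ι')
    · rw [if_neg hss, if_neg hss, sub_zero, zero_add]
      refine (norm_sum_le_of_le _ (n := fun _ => ε₂) fun ι hι => ?_).trans ?_
      · exact hoff' ι (Finset.mem_filter.mp hι).2 (Or.inl hss)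
      · rw [Finset.sum_const, nsmul_eq_mul]
        exact mul_le_mul_of_nonneg_right (by exact_mod_cast hcard ι') hε₂
  have hrw : (if s = s' then ((d / (n : ℝ) ^ s.length : ℝ) : ℂ) * Val s else 0) =
      ∑ _ι' : Fin s'.length ↪ Fin n,
        ((((n : ℝ) ^ s.length)⁻¹ : ℝ) : ℂ) * (if s = s' then Val s else 0) := by
    rw [Finset.sum_const, nsmul_eq_mul, Finset.card_univ]
    split_ifs with h
    · rw [← Complex.ofReal_natCast, ← mul_assoc, ← Complex.ofReal_mul, hN, div_eq_mul_inv]
    · simp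
  simp only [← hlen, scale_eq n s.length]
  rw [hrw, ← Finset.sum_sub_distrib]
  simp only [← Finset.mul_sum, ← mul_sub]
  refine (norm_mul_le _ _).trans ?_
  refine le_trans (mul_le_mul_of_nonneg_left
    ((norm_sum_le_of_le _ fun ι' _ => inner ι')) (norm_nonneg _)) ?_
  rw [Finset.sum_const, nsmul_eq_mul, Finset.card_univ, hN, Complex.norm_real, Real.norm_eq_abs,
    abs_of_nonneg (by positivity), ← mul_assoc, ← div_eq_inv_mul]
  refine mul_le_of_le_one_left ?_ hd1
  have : 0 ≤ if s = s' then ε₁ else 0 := by split_ifs <;> simp [hε₁]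
  positivity

end Phase

open Phase in
/-- (P) phase averaging of a form over sums of words with different indices. -/
theorem pairOut {A : Type u} [CStarAlgebra A] : PairOut A := by
  intro β _ _ Wf n R M hM _hRn S hS a B Val ε₁ ε₂ hε₂ hdiag hoff
  classical
  have hexp : (𝔼 b : Fin n → β, 𝔼 θ : Fin n → Fin M,
      B (∑ s ∈ S, (a s : ℂ) • pGood θ (Wf ∘ b) s) (∑ s ∈ S, (a s : ℂ) • pGood θ (Wf ∘ b) s)) =
      ∑ s ∈ S, ∑ s' ∈ S, ((a s * a s' : ℝ) : ℂ) * termAvg Wf B n M s s' := by
    simp only [termAvg, Finset.mul_expect, ← Finset.expect_sum_comm]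
    refine Finset.expect_congr rfl fun b _ => Finset.expect_congr rfl fun θ _ => ?_
    simp only [map_sum, map_smulₛₗ, LinearMap.sum_apply, LinearMap.smul_apply, RingHom.id_apply,
      Complex.conj_ofReal, smul_eq_mul, Finset.mul_sum]
    rw [Finset.sum_comm]
    exact Finset.sum_congr rfl fun s _ => Finset.sum_congr rfl fun s' _ => by push_cast; ring
  rw [hexp, show (∑ s ∈ S, ((a s ^ 2 * (n.descFactorial s.length : ℝ) / (n : ℝ) ^ s.length : ℝ) : ℂ)
        * Val s) = ∑ s ∈ S, ∑ s' ∈ S, ((a s * a s' : ℝ) : ℂ) *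
      (if s = s' then (((n.descFactorial s.length : ℝ) / (n : ℝ) ^ s.length : ℝ) : ℂ) * Val s
        else 0) from ?_]
  swap
  · refine Finset.sum_congr rfl fun s hs => ?_
    simp only [mul_ite, mul_zero, Finset.sum_ite_eq, if_pos hs]
    push_cast
    ring
  simp only [← Finset.sum_sub_distrib, ← mul_sub]
  refine (norm_sum_le_of_le _ fun s hs => norm_sum_le_of_le _
    (n := fun s' => |a s| * |a s'| * ((if s = s' then ε₁ else 0) + (R.factorial : ℝ) * ε₂))
    fun s' hs' => ?_).trans (le_of_eq ?_)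
  · rw [norm_mul, Complex.norm_real, Real.norm_eq_abs, abs_mul]
    exact mul_le_mul_of_nonneg_left (term_bound Wf B n M R (hS s hs) (hS s' hs') hM Val hε₂
      (hdiag s hs) (hoff s hs s' hs')) (by positivity)
  · simp only [mul_add, Finset.sum_add_distrib, mul_ite, mul_zero, Finset.sum_ite_eq]
    congr 1
    · rw [Finset.sum_mul]
      exact Finset.sum_congr rfl fun s hs => by rw [if_pos hs, ← abs_mul, ← pow_two,
        abs_of_nonneg (sq_nonneg _)]
    · simp only [← Finset.sum_mul, ← Finset.mul_sum, ← Finset.sum_mul]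
      ring

end Vale.Agent.P082
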