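import Vale.Agent.P082.Core.Spec

/-!
# The polynomial approximating the inverse square root for the free Poisson law
-/

noncomputable section

namespace Vale.Agent.P082

open Real MeasureTheory intervalIntegral Polynomial
open scoped Real

/-- The sine moments. -/
private def sinMom (j : ℕ) : ℝ := ∫ θ in (0 : ℝ)..π, sin θ ^ (2 * j)

private lemma sinMom_succ (j : ℕ) :
    sinMom (j + 1) = (2 * (j : ℝ) + 1) / (2 * j + 2) * sinMom j := by
  rw [sinMom, sinMom, integral_sin_pow_even, integral_sin_pow_even, Finset.prod_range_succ]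
  ring

private lemma mom_recursion (j : ℕ) :
    (2 / π) * 4 ^ j * (sinMom j - sinMom (j + 1)) = (catalan j : ℝ) := by
  induction j with
  | zero =>
    rw [sinMom_succ, sinMom, integral_sin_pow_even]
    have := Real.pi_ne_zero
    simp only [Finset.range_zero, Finset.prod_empty, Nat.cast_zero, catalan_zero, Nat.cast_one]
    field_simp
    norm_num
  | succ j ih =>
    have h1 := congrArg (fun k : ℕ => (k : ℝ)) (succ_mul_catalan_eq_centralBinom j)
    have h2 := congrArg (fun k : ℕ => (k : ℝ)) (succ_mul_catalan_eq_centralBinom (j + 1))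
    have h3 := congrArg (fun k : ℕ => (k : ℝ)) (Nat.succ_mul_centralBinom_succ j)
    push_cast at h1 h2 h3
    have h4 : ((j : ℝ) + 2) * catalan (j + 1) = 2 * (2 * j + 1) * catalan j := by
      have hj : ((j : ℝ) + 1) ≠ 0 := by positivity
      apply mul_left_cancel₀ hj
      rw [show ((j : ℝ) + 2) = (j : ℝ) + 1 + 1 by ring, h2, h3, ← h1]
      ring
    have hc : (catalan (j + 1) : ℝ) = 2 * (2 * j + 1) / (j + 2) * catalan j := by
      field_simp
      linarith [h4]
    rw [hc, ← ih, sinMom_succ (j + 1), sinMom_succ j]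
    push_cast
    rw [pow_succ]
    field_simp
    ring

/-- The Catalan numbers are the moments of `4 sin² θ` for the density `cos² θ`. -/
private lemma catalan_eq_integral (j : ℕ) :
    (catalan j : ℝ) = (2 / π) * ∫ θ in (0 : ℝ)..π, (4 * sin θ ^ 2) ^ j * cos θ ^ 2 := by
  rw [← mom_recursion, sinMom, sinMom, mul_assoc]
  congr 1
  rw [← intervalIntegral.integral_sub (Continuous.intervalIntegrable (by fun_prop) _ _)
    (Continuous.intervalIntegrable (by fun_prop) _ _), ← intervalIntegral.integral_const_mul]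
  refine intervalIntegral.integral_congr fun θ _ => ?_
  have := sin_sq_add_cos_sq θ
  rw [mul_pow, ← pow_mul, show cos θ ^ 2 = 1 - sin θ ^ 2 by linarith,
    show 2 * (j + 1) = 2 * j + 2 by ring, pow_add]
  ring

/-- The Catalan functional as an integral. -/
theorem catL_eq_integral (P : Polynomial ℝ) :
    catL P = (2 / π) * ∫ θ in (0 : ℝ)..π, P.eval (4 * sin θ ^ 2) * cos θ ^ 2 := by
  rw [show (fun θ : ℝ => P.eval (4 * sin θ ^ 2) * cos θ ^ 2) = fun θ =>
      ∑ i ∈ Finset.range (P.natDegree + 1), P.coeff i * (4 * sin θ ^ 2) ^ i * cos θ ^ 2 from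
    funext fun θ => by rw [Polynomial.eval_eq_sum_range, Finset.sum_mul]]
  rw [intervalIntegral.integral_finsetSum
    (fun i _ => Continuous.intervalIntegrable (by fun_prop) _ _), Finset.mul_sum, catL]
  refine Finset.sum_congr rfl fun j _ => ?_
  rw [catalan_eq_integral, show (fun θ : ℝ => P.coeff j * (4 * sin θ ^ 2) ^ j * cos θ ^ 2)
      = fun θ => P.coeff j * ((4 * sin θ ^ 2) ^ j * cos θ ^ 2) by ext; ring,
    intervalIntegral.integral_const_mul]
  ring

/-- (C1) a polynomial `Q` with `x Q(x)²` close to `1` for the free Poisson law. -/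
theorem polyOut : PolyOut := by
  intro ε hε
  set a : ℝ := min 1 (ε / 16) with ha
  have ha0 : 0 < a := lt_min one_pos (by linarith)
  have ha1 : a ≤ 1 := min_le_left _ _
  have hae : a ≤ ε / 16 := min_le_right _ _
  have hapi : a ≤ π / 2 := le_trans ha1 (by linarith [Real.two_le_pi])
  set η : ℝ := 4 * sin a ^ 2 with hη
  have hsa : 0 < sin a := Real.sin_pos_of_pos_of_lt_pi ha0 (by linarith [Real.two_le_pi])
  have hη0 : 0 < η := by positivity
  set s : ℝ := min 1 (ε / 4) with hs
  have hs0 : 0 < s := lt_min one_pos (by linarith)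
  have hs1 : s ≤ 1 := min_le_left _ _
  have hse : s ≤ ε / 4 := min_le_right _ _
  set B : ℝ := (√η)⁻¹ with hB
  have hB0 : 0 < B := by positivity
  set f : ℝ → ℝ := fun x => (√(max x η))⁻¹ with hf
  have hfc : Continuous f :=
    Continuous.inv₀ (by fun_prop) fun x =>
      (Real.sqrt_pos.2 (lt_of_lt_of_le hη0 (le_max_right x η))).ne'
  set δ : ℝ := min 1 (s / (6 * (2 * B + 1))) with hδ
  have hδ0 : 0 < δ := lt_min one_pos (by positivity)
  obtain ⟨Q, hQ⟩ := exists_polynomial_near_of_continuousOn 0 6 f hfc.continuousOn δ hδ0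
  have key : ∀ x, 0 ≤ x → x ≤ 6 → |x * Q.eval x ^ 2 - min 1 (x / η)| ≤ s := by
    intro x hx0 hx6
    have hxf : x * f x ^ 2 = min 1 (x / η) := by
      simp only [hf, inv_pow, Real.sq_sqrt (le_trans hη0.le (le_max_right x η))]
      rcases le_total x η with h | h
      · rw [max_eq_right h, min_eq_right ((div_le_one hη0).2 h), div_eq_mul_inv]
      · rw [max_eq_left h, min_eq_left ((one_le_div hη0).2 h),
          mul_inv_cancel₀ (lt_of_lt_of_le hη0 h).ne']
    have hfB : |f x| ≤ B := by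
      rw [abs_of_nonneg (by positivity)]
      exact inv_anti₀ (Real.sqrt_pos.2 hη0) (Real.sqrt_le_sqrt (le_max_right x η))
    have hd := (hQ x ⟨hx0, hx6⟩).le
    have hδ1 : δ ≤ 1 := min_le_left _ _
    have h2 : |Q.eval x + f x| ≤ 2 * B + 1 := by
      calc |Q.eval x + f x| = |(Q.eval x - f x) + 2 * f x| := by ring_nf
        _ ≤ |Q.eval x - f x| + |2 * f x| := abs_add_le _ _
        _ ≤ 2 * B + 1 := by rw [abs_mul, abs_two]; linarith
    rw [← hxf, show x * Q.eval x ^ 2 - x * f x ^ 2
      = x * ((Q.eval x - f x) * (Q.eval x + f x)) by ring, abs_mul, abs_mul, abs_of_nonneg hx0]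
    calc x * (|Q.eval x - f x| * |Q.eval x + f x|) ≤ 6 * (δ * (2 * B + 1)) := by gcongr
      _ ≤ 6 * (s / (6 * (2 * B + 1)) * (2 * B + 1)) := by
          have : δ ≤ s / (6 * (2 * B + 1)) := min_le_right _ _
          gcongr
      _ = s := by field_simp
  refine ⟨Q, ?_, fun x hx0 hx6 => ?_⟩
  swap
  · have h := (abs_le.1 (key x hx0 hx6)).2
    linarith [min_le_left (1 : ℝ) (x / η)]
  rw [catL_eq_integral]
  have hint : ∀ b c : ℝ, IntervalIntegrable
      (fun θ => ((1 - Polynomial.X * Q ^ 2) ^ 2).eval (4 * sin θ ^ 2) * cos θ ^ 2) volume b c :=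
    fun b c => Continuous.intervalIntegrable (by fun_prop) _ _
  have hx : ∀ θ : ℝ, 0 ≤ 4 * sin θ ^ 2 ∧ 4 * sin θ ^ 2 ≤ 6 := fun θ =>
    ⟨by positivity, by linarith [sin_sq_le_one θ]⟩
  have hfour : ∀ θ : ℝ,
      ((1 - Polynomial.X * Q ^ 2) ^ 2).eval (4 * sin θ ^ 2) * cos θ ^ 2 ≤ 4 := by
    intro θ
    obtain ⟨h0, h6⟩ := hx θ
    have h := abs_le.1 (key _ h0 h6)
    have hm : min 1 (4 * sin θ ^ 2 / η) ≤ 1 := min_le_left _ _
    have hm0 : 0 ≤ min 1 (4 * sin θ ^ 2 / η) := le_min zero_le_one (by positivity)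
    simp only [eval_pow, eval_sub, eval_one, eval_mul, eval_X]
    calc (1 - 4 * sin θ ^ 2 * Q.eval (4 * sin θ ^ 2) ^ 2) ^ 2 * cos θ ^ 2
        ≤ (1 - 4 * sin θ ^ 2 * Q.eval (4 * sin θ ^ 2) ^ 2) ^ 2 * 1 := by
          gcongr; exact cos_sq_le_one θ
      _ ≤ 4 := by rw [mul_one]; nlinarith
  have hmid : ∀ θ ∈ Set.Icc a (π - a),
      ((1 - Polynomial.X * Q ^ 2) ^ 2).eval (4 * sin θ ^ 2) * cos θ ^ 2 ≤ s ^ 2 := by
    intro θ ⟨h1, h2⟩
    obtain ⟨h0, h6⟩ := hx θ
    have hsin : sin a ≤ sin θ := by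
      rcases le_total θ (π / 2) with h | h
      · exact Real.sin_le_sin_of_le_of_le_pi_div_two (by linarith) h h1
      · rw [← Real.sin_pi_sub θ]
        exact Real.sin_le_sin_of_le_of_le_pi_div_two (by linarith) (by linarith) (by linarith)
    have hge : η ≤ 4 * sin θ ^ 2 := by rw [hη]; gcongr
    have h := key _ h0 h6
    rw [min_eq_left ((one_le_div hη0).2 hge)] at h
    simp only [eval_pow, eval_sub, eval_one, eval_mul, eval_X]
    calc (1 - 4 * sin θ ^ 2 * Q.eval (4 * sin θ ^ 2) ^ 2) ^ 2 * cos θ ^ 2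
        ≤ (1 - 4 * sin θ ^ 2 * Q.eval (4 * sin θ ^ 2) ^ 2) ^ 2 * 1 := by
          gcongr; exact cos_sq_le_one θ
      _ ≤ s ^ 2 := by
          rw [mul_one, ← sq_abs, abs_sub_comm]
          gcongr
  rw [← integral_add_adjacent_intervals (hint 0 (π - a)) (hint (π - a) π),
    ← integral_add_adjacent_intervals (hint 0 a) (hint a (π - a))]
  have i1 := intervalIntegral.integral_mono_on ha0.le (hint 0 a) intervalIntegrable_const
    (fun θ _ => hfour θ)
  have i2 := intervalIntegral.integral_mono_on (by linarith) (hint a (π - a))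
    intervalIntegrable_const hmid
  have i3 := intervalIntegral.integral_mono_on (by linarith : π - a ≤ π) (hint (π - a) π)
    intervalIntegrable_const (fun θ _ => hfour θ)
  simp only [intervalIntegral.integral_const, smul_eq_mul] at i1 i2 i3
  have hpi := Real.pi_pos
  refine le_trans (mul_le_mul_of_nonneg_left (add_le_add (add_le_add i1 i2) i3) (by positivity)) ?_
  rw [div_mul_eq_mul_div, div_le_iff₀ hpi]
  have hs2 : s ^ 2 ≤ s := by nlinarith
  nlinarith [mul_le_mul_of_nonneg_left hs2 hpi.le, mul_nonneg (sq_nonneg s) ha0.le,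
    mul_le_mul_of_nonneg_left hse hpi.le, mul_le_mul_of_nonneg_left Real.two_le_pi hε.le]

end Vale.Agent.P082
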