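import Vale.Agent.P082.Core.Spec

/-!
# P082 (U), (U'): a unitary with the powers of the polynomial in the random sum

With `h = c⋆ c` and a cut `χ` supported on `[0, 6]`, the element `x₁ = c (χ Q) h` has norm at most
`2` and is close in the trace norm to an isometry; the difference to `c Q h` is as small as wanted
after the number of summands is known, by high moments.
-/

noncomputable section

namespace Vale.Agent.P082

open scoped InnerProductSpace BigOperators Topology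
open Finset Filter

universe u v

/-! ### Words -/

section Words

variable {A : Type u} [CStarAlgebra A]

lemma cWord_append (c : A) (s t : List Bool) : cWord c (s ++ t) = cWord c s * cWord c t := by
  simp [cWord]

lemma cWord_flipRev (c : A) (s : List Bool) : cWord c (flipRev s) = star (cWord c s) := by
  induction s with
  | nil => simp [flipRev, cWord]
  | cons a s ih =>
    have e : flipRev (a :: s) = flipRev s ++ [!a] := by simp [flipRev]
    rw [e, cWord_append, ih]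
    cases a <;> simp [cWord]

lemma Pat.append {s t : List Bool} (hs : Pat true s) (ht : Pat true t) : Pat true (s ++ t) := by
  refine ⟨?_, ?_, List.isChain_append.2 ⟨hs.2.2, ht.2.2, fun x hx y _ => Or.inl ?_⟩⟩
  · simp [List.head?_append, hs.1]
  · simp [List.getLast?_append, ht.2.1]
  · rw [hs.2.1] at hx
    exact (Option.mem_some_iff.1 hx).symm

lemma Pat.flipRev {s : List Bool} (hs : Pat true s) : Pat false (flipRev s) := by
  refine ⟨?_, ?_, ?_⟩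
  · simp [P082.flipRev, hs.2.1]
  · simp [P082.flipRev, hs.1]
  · simp only [P082.flipRev, List.isChain_reverse, List.isChain_map]
    exact hs.2.2.imp fun x y h => by cases x <;> cases y <;> simp_all

/-- The word of `c (c⋆ c) ^ j`. -/
def xWord : ℕ → List Bool
  | 0 => [true]
  | j + 1 => xWord j ++ [false, true]

lemma xWord_pat : ∀ j, Pat true (xWord j)
  | 0 => ⟨rfl, rfl, List.isChain_singleton _⟩
  | j + 1 => by
    obtain ⟨h1, h2, h3⟩ := xWord_pat j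
    refine ⟨?_, ?_, List.isChain_append.2 ⟨h3, by simp, fun x hx y hy => ?_⟩⟩
    · simp [xWord, List.head?_append, h1]
    · simp [xWord]
    · rw [h2] at hx
      exact Or.inl (Option.mem_some_iff.1 hx).symm

lemma cWord_xWord (c : A) (j : ℕ) : cWord c (xWord j) = c * (star c * c) ^ j := by
  induction j with
  | zero => simp [xWord, cWord]
  | succ j ih =>
    rw [xWord, cWord_append, ih, pow_succ, mul_assoc]
    simp [cWord]

/-- (U') the powers of the polynomial are combinations of words. -/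
theorem powOut : PowOut A := by
  intro Q k hk
  classical
  suffices h : ∃ (ι : Type) (_ : Fintype ι) (r : ι → ℝ) (w : ι → List Bool),
      (∀ i, Pat true (w i)) ∧ ∀ c : A, xPoly Q c ^ k = ∑ i, (r i : ℂ) • cWord c (w i) by
    obtain ⟨ι, _, r, w, hw, he⟩ := h
    set S : Finset (List Bool) := Finset.univ.image w with hS
    set b : List Bool → ℝ := fun s => ∑ i ∈ Finset.univ.filter fun i => w i = s, r i with hb
    have key : ∀ g : List Bool → A,
        ∑ i, (r i : ℂ) • g (w i) = ∑ s ∈ S, (b s : ℂ) • g s := by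
      intro g
      rw [← Finset.sum_fiberwise_of_maps_to (g := w) (t := S)
        (fun i _ => Finset.mem_image_of_mem w (Finset.mem_univ i))]
      refine Finset.sum_congr rfl fun s _ => ?_
      rw [hb, Complex.ofReal_sum, Finset.sum_smul]
      refine Finset.sum_congr rfl fun i hi => ?_
      rw [(Finset.mem_filter.1 hi).2]
    refine ⟨S, b, fun s hs => ?_, fun c => ⟨?_, ?_⟩⟩
    · obtain ⟨i, -, rfl⟩ := Finset.mem_image.1 hs
      exact ⟨hw i, (hw i).flipRev⟩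
    · rw [he c]
      exact key (cWord c)
    · rw [← star_pow, he c, star_sum]
      simp only [star_smul, Complex.star_def, Complex.conj_ofReal, ← cWord_flipRev]
      exact key fun s => cWord c (flipRev s)
  have one : ∀ c : A, xPoly Q c =
      ∑ j : Fin (Q.natDegree + 1), ((Q.coeff j : ℝ) : ℂ) • cWord c (xWord j) := by
    intro c
    rw [xPoly, Finset.mul_sum,
      ← Fin.sum_univ_eq_sum_range fun j => c * (((Q.coeff j : ℝ) : ℂ) • (star c * c) ^ j)]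
    exact Finset.sum_congr rfl fun j _ => by rw [mul_smul_comm, cWord_xWord]
  induction k, hk using Nat.le_induction with
  | base =>
    exact ⟨Fin (Q.natDegree + 1), inferInstance, fun j => Q.coeff j, fun j => xWord j,
      fun j => xWord_pat j, fun c => by rw [pow_one, one c]⟩
  | succ k _ ih =>
    obtain ⟨ι, _, r, w, hw, he⟩ := ih
    refine ⟨ι × Fin (Q.natDegree + 1), inferInstance, fun x => r x.1 * Q.coeff x.2,
      fun x => w x.1 ++ xWord x.2, fun x => (hw x.1).append (xWord_pat _), fun c => ?_⟩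
    rw [pow_succ, he c, one c, Fintype.sum_prod_type, Finset.sum_mul_sum]
    refine Finset.sum_congr rfl fun i _ => Finset.sum_congr rfl fun j _ => ?_
    rw [Complex.ofReal_mul, cWord_append, smul_mul_smul_comm]

end Words

/-! ### Trace vectors -/

variable {A : Type u} {V : Type v} [CStarAlgebra A] [NormedAddCommGroup V] [InnerProductSpace ℂ V]
variable (T : Tr A V)

include T in
lemma Tr.nontrivial : Nontrivial A := by
  refine ⟨⟨1, 0, fun h => ?_⟩⟩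
  have := T.norm_one
  rw [h, map_zero, norm_zero] at this
  norm_num at this

include T in
lemma Tr.norm_unitary (u : unitary A) : ‖(u : A)‖ = 1 :=
  have := T.nontrivial
  CStarRing.norm_coe_unitary u

lemma Tr.sq_norm (a : A) : (T.tr (star a * a)).re = ‖T.e a‖ ^ 2 := by
  rw [Tr.tr, ← T.inner_eq a a]
  exact inner_self_eq_norm_sq (𝕜 := ℂ) (T.e a)

lemma Tr.norm_star (a : A) : ‖T.e (star a)‖ = ‖T.e a‖ := by
  have h : ‖T.e (star a)‖ ^ 2 = ‖T.e a‖ ^ 2 := by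
    rw [← T.sq_norm, ← T.sq_norm, star_star, Tr.tr, Tr.tr, T.comm]
  exact (pow_left_inj₀ (norm_nonneg _) (norm_nonneg _) two_ne_zero).1 h

lemma Tr.re_sum {ι : Type*} (s : Finset ι) (r : ι → ℝ) (x : ι → A) :
    (T.tr (∑ i ∈ s, (r i : ℂ) • x i)).re = ∑ i ∈ s, r i * (T.tr (x i)).re := by
  simp [Tr.tr, map_sum, map_smul, inner_sum, inner_smul_right, Complex.re_sum]

lemma Tr.re_cfc_nonneg {h : A} (hh : IsSelfAdjoint h) {f : ℝ → ℝ} (hf : Continuous f)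
    (h0 : ∀ x ∈ spectrum ℝ h, 0 ≤ f x) : 0 ≤ (T.tr (cfc f h)).re := by
  have e : cfc f h = star (cfc (fun x => √(f x)) h) * cfc (fun x => √(f x)) h := by
    rw [(cfc_predicate (fun x => √(f x)) h : IsSelfAdjoint _).star_eq,
      ← cfc_mul (fun x => √(f x)) (fun x => √(f x)) h (by fun_prop) (by fun_prop)]
    exact cfc_congr fun x hx => (Real.mul_self_sqrt (h0 x hx)).symm
  rw [e, T.sq_norm]
  positivity

lemma Tr.re_cfc_mono {h : A} (hh : IsSelfAdjoint h) {f g : ℝ → ℝ} (hf : Continuous f)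
    (hg : Continuous g) (hle : ∀ x ∈ spectrum ℝ h, f x ≤ g x) :
    (T.tr (cfc f h)).re ≤ (T.tr (cfc g h)).re := by
  have := T.re_cfc_nonneg hh (f := fun x => g x - f x) (hg.sub hf)
    fun x hx => sub_nonneg.2 (hle x hx)
  rw [cfc_sub g f h hg.continuousOn hf.continuousOn] at this
  simpa [Tr.tr, map_sub, inner_sub_right] using this

lemma Tr.norm_pow_sub_le {a b : A} {R : ℝ} (hR : 1 ≤ R) (ha : ‖a‖ ≤ R) (hb : ‖b‖ ≤ R) :
    ∀ k : ℕ, ‖T.e (a ^ k - b ^ k)‖ ≤ k * R ^ k * ‖T.e (a - b)‖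
  | 0 => by simp
  | k + 1 => by
    have := T.nontrivial
    have e : a ^ (k + 1) - b ^ (k + 1) = a ^ k * (a - b) + (a ^ k - b ^ k) * b := by
      rw [pow_succ, pow_succ, mul_sub, sub_mul]; abel
    have hk : ‖a ^ k‖ ≤ R ^ (k + 1) := ((norm_pow_le a k).trans
      (pow_le_pow_left₀ (norm_nonneg _) ha k)).trans (pow_le_pow_right₀ hR k.le_succ)
    rw [e, map_add]
    refine (norm_add_le _ _).trans ?_
    refine (add_le_add (T.mul_le _ _) (T.mul_le' _ _)).trans ?_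
    have ih := Tr.norm_pow_sub_le hR ha hb k
    have h0 := norm_nonneg (T.e (a - b))
    calc ‖a ^ k‖ * ‖T.e (a - b)‖ + ‖T.e (a ^ k - b ^ k)‖ * ‖b‖
        ≤ R ^ (k + 1) * ‖T.e (a - b)‖ + k * R ^ k * ‖T.e (a - b)‖ * R := by
          refine add_le_add (mul_le_mul_of_nonneg_right hk h0)
            (mul_le_mul ih hb (norm_nonneg _) (by positivity))
      _ = _ := by push_cast; ring

lemma Tr.exists_modulus {q : ℕ} (F : Fin q → A →L[ℂ] A) (hF : ∀ i, T.Cont2 (F i)) {R ε : ℝ}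
    (hR : 0 < R) (hε : 0 < ε) :
    ∃ δ : ℝ, 0 < δ ∧ δ ≤ ε ∧ ∀ i a, ‖a‖ ≤ R → ‖T.e a‖ ≤ δ → ‖T.e (F i a)‖ ≤ ε := by
  have h : ∀ i, ∀ᶠ δ in 𝓝[>] (0 : ℝ), ∀ a, ‖a‖ ≤ R → ‖T.e a‖ ≤ δ → ‖T.e (F i a)‖ ≤ ε := by
    intro i
    obtain ⟨δ, hδ, h⟩ := hF i (ε / R) (div_pos hε hR)
    filter_upwards [Ioo_mem_nhdsGT (mul_pos hR hδ)] with δ' hδ' a ha hea
    have hs : ∀ x : A, ‖((R⁻¹ : ℝ) : ℂ) • x‖ = R⁻¹ * ‖x‖ := fun x => by
      rw [norm_smul, Complex.norm_real, Real.norm_eq_abs, abs_of_pos (inv_pos.2 hR)]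
    have hs' : ∀ x : V, ‖((R⁻¹ : ℝ) : ℂ) • x‖ = R⁻¹ * ‖x‖ := fun x => by
      rw [norm_smul, Complex.norm_real, Real.norm_eq_abs, abs_of_pos (inv_pos.2 hR)]
    have h1 := h (((R⁻¹ : ℝ) : ℂ) • a) (by rw [hs, inv_mul_le_one₀ hR]; exact ha) (by
      rw [map_smul, hs', inv_mul_le_iff₀ hR]; exact hea.trans hδ'.2.le)
    rw [map_smul, map_smul, hs', inv_mul_eq_div] at h1
    exact (div_le_div_iff_of_pos_right hR).1 h1
  obtain ⟨δ, h1, h2, h3⟩ :=
    (((eventually_all.2 h).and (Ioo_mem_nhdsGT hε)).and self_mem_nhdsWithin).exists.imp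
      fun δ hδ => And.intro hδ.1.1 (And.intro hδ.1.2 hδ.2)
  exact ⟨δ, h3, h2.2.le, h1⟩

lemma Tr.powers_close {q : ℕ} (F : Fin q → A →L[ℂ] A) {a b : A} {R δ ε : ℝ} {K : ℕ} (hR : 1 ≤ R)
    (ha : ‖a‖ ≤ R) (hb : ‖b‖ ≤ R) (hδε : δ ≤ ε) (hsmall : K * R ^ K * ‖T.e (a - b)‖ ≤ δ)
    (hF : ∀ i x, ‖x‖ ≤ 2 * R ^ K → ‖T.e x‖ ≤ δ → ‖T.e (F i x)‖ ≤ ε) {k : ℕ} (hk : k ≤ K) :
    ‖T.e (a ^ k - b ^ k)‖ ≤ ε ∧ ‖T.e (star a ^ k - star b ^ k)‖ ≤ ε ∧
      ∀ i (G h : unitary A), ‖T.e (F i ((G : A) * (a ^ k - b ^ k) * (h : A)))‖ ≤ ε ∧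
        ‖T.e (F i ((G : A) * (star a ^ k - star b ^ k) * (h : A)))‖ ≤ ε := by
  have := T.nontrivial
  have hRk : R ^ k ≤ R ^ K := pow_le_pow_right₀ hR hk
  have hop : ‖a ^ k - b ^ k‖ ≤ 2 * R ^ K := by
    refine (norm_sub_le _ _).trans ?_
    have h1 := ((norm_pow_le a k).trans (pow_le_pow_left₀ (norm_nonneg _) ha k)).trans hRk
    have h2 := ((norm_pow_le b k).trans (pow_le_pow_left₀ (norm_nonneg _) hb k)).trans hRk
    linarith
  have he : ‖T.e (a ^ k - b ^ k)‖ ≤ δ := by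
    refine (T.norm_pow_sub_le hR ha hb k).trans (le_trans ?_ hsmall)
    gcongr
  have hstar : star a ^ k - star b ^ k = star (a ^ k - b ^ k) := by rw [star_sub, star_pow, star_pow]
  have key : ∀ i (G h : unitary A) (x : A), ‖x‖ ≤ 2 * R ^ K → ‖T.e x‖ ≤ δ →
      ‖T.e (F i ((G : A) * x * (h : A)))‖ ≤ ε := fun i G h x hx hex => by
    refine hF i _ ?_ ?_
    · refine (norm_mul_le _ _).trans ?_
      rw [T.norm_unitary h, mul_one]
      exact (norm_mul_le _ _).trans (by rw [T.norm_unitary G, one_mul]; exact hx)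
    · refine (T.mul_le' _ _).trans ?_
      rw [T.norm_unitary h, mul_one]
      exact (T.mul_le _ _).trans (by rw [T.norm_unitary G, one_mul]; exact hex)
  refine ⟨he.trans hδε, by rw [hstar, T.norm_star]; exact he.trans hδε,
    fun i G h => ⟨key i G h _ hop he, ?_⟩⟩
  rw [hstar]
  exact key i G h _ (by rw [_root_.norm_star]; exact hop) (by rw [T.norm_star]; exact he)

/-! ### The random sum -/

lemma norm_ph {M : ℕ} (x : Fin M) : ‖ph x‖ = 1 := by
  rw [ph, show 2 * (Real.pi : ℂ) * Complex.I * ((x : ℕ) : ℂ) / (M : ℂ) =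
    ((2 * Real.pi * (x : ℕ) / M : ℝ) : ℂ) * Complex.I by push_cast; ring]
  exact Complex.norm_exp_ofReal_mul_I _

include T in
lemma Tr.norm_cSum_le {n M : ℕ} (θ : Fin n → Fin M) (W : Fin n → unitary A) :
    ‖cSum θ W‖ ≤ n := by
  rw [cSum, norm_smul]
  have h1 : ‖((Real.sqrt n : ℂ))⁻¹‖ ≤ 1 := by
    rw [norm_inv, Complex.norm_real, Real.norm_eq_abs, abs_of_nonneg (Real.sqrt_nonneg _)]
    rcases Nat.eq_zero_or_pos n with rfl | hn
    · simp
    · exact inv_le_one_of_one_le₀ (Real.one_le_sqrt.2 (by exact_mod_cast hn))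
  refine (mul_le_of_le_one_left (norm_nonneg _) h1).trans ((norm_sum_le _ _).trans ?_)
  simp [norm_smul, norm_ph, T.norm_unitary]

lemma Tr.OrthFam.mono {n : ℕ} {W : Fin n → unitary A} {D D' : ℕ} {δ : ℝ}
    (h : T.OrthFam W D δ) (hD : D' ≤ D) : T.OrthFam W D' δ :=
  fun l hl hlen hr => h l hl (hlen.trans hD) hr

lemma catalan_le_four_pow (p : ℕ) : (catalan p : ℝ) ≤ 4 ^ p := by
  have : catalan p ≤ 4 ^ p := by
    rw [catalan_eq_centralBinom_div]
    exact (Nat.div_le_self _ _).trans (Nat.centralBinom_le_four_pow p)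
  exact_mod_cast this

/-- The cut: one up to `5`, zero from `6` on. -/
def cutFun (t : ℝ) : ℝ := max 0 (min 1 (6 - t))

@[fun_prop] lemma cutFun_continuous : Continuous cutFun := by unfold cutFun; fun_prop

lemma cutFun_nonneg (t : ℝ) : 0 ≤ cutFun t := le_max_left _ _

lemma cutFun_le_one (t : ℝ) : cutFun t ≤ 1 := max_le zero_le_one (min_le_left _ _)

lemma cutFun_low {t : ℝ} (ht : t ≤ 5) : cutFun t = 1 := by
  rw [cutFun, min_eq_left (by linarith), max_eq_right zero_le_one]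

lemma cutFun_high {t : ℝ} (ht : 6 ≤ t) : cutFun t = 0 :=
  max_eq_left ((min_le_right _ _).trans (by linarith))

lemma le_two_of_mul_self {a : ℝ} (h : a * a ≤ 2) : a ≤ 2 := by nlinarith

lemma tail_le_pow {t : ℝ} (ht : 5 ≤ t) (p : ℕ) : 1 ≤ 5⁻¹ ^ p * t ^ p := by
  rw [← mul_pow]
  exact one_le_pow₀ (by linarith)

variable {Q : Polynomial ℝ} (hQ6 : ∀ x : ℝ, 0 ≤ x → x ≤ 6 → x * Q.eval x ^ 2 ≤ 2)
include hQ6

lemma cut_mem {t : ℝ} (ht : 0 ≤ t) :
    0 ≤ t * (Q.eval t * cutFun t) ^ 2 ∧ t * (Q.eval t * cutFun t) ^ 2 ≤ 2 := by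
  refine ⟨by positivity, ?_⟩
  rcases le_or_gt t 6 with h | h
  · calc t * (Q.eval t * cutFun t) ^ 2 = t * Q.eval t ^ 2 * cutFun t ^ 2 := by ring
      _ ≤ 2 * 1 := mul_le_mul (hQ6 t ht h) (pow_le_one₀ (cutFun_nonneg t) (cutFun_le_one t))
          (sq_nonneg _) zero_le_two
      _ = 2 := mul_one 2
  · simp [cutFun_high h.le]

omit hQ6

lemma conj_cfc {c : A} {f : ℝ → ℝ} (hf : Continuous f) :
    star (c * cfc f (star c * c)) * (c * cfc f (star c * c))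
      = cfc (fun t => t * f t ^ 2) (star c * c) := by
  set h := star c * c with hh
  have hs : IsSelfAdjoint h := IsSelfAdjoint.star_mul_self c
  have e : star (cfc f h) = cfc f h := (cfc_predicate f h : IsSelfAdjoint _).star_eq
  calc star (c * cfc f h) * (c * cfc f h) = cfc f h * h * cfc f h := by
        rw [star_mul, e]; simp only [hh, mul_assoc]
    _ = cfc f h * cfc (fun t => t) h * cfc f h := by rw [cfc_id' ℝ h]
    _ = cfc (fun t => t * f t ^ 2) h := by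
        rw [← cfc_mul f (fun t => t) h hf.continuousOn continuous_id.continuousOn,
          ← cfc_mul (fun t => f t * t) f h (hf.mul continuous_id).continuousOn hf.continuousOn]
        exact cfc_congr fun t _ => by ring

lemma xPoly_eq_cfc (c : A) (Q : Polynomial ℝ) :
    xPoly Q c = c * cfc Q.eval (star c * c) := by
  rw [cfc_polynomial Q (star c * c) (IsSelfAdjoint.star_mul_self c), xPoly,
    Polynomial.aeval_eq_sum_range]
  refine congrArg _ (Finset.sum_congr rfl fun j _ => ?_)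
  exact Complex.coe_smul _ _

lemma cfc_scaled_pow (h : A) (hh : IsSelfAdjoint h) (r : ℝ) (p : ℕ) :
    cfc (fun t : ℝ => r * t ^ p) h = ∑ i ∈ ({()} : Finset Unit), (r : ℂ) • h ^ p := by
  rw [Finset.sum_singleton, cfc_const_mul r (fun t => t ^ p) h, cfc_pow_id (R := ℝ) h p,
    Complex.coe_smul]

lemma Tr.re_cfc_scaled_pow {h : A} (hh : IsSelfAdjoint h) (r : ℝ) (p : ℕ) :
    (T.tr (cfc (fun t : ℝ => r * t ^ p) h)).re = r * (T.tr (h ^ p)).re := by
  rw [cfc_scaled_pow h hh, T.re_sum, Finset.sum_singleton]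

lemma Tr.re_cfc_eval {h : A} (hh : IsSelfAdjoint h) (P : Polynomial ℝ) :
    (T.tr (cfc P.eval h)).re
      = ∑ j ∈ Finset.range (P.natDegree + 1), P.coeff j * (T.tr (h ^ j)).re := by
  rw [cfc_polynomial P h hh, Polynomial.aeval_eq_sum_range, ← T.re_sum]
  simp only [Complex.coe_smul]

lemma norm_cut_le {c : A} {Q : Polynomial ℝ}
    (hQ6 : ∀ x : ℝ, 0 ≤ x → x ≤ 6 → x * Q.eval x ^ 2 ≤ 2) :
    ‖c * cfc (fun t => Q.eval t * cutFun t) (star c * c)‖ ≤ 2 := by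
  have hc : Continuous fun t => Q.eval t * cutFun t := Q.continuous.mul cutFun_continuous
  have h1 : ‖star (c * cfc (fun t => Q.eval t * cutFun t) (star c * c)) *
      (c * cfc (fun t => Q.eval t * cutFun t) (star c * c))‖ ≤ 2 := by
    rw [conj_cfc hc]
    refine norm_cfc_le zero_le_two fun t ht => ?_
    have := cut_mem hQ6 (spectrum_star_mul_self_nonneg t ht)
    rw [Real.norm_eq_abs, abs_of_nonneg this.1]
    exact this.2
  rw [CStarRing.norm_star_mul_self] at h1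
  exact le_two_of_mul_self h1

lemma iso_fun_le {Q : Polynomial ℝ} (hQ6 : ∀ x : ℝ, 0 ≤ x → x ≤ 6 → x * Q.eval x ^ 2 ≤ 2)
    {t : ℝ} (ht : 0 ≤ t) (p : ℕ) :
    (t * (Q.eval t * cutFun t) ^ 2 - 1) * (t * (Q.eval t * cutFun t) ^ 2 - 1) ≤
      ((1 - Polynomial.X * Q ^ 2) ^ 2).eval t + 5⁻¹ ^ p * t ^ p := by
  have hP : ((1 - Polynomial.X * Q ^ 2) ^ 2).eval t = (1 - t * Q.eval t ^ 2) ^ 2 := by simp
  have h0 : 0 ≤ (5 : ℝ)⁻¹ ^ p * t ^ p := by positivity
  rw [hP]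
  rcases le_or_gt t 5 with h5 | h5
  · rw [cutFun_low h5, mul_one]
    linarith [show (t * Q.eval t ^ 2 - 1) * (t * Q.eval t ^ 2 - 1)
      = (1 - t * Q.eval t ^ 2) ^ 2 by ring]
  · obtain ⟨h1, h2⟩ := cut_mem hQ6 ht
    set y := t * (Q.eval t * cutFun t) ^ 2
    have h3 : (y - 1) * (y - 1) ≤ 1 := by nlinarith
    linarith [tail_le_pow h5.le p, sq_nonneg (1 - t * Q.eval t ^ 2)]

lemma Tr.iso_le {c : A} {Q : Polynomial ℝ}
    (hQ6 : ∀ x : ℝ, 0 ≤ x → x ≤ 6 → x * Q.eval x ^ 2 ≤ 2) (p : ℕ) :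
    ‖T.e (star (c * cfc (fun t => Q.eval t * cutFun t) (star c * c)) *
        (c * cfc (fun t => Q.eval t * cutFun t) (star c * c)) - 1)‖ ^ 2 ≤
      (T.tr (cfc ((1 - Polynomial.X * Q ^ 2) ^ 2).eval (star c * c))).re
        + 5⁻¹ ^ p * (T.tr ((star c * c) ^ p)).re := by
  have hc : Continuous fun t => Q.eval t * cutFun t := Q.continuous.mul cutFun_continuous
  have hs : IsSelfAdjoint (star c * c) := IsSelfAdjoint.star_mul_self c
  have h0 := conj_cfc (c := c) hc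
  have hd : cfc (fun t => t * (Q.eval t * cutFun t) ^ 2) (star c * c) - 1 =
      cfc (fun t => t * (Q.eval t * cutFun t) ^ 2 - 1) (star c * c) := by
    rw [cfc_sub (fun t => t * (Q.eval t * cutFun t) ^ 2) (fun _ => 1) (star c * c) (by fun_prop)
      (by fun_prop), cfc_const_one ℝ (star c * c) hs]
  rw [h0, hd, ← T.sq_norm, (cfc_predicate _ (star c * c) : IsSelfAdjoint _).star_eq,
    ← cfc_mul (fun t => t * (Q.eval t * cutFun t) ^ 2 - 1)
      (fun t => t * (Q.eval t * cutFun t) ^ 2 - 1) (star c * c) (by fun_prop) (by fun_prop)]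
  refine (T.re_cfc_mono hs (g := fun t => ((1 - Polynomial.X * Q ^ 2) ^ 2).eval t + 5⁻¹ ^ p * t ^ p)
    (by fun_prop) (by fun_prop) fun t ht => iso_fun_le hQ6 (spectrum_star_mul_self_nonneg t ht) p).trans_eq ?_
  rw [← T.re_cfc_scaled_pow hs]
  refine (congrArg (fun x => (T.tr x).re) (cfc_add (R := ℝ) (a := star c * c)
    (f := fun t => ((1 - Polynomial.X * Q ^ 2) ^ 2).eval t) (g := fun t => 5⁻¹ ^ p * t ^ p)
    (by fun_prop) (by fun_prop))).trans ?_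
  simp [Tr.tr, map_add, inner_add_right]

lemma diff_fun_le {Q : Polynomial ℝ} {B t : ℝ} (ht : 0 ≤ t) (hB : 5 < t → t * Q.eval t ^ 2 ≤ B ^ 2)
    (p : ℕ) : t * (Q.eval t * cutFun t - Q.eval t) ^ 2 ≤ B ^ 2 * 5⁻¹ ^ p * t ^ p := by
  rcases le_or_gt t 5 with h5 | h5
  · rw [cutFun_low h5, mul_one, sub_self, zero_pow two_ne_zero, mul_zero]
    positivity
  · have h1 : (cutFun t - 1) ^ 2 ≤ 1 := by nlinarith [cutFun_nonneg t, cutFun_le_one t]
    calc t * (Q.eval t * cutFun t - Q.eval t) ^ 2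
          = t * Q.eval t ^ 2 * (cutFun t - 1) ^ 2 := by ring
      _ ≤ B ^ 2 * 1 := mul_le_mul (hB h5) h1 (sq_nonneg _) (sq_nonneg _)
      _ ≤ B ^ 2 * (5⁻¹ ^ p * t ^ p) :=
          mul_le_mul_of_nonneg_left (tail_le_pow h5.le p) (sq_nonneg _)
      _ = _ := by ring

lemma Tr.cut_diff_le {c : A} (Q : Polynomial ℝ) {B : ℝ}
    (hB : ∀ t ∈ spectrum ℝ (star c * c), t * Q.eval t ^ 2 ≤ B ^ 2) (p : ℕ) :
    ‖T.e (c * cfc (fun t => Q.eval t * cutFun t) (star c * c) - xPoly Q c)‖ ^ 2 ≤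
      B ^ 2 * 5⁻¹ ^ p * (T.tr ((star c * c) ^ p)).re := by
  have hc : Continuous fun t => Q.eval t * cutFun t := Q.continuous.mul cutFun_continuous
  have hs : IsSelfAdjoint (star c * c) := IsSelfAdjoint.star_mul_self c
  have hd : c * cfc (fun t => Q.eval t * cutFun t) (star c * c) - xPoly Q c =
      c * cfc (fun t => Q.eval t * cutFun t - Q.eval t) (star c * c) := by
    rw [xPoly_eq_cfc, cfc_sub (fun t => Q.eval t * cutFun t) Q.eval (star c * c) (by fun_prop)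
      (by fun_prop), mul_sub]
  have hd2 := conj_cfc (c := c) (f := fun t => Q.eval t * cutFun t - Q.eval t)
    (hc.sub Q.continuous)
  rw [hd, ← T.sq_norm, hd2, ← T.re_cfc_scaled_pow hs]
  exact T.re_cfc_mono hs (by fun_prop) (by fun_prop) fun t ht =>
    diff_fun_le (spectrum_star_mul_self_nonneg t ht) (fun _ => hB t ht) p

lemma Tr.tr_eval_le (P : Polynomial ℝ) {h : A} (hs : IsSelfAdjoint h) {n : ℝ}
    {δ : ℝ} (hn : 0 < n) (hδ : 0 ≤ δ)
    (hm : ∀ j ≤ P.natDegree, (T.tr (h ^ j)).re ≤ catalan j + n ^ j * δ ∧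
      (catalan j : ℝ) * (1 - (j : ℝ) ^ 2 / n) - n ^ j * δ ≤ (T.tr (h ^ j)).re) :
    (T.tr (cfc P.eval h)).re ≤ catL P
      + (∑ j ∈ Finset.range (P.natDegree + 1), |P.coeff j| * catalan j * (j : ℝ) ^ 2) / n
      + (∑ j ∈ Finset.range (P.natDegree + 1), |P.coeff j| * n ^ j) * δ := by
  rw [T.re_cfc_eval hs, catL, Finset.sum_div, Finset.sum_mul, ← Finset.sum_add_distrib,
    ← Finset.sum_add_distrib]
  refine Finset.sum_le_sum fun j hj => ?_
  obtain ⟨h1, h2⟩ := hm j (by have := Finset.mem_range.1 hj; omega)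
  have h0 : 0 ≤ (catalan j : ℝ) * (j : ℝ) ^ 2 / n := by positivity
  have hp : 0 ≤ n ^ j * δ := by positivity
  have e : (catalan j : ℝ) * (1 - (j : ℝ) ^ 2 / n)
      = catalan j - (catalan j : ℝ) * (j : ℝ) ^ 2 / n := by ring
  have habs : |(T.tr (h ^ j)).re - catalan j| ≤
      (catalan j : ℝ) * (j : ℝ) ^ 2 / n + n ^ j * δ := by
    rw [abs_le]; constructor <;> linarith
  have h3 : P.coeff j * ((T.tr (h ^ j)).re - catalan j) ≤
      |P.coeff j| * ((catalan j : ℝ) * (j : ℝ) ^ 2 / n + n ^ j * δ) :=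
    (le_abs_self _).trans (by rw [abs_mul]; exact mul_le_mul_of_nonneg_left habs (abs_nonneg _))
  calc P.coeff j * (T.tr (h ^ j)).re
      = P.coeff j * catalan j + P.coeff j * ((T.tr (h ^ j)).re - catalan j) := by ring
    _ ≤ P.coeff j * catalan j +
        |P.coeff j| * ((catalan j : ℝ) * (j : ℝ) ^ 2 / n + n ^ j * δ) := by linarith
    _ = _ := by ring

lemma four_fifths (p : ℕ) (hp : 0 ≤ (5 : ℝ)⁻¹ ^ p) :
    5⁻¹ ^ p * (catalan p : ℝ) ≤ (4 / 5) ^ p := by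
  rw [show (4 / 5 : ℝ) ^ p = 5⁻¹ ^ p * 4 ^ p by rw [← mul_pow]; norm_num]
  exact mul_le_mul_of_nonneg_left (catalan_le_four_pow p) hp

lemma norm_xPoly_le (c : A) (Q : Polynomial ℝ) {r : ℝ} (hr : 1 ≤ r) (hc : ‖c‖ ≤ r) :
    ‖xPoly Q c‖ ≤ r ^ 2 * ∑ j ∈ Finset.range (Q.natDegree + 1), |Q.coeff j| * (r ^ 2) ^ j := by
  rcases subsingleton_or_nontrivial A with h | h
  · rw [Subsingleton.elim (xPoly Q c) 0, norm_zero]; positivity
  have hh : ‖star c * c‖ ≤ r ^ 2 := by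
    rw [CStarRing.norm_star_mul_self, sq]
    exact mul_le_mul hc hc (norm_nonneg _) (by linarith)
  rw [xPoly]
  refine (norm_mul_le _ _).trans (mul_le_mul (hc.trans (le_self_pow₀ hr two_ne_zero)) ?_
    (norm_nonneg _) (sq_nonneg _))
  refine (norm_sum_le _ _).trans (Finset.sum_le_sum fun j _ => ?_)
  rw [norm_smul, Complex.norm_real, Real.norm_eq_abs]
  exact mul_le_mul_of_nonneg_left
    ((norm_pow_le _ j).trans (pow_le_pow_left₀ (norm_nonneg _) hh j)) (abs_nonneg _)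

lemma mul_eval_sq_le (c : A) (Q : Polynomial ℝ) {r : ℝ} (hr : 1 ≤ r) (hc : ‖c‖ ≤ r) {t : ℝ}
    (ht : t ∈ spectrum ℝ (star c * c)) : t * Q.eval t ^ 2 ≤
      (r ^ 2 * ∑ j ∈ Finset.range (Q.natDegree + 1), |Q.coeff j| * (r ^ 2) ^ j) ^ 2 := by
  have ht0 := spectrum_star_mul_self_nonneg t ht
  have : Nontrivial A := by
    by_contra hn
    rw [not_nontrivial_iff_subsingleton] at hn
    simp [spectrum.of_subsingleton] at ht
  have htn : t ≤ r ^ 2 := by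
    have h1 := spectrum.norm_le_norm_of_mem ht
    rw [Real.norm_eq_abs, CStarRing.norm_star_mul_self] at h1
    calc t ≤ |t| := le_abs_self t
      _ ≤ ‖c‖ * ‖c‖ := h1
      _ ≤ r * r := mul_le_mul hc hc (norm_nonneg _) (by linarith)
      _ = r ^ 2 := (sq r).symm
  have hq : |Q.eval t| ≤ ∑ j ∈ Finset.range (Q.natDegree + 1), |Q.coeff j| * (r ^ 2) ^ j := by
    rw [Polynomial.eval_eq_sum_range]
    refine (Finset.abs_sum_le_sum_abs _ _).trans (Finset.sum_le_sum fun j _ => ?_)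
    rw [abs_mul, abs_pow, abs_of_nonneg ht0]
    exact mul_le_mul_of_nonneg_left (pow_le_pow_left₀ ht0 htn j) (abs_nonneg _)
  rw [mul_pow]
  refine mul_le_mul (htn.trans (le_self_pow₀ (one_le_pow₀ hr) two_ne_zero)) ?_ (sq_nonneg _)
    (sq_nonneg _)
  rw [← sq_abs]
  exact pow_le_pow_left₀ (abs_nonneg _) hq 2

lemma Tr.powers_trans {q : ℕ} (F : Fin q → A →L[ℂ] A) {a b x : A} {ε : ℝ} {k : ℕ}
    (h₁ : ‖T.e (a ^ k - b ^ k)‖ ≤ ε / 2 ∧ ‖T.e (star a ^ k - star b ^ k)‖ ≤ ε / 2 ∧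
      ∀ i (G h : unitary A), ‖T.e (F i ((G : A) * (a ^ k - b ^ k) * (h : A)))‖ ≤ ε / 2 ∧
        ‖T.e (F i ((G : A) * (star a ^ k - star b ^ k) * (h : A)))‖ ≤ ε / 2)
    (h₂ : ‖T.e (b ^ k - x ^ k)‖ ≤ ε / 2 ∧ ‖T.e (star b ^ k - star x ^ k)‖ ≤ ε / 2 ∧
      ∀ i (G h : unitary A), ‖T.e (F i ((G : A) * (b ^ k - x ^ k) * (h : A)))‖ ≤ ε / 2 ∧
        ‖T.e (F i ((G : A) * (star b ^ k - star x ^ k) * (h : A)))‖ ≤ ε / 2) :
    ‖T.e (a ^ k - x ^ k)‖ ≤ ε ∧ ‖T.e (star a ^ k - star x ^ k)‖ ≤ ε ∧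
      ∀ i (G h : unitary A), ‖T.e (F i ((G : A) * (a ^ k - x ^ k) * (h : A)))‖ ≤ ε ∧
        ‖T.e (F i ((G : A) * (star a ^ k - star x ^ k) * (h : A)))‖ ≤ ε := by
  obtain ⟨a1, a2, a3⟩ := h₁
  obtain ⟨b1, b2, b3⟩ := h₂
  refine ⟨?_, ?_, fun i G h => ⟨?_, ?_⟩⟩
  · rw [← sub_add_sub_cancel (a ^ k) (b ^ k), map_add]
    linarith [norm_add_le (T.e (a ^ k - b ^ k)) (T.e (b ^ k - x ^ k))]
  · rw [← sub_add_sub_cancel (star a ^ k) (star b ^ k), map_add]
    linarith [norm_add_le (T.e (star a ^ k - star b ^ k)) (T.e (star b ^ k - star x ^ k))]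
  · rw [← sub_add_sub_cancel (a ^ k) (b ^ k), mul_add, add_mul, map_add, map_add]
    refine (norm_add_le _ _).trans ?_
    linarith [(a3 i G h).1, (b3 i G h).1]
  · rw [← sub_add_sub_cancel (star a ^ k) (star b ^ k), mul_add, add_mul, map_add, map_add]
    refine (norm_add_le _ _).trans ?_
    linarith [(a3 i G h).2, (b3 i G h).2]

/-- (U) a unitary with the powers of the polynomial in the random sum. -/
theorem replaceOut (hQ : PolyOut) (hM : T.MomentsOut) (hP : T.HasPolar) : T.ReplaceOut := by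
  intro q F hF K ε hε
  have := T.nontrivial
  obtain ⟨δ₁, hδ₁, hδ₁ε, hF₁⟩ :=
    T.exists_modulus F hF (R := 2 * 2 ^ K) (by positivity) (half_pos hε)
  set η₀ : ℝ := δ₁ / (K * 2 ^ K + 1) with hη₀
  have hη₀pos : 0 < η₀ := by positivity
  obtain ⟨Q, hQc, hQ6⟩ := hQ (η₀ ^ 2 / 4) (by positivity)
  obtain ⟨p₀, hp₀⟩ := exists_pow_lt_of_lt_one (show (0 : ℝ) < η₀ ^ 2 / 4 by positivity)
    (show (4 / 5 : ℝ) < 1 by norm_num)
  obtain ⟨P, hPdef⟩ : ∃ P : Polynomial ℝ, P = (1 - Polynomial.X * Q ^ 2) ^ 2 := ⟨_, rfl⟩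
  rw [← hPdef] at hQc
  set S₁ : ℝ := ∑ j ∈ Finset.range (P.natDegree + 1), |P.coeff j| * catalan j * (j : ℝ) ^ 2 with hS₁
  obtain ⟨n₀, hn₀⟩ := exists_nat_ge (S₁ / (η₀ ^ 2 / 4) + 1)
  refine ⟨Q, n₀, fun n hn => ?_⟩
  have hn1 : (1 : ℝ) ≤ n := by
    refine le_trans ?_ (hn₀.trans (by exact_mod_cast hn))
    have : 0 ≤ S₁ / (η₀ ^ 2 / 4) :=
      div_nonneg (Finset.sum_nonneg fun j _ => by positivity) (by positivity)
    linarith
  have hnpos : 0 < n := by exact_mod_cast lt_of_lt_of_le zero_lt_one hn1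
  have hS₁n : S₁ / n ≤ η₀ ^ 2 / 4 := by
    rw [div_le_iff₀ (by linarith), mul_comm, ← div_le_iff₀ (by positivity)]
    have := hn₀.trans (show (n₀ : ℝ) ≤ n by exact_mod_cast hn)
    linarith
  set Sq : ℝ := ∑ j ∈ Finset.range (Q.natDegree + 1), |Q.coeff j| * ((n : ℝ) ^ 2) ^ j with hSq
  have hSq0 : 0 ≤ Sq := Finset.sum_nonneg fun j _ => by positivity
  set B : ℝ := 2 + (n : ℝ) ^ 2 * Sq with hB
  have hB2 : 2 ≤ B := by have : 0 ≤ (n : ℝ) ^ 2 * Sq := (by positivity); rw [hB]; linarith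
  obtain ⟨δ₂, hδ₂, hδ₂ε, hF₂⟩ :=
    T.exists_modulus F hF (R := 2 * B ^ K) (by positivity) (half_pos hε)
  set η₁ : ℝ := δ₂ / (K * B ^ K + 1) with hη₁
  have hη₁pos : 0 < η₁ := by
    have : (0 : ℝ) ≤ B := by linarith
    positivity
  obtain ⟨p, hp⟩ := exists_pow_lt_of_lt_one
    (show (0 : ℝ) < η₁ ^ 2 / 2 / B ^ 2 by positivity) (show (4 / 5 : ℝ) < 1 by norm_num)
  set E₀ : ℝ := ∑ j ∈ Finset.range (P.natDegree + 1), |P.coeff j| * (n : ℝ) ^ j
    + 5⁻¹ ^ p₀ * (n : ℝ) ^ p₀ with hE₀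
  have hE₀0 : 0 ≤ E₀ := by
    have : 0 ≤ ∑ j ∈ Finset.range (P.natDegree + 1), |P.coeff j| * (n : ℝ) ^ j :=
      Finset.sum_nonneg fun j _ => by positivity
    positivity
  set E₁ : ℝ := B ^ 2 * (5⁻¹ ^ p * (n : ℝ) ^ p) with hE₁
  set δ₀ : ℝ := min (η₀ ^ 2 / 4 / (E₀ + 1)) (η₁ ^ 2 / 2 / (E₁ + 1)) with hδ₀def
  have hδ₀ : 0 < δ₀ := lt_min (by positivity) (by positivity)
  have hE₀δ : E₀ * δ₀ ≤ η₀ ^ 2 / 4 := by
    calc E₀ * δ₀ ≤ (E₀ + 1) * (η₀ ^ 2 / 4 / (E₀ + 1)) :=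
          mul_le_mul (by linarith) (min_le_left _ _) hδ₀.le (by linarith)
      _ = _ := mul_div_cancel₀ _ (by linarith)
  have hE₁δ : E₁ * δ₀ ≤ η₁ ^ 2 / 2 := by
    have : 0 ≤ E₁ := by positivity
    calc E₁ * δ₀ ≤ (E₁ + 1) * (η₁ ^ 2 / 2 / (E₁ + 1)) :=
          mul_le_mul (by linarith) (min_le_right _ _) hδ₀.le (by linarith)
      _ = _ := mul_div_cancel₀ _ (by linarith)
  refine ⟨2 * (p + p₀ + P.natDegree), δ₀, hδ₀, fun M θ W hW => ?_⟩
  clear_value η₀ S₁ Sq B η₁ E₀ E₁ δ₀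
  obtain ⟨c, hc⟩ : ∃ c : A, c = cSum θ W := ⟨_, rfl⟩
  obtain ⟨h, hh⟩ : ∃ h : A, h = star c * c := ⟨_, rfl⟩
  rw [← hc]
  have hs : IsSelfAdjoint h := hh ▸ IsSelfAdjoint.star_mul_self c
  have hspec0 : ∀ t ∈ spectrum ℝ h, 0 ≤ t := hh ▸ spectrum_star_mul_self_nonneg
  have hcn : ‖c‖ ≤ n := hc ▸ T.norm_cSum_le θ W
  have hmom : ∀ j, j ≤ p + p₀ + P.natDegree → (T.tr (h ^ j)).re ≤ catalan j + (n : ℝ) ^ j * δ₀ ∧
      (catalan j : ℝ) * (1 - (j : ℝ) ^ 2 / n) - (n : ℝ) ^ j * δ₀ ≤ (T.tr (h ^ j)).re :=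
    fun j hj => by rw [hh, hc]; exact hM j n M θ W δ₀ hnpos (Tr.OrthFam.mono T hW (by omega)) hδ₀.le
  obtain ⟨x₁, hx₁⟩ : ∃ x₁ : A, x₁ = c * cfc (fun t => Q.eval t * cutFun t) h := ⟨_, rfl⟩
  have hx₁n : ‖x₁‖ ≤ 2 := by rw [hx₁, hh]; exact norm_cut_le hQ6
  have hiso : ‖T.e (star x₁ * x₁ - 1)‖ ≤ η₀ := by
    refine le_of_pow_le_pow_left₀ two_ne_zero hη₀pos.le ?_
    have h1 := T.iso_le (c := c) hQ6 p₀
    rw [← hh, ← hx₁] at h1
    have h2 := T.tr_eval_le P hs (n := (n : ℝ)) (δ := δ₀) (by linarith) hδ₀.le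
      fun j hj => hmom j (by omega)
    rw [← hS₁] at h2
    rw [← hPdef] at h1
    have h3 := mul_le_mul_of_nonneg_left (hmom p₀ (by omega)).1
      (show (0 : ℝ) ≤ 5⁻¹ ^ p₀ by positivity)
    have h4 := four_fifths p₀ (by positivity)
    have h5 : E₀ * δ₀ = (∑ j ∈ Finset.range (P.natDegree + 1), |P.coeff j| * (n : ℝ) ^ j) * δ₀
        + 5⁻¹ ^ p₀ * ((n : ℝ) ^ p₀ * δ₀) := by rw [hE₀]; ring
    rw [mul_add] at h3
    linarith [hp₀.le]
  obtain ⟨u, hu⟩ := hP x₁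
  refine ⟨u, fun k hk => ?_⟩
  have hkK : k ≤ K := (Finset.mem_Icc.1 hk).2
  have hu1 : ‖(u : A)‖ ≤ 2 := by rw [T.norm_unitary]; norm_num
  have hsmall₁ : K * (2 : ℝ) ^ K * ‖T.e ((u : A) - x₁)‖ ≤ δ₁ := by
    rw [show (u : A) - x₁ = -(x₁ - u) by abel, map_neg, norm_neg]
    calc K * (2 : ℝ) ^ K * ‖T.e (x₁ - u)‖ ≤ (K * 2 ^ K + 1) * η₀ :=
          mul_le_mul (by linarith) (hu.trans hiso) (norm_nonneg _) (by positivity)
      _ = δ₁ := by rw [hη₀]; exact mul_div_cancel₀ _ (by positivity)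
  have hxn : ‖xPoly Q c‖ ≤ B := by
    have := norm_xPoly_le c Q hn1 hcn
    rw [← hSq] at this
    linarith
  have hdiff : ‖T.e (x₁ - xPoly Q c)‖ ≤ η₁ := by
    refine le_of_pow_le_pow_left₀ two_ne_zero hη₁pos.le ?_
    have hBt : ∀ t ∈ spectrum ℝ (star c * c), t * Q.eval t ^ 2 ≤ B ^ 2 := fun t ht => by
      refine (mul_eval_sq_le c Q hn1 hcn ht).trans ?_
      rw [← hSq]
      exact pow_le_pow_left₀ (mul_nonneg (sq_nonneg _) hSq0) (by linarith) 2
    have h1 := T.cut_diff_le Q hBt p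
    rw [← hh, ← hx₁] at h1
    have h2 := mul_le_mul_of_nonneg_left (hmom p (by omega)).1
      (show (0 : ℝ) ≤ B ^ 2 * 5⁻¹ ^ p by positivity)
    have h3 := mul_le_mul_of_nonneg_left (four_fifths p (by positivity)) (sq_nonneg B)
    have h4 : B ^ 2 * (4 / 5) ^ p ≤ η₁ ^ 2 / 2 := by
      have := (lt_div_iff₀ (by positivity)).1 hp
      linarith
    have h5 : B ^ 2 * 5⁻¹ ^ p * ((n : ℝ) ^ p * δ₀) = E₁ * δ₀ := by rw [hE₁]; ring
    rw [mul_add] at h2
    linarith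
  have hsmall₂ : K * B ^ K * ‖T.e (x₁ - xPoly Q c)‖ ≤ δ₂ := by
    have : (0 : ℝ) ≤ B := by linarith
    calc K * B ^ K * ‖T.e (x₁ - xPoly Q c)‖ ≤ (K * B ^ K + 1) * η₁ :=
          mul_le_mul (by linarith) hdiff (norm_nonneg _) (by positivity)
      _ = δ₂ := by rw [hη₁]; exact mul_div_cancel₀ _ (by positivity)
  exact T.powers_trans F
    (T.powers_close F (by norm_num) hu1 hx₁n hδ₁ε hsmall₁ hF₁ hkK)
    (T.powers_close F (by linarith) (hx₁n.trans hB2) hxn hδ₂ε hsmall₂ hF₂ hkK)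

end Vale.Agent.P082
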