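import Vale.Agent.P082.Core.Frame

/-!
# Interfaces between the modules of the averaging theorem

Each `...Out` (and `HasFree`, `HasPolar`, `WeakLim`) is to be proved by one module; none is
assumed by the final theorem. See `Vale/Agent/P082/PROOF.md` and `Vale/Agent/P082/SPEC.md`.
-/

noncomputable section

namespace Vale.Agent.P082

open scoped InnerProductSpace BigOperators
open Finset

universe u v

variable {A : Type u} {V : Type v} [CStarAlgebra A] [NormedAddCommGroup V] [InnerProductSpace ℂ V]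

/-- (G1) atoms, free over the centre from the given unitaries. -/
def Tr.HasFree (T : Tr A V) : Prop :=
  ∀ (p : ℕ) (U : Fin p → unitary A) (N D : ℕ) (δ : ℝ), 0 < δ →
    ∃ v : Fin N → unitary A, T.Good U v D δ

/-- (G2) near isometries are near unitaries. -/
def Tr.HasPolar (T : Tr A V) : Prop :=
  ∀ x : A, ∃ u : unitary A, ‖T.e (x - u)‖ ≤ ‖T.e (star x * x - 1)‖

/-- (G3) bounded families have weak limits along ultrafilters. -/
def Tr.WeakLim (T : Tr A V) : Prop :=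
  ∀ (ι : Type u) (l : Ultrafilter ι) (a : ι → A) (R : ℝ), (∀ i, ‖a i‖ ≤ R) →
    ∃ b : A, ‖b‖ ≤ R ∧
      ∀ y, Filter.Tendsto (fun i => T.tr (y * a i)) (l : Filter ι) (nhds (T.tr (y * b)))

/-- (L) the scalar lemma. -/
def Tr.ScalarOut (T : Tr A V) : Prop :=
  ∀ (F : A →L[ℂ] A) (z : A) (G h u : unitary A) (K : ℕ),
    ‖∑ k ∈ Finset.Icc 1 K, ((k : ℂ)⁻¹) * (T.phiU F z (G * u ^ k * h)
        - T.phiU F z (G * star u ^ k * h))‖ ≤ 100 * ‖F‖ * ‖z‖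

/-- (W) harmonicity of the walk averages and a good scale. -/
def WalkOut : Prop :=
  ∀ (G : Type u) [Group G] (Ω : Type) [Fintype Ω] [Nonempty Ω] (a : Ω → G) (ι : Type) [Fintype ι]
    (φ : ι → G → ℂ) (g : ι → G) (C : ℝ), (∀ i x, ‖φ i x‖ ≤ C) → ∀ n : ℕ, 0 < n →
    (∀ i x (m : ℕ), ‖(𝔼 w : Fin m → Ω, walkH a (φ i) n (pathProd a (List.ofFn w) * x))
        - walkH a (φ i) n x‖ ≤ 2 * C * m / n) ∧
    ∀ R S m₀ : ℕ, 0 < R → 0 < S → ∃ s < S, ∀ i (L : ℕ),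
      m₀ * R ^ s ≤ L → L ≤ R * (m₀ * R ^ s) →
      (𝔼 w : Fin L → Ω, ‖walkH a (φ i) n (pathProd a (List.ofFn w) * g i)
          - walkH a (φ i) n (pathProd a ((List.ofFn w).take (m₀ * R ^ s)) * g i)‖) ≤
        Real.sqrt (Fintype.card ι * C ^ 2 / S
          + 12 * Fintype.card ι * C ^ 2 * (m₀ * R ^ S : ℕ) / n)

/-- (B1) a family of blocks with different indices is a family of free Haar unitaries, and the
exceptional families are few. -/
def Tr.InjOut (T : Tr A V) : Prop :=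
  ∀ (p : ℕ) (U : Fin p → unitary A) (N : ℕ) (v : Fin N → unitary A) (m n D D' : ℕ) (δ : ℝ)
    (t t' : Ty p), 0 < m → 0 < N → T.Good U v D δ → 2 * m * D' ≤ D →
    (∀ b : Fin n → Blk p N m, BlkInj b → T.OrthFam (fun i => blockU U v t t' (b i)) D' δ) ∧
    ∀ f : (Fin n → Blk p N m) → ℝ, (∀ b, BlkInj b → f b = 0) → (∀ b, |f b| ≤ 1) →
      (𝔼 b, f b) ≤ ((n * (2 * m) : ℕ) : ℝ) ^ 2 / N

/-- (B2) two different orders of the same blocks are nearly orthogonal for every form. -/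
def Tr.CrossOut (T : Tr A V) : Prop :=
  ∀ (p : ℕ) (U : Fin p → unitary A) (N : ℕ) (v : Fin N → unitary A) (m D : ℕ) (δ : ℝ)
    (t t' : Ty p), 0 < m → 0 < N → T.Good U v D δ →
    ∀ (r : ℕ) (sg sg' : Fin r → Bool) (σ : Equiv.Perm (Fin r)), σ ≠ 1 →
      (∀ j, sg' (σ j) = sg j) → 4 * r * m ≤ D →
      ∀ (F : A →L[ℂ] A) (z : A) (G h : unitary A),
        ‖𝔼 b : Fin r → Blk p N m, T.phi2 F z
            (G * wordVal (fun i => blockU U v t t' (b i)) (List.ofFn fun j => (σ j, sg j)) * h :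
              unitary A)
            (G * wordVal (fun i => blockU U v t t' (b i)) (List.ofFn fun j => (j, sg' j)) * h :
              unitary A)‖ ≤
          ‖F‖ * ‖z‖ * (((2 * (p + 1) : ℕ) : ℝ) ^ (2 * r)
              * (Real.sqrt (8 * r / m) + Real.sqrt δ)
            + 2 * ((r * (2 * m) : ℕ) : ℝ) ^ 2 / N)

/-- (B3) the diagonal only sees the type of the first letter. -/
def Tr.DiagOut (_T : Tr A V) : Prop :=
  ∀ (p : ℕ) (U : Fin p → unitary A) (N : ℕ) (v : Fin N → unitary A) (m : ℕ) (t t' : Ty p),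
    0 < m → 0 < N →
    ∀ (φ : unitary A → ℂ) (C : ℝ), (∀ x, ‖φ x‖ ≤ C) → ∀ (n : ℕ), 0 < n →
    ∀ (g : unitary A) (r : ℕ) (η : ℝ),
      (∀ L : ℕ, m ≤ L → L ≤ 2 * r * m → (𝔼 w : Fin L → Atom p N,
          ‖walkH (atom U v) φ n (pathProd (atom U v) (List.ofFn w) * g)
            - walkH (atom U v) φ n (pathProd (atom U v) ((List.ofFn w).take m) * g)‖) ≤ η) →
      ∀ (sg : Fin r → Bool) (hr : 0 < r),
        ‖(𝔼 b : Fin r → Blk p N m, walkH (atom U v) φ n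
            (wordVal (fun i => blockU U v t t' (b i)) (List.ofFn fun j => (j, sg j)) * g))
          - 𝔼 j : Fin N, walkH (atom U v) φ n
              (atom U v (if sg ⟨r - 1, by omega⟩ then t else t', j) * g)‖ ≤
          ((2 * (p + 1) : ℕ) : ℝ) ^ (2 * r) * η + 2 * C * m / n

/-- (P) phase averaging of a form over sums of words with different indices. -/
def PairOut (A : Type u) [CStarAlgebra A] : Prop :=
  ∀ (β : Type) [Fintype β] [Nonempty β] (Wf : β → unitary A) (n R M : ℕ), 2 * R < M → R ≤ n →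
    ∀ (S : Finset (List Bool)), (∀ s ∈ S, s.length ≤ R) →
    ∀ (a : List Bool → ℝ) (B : A →ₗ⋆[ℂ] A →ₗ[ℂ] ℂ) (Val : List Bool → ℂ) (ε₁ ε₂ : ℝ),
      0 ≤ ε₂ →
      (∀ s ∈ S, ‖(𝔼 b : Fin s.length → β, B (wordVal (Wf ∘ b) (goodList s id) : unitary A)
          (wordVal (Wf ∘ b) (goodList s id) : unitary A)) - Val s‖ ≤ ε₁) →
      (∀ s ∈ S, ∀ s' ∈ S, ∀ σ : Fin s.length ≃ Fin s'.length,
        (∀ j, s'.get (σ j) = s.get j) → (s ≠ s' ∨ ∃ j, (σ j : ℕ) ≠ (j : ℕ)) →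
        ‖𝔼 b : Fin s'.length → β, B (wordVal (Wf ∘ b) (goodList s σ) : unitary A)
          (wordVal (Wf ∘ b) (goodList s' id) : unitary A)‖ ≤ ε₂) →
      ‖(𝔼 b : Fin n → β, 𝔼 θ : Fin n → Fin M,
          B (∑ s ∈ S, (a s : ℂ) • pGood θ (Wf ∘ b) s) (∑ s ∈ S, (a s : ℂ) • pGood θ (Wf ∘ b) s))
        - ∑ s ∈ S, ((a s ^ 2 * (n.descFactorial s.length : ℝ) / (n : ℝ) ^ s.length : ℝ) : ℂ)
            * Val s‖ ≤
        (∑ s ∈ S, a s ^ 2) * ε₁ + (R.factorial : ℝ) * (∑ s ∈ S, |a s|) ^ 2 * ε₂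

/-- (E) a word in `c` and `star c` is nearly a combination of words with different indices. -/
def Tr.ExpandOut (T : Tr A V) : Prop :=
  ∃ (coef : ℕ → List Bool → List Bool → ℝ) (Bd : List Bool → ℝ),
    (∀ n s s', coef n s s' ≠ 0 → s'.length ≤ s.length ∧ ∀ b, Pat b s → Pat b s') ∧
    (∀ n s s', |coef n s s'| ≤ Bd s) ∧
    ∀ (s : List Bool) (M : ℕ), 2 * s.length < M → ∀ F : A →L[ℂ] A, T.Cont2 F →
      ∀ ε : ℝ, 0 < ε → ∃ n₀ : ℕ, ∀ n, n₀ ≤ n → ∃ δ₀ : ℝ, 0 < δ₀ ∧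
        ∀ W : Fin n → unitary A, T.OrthFam W (2 * s.length) δ₀ →
          (𝔼 θ : Fin n → Fin M, ‖T.e (cWord (cSum θ W) s
              - ∑ s' ∈ patsLE s.length, (coef n s s' : ℂ) • pGood θ W s')‖ ^ 2) ≤ ε ∧
          ∀ G h : unitary A,
            (𝔼 θ : Fin n → Fin M, ‖T.e (F ((G : A) * (cWord (cSum θ W) s
              - ∑ s' ∈ patsLE s.length, (coef n s s' : ℂ) • pGood θ W s') * (h : A)))‖ ^ 2) ≤ ε

/-- (C1) the polynomial. -/
def PolyOut : Prop :=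
  ∀ ε : ℝ, 0 < ε → ∃ Q : Polynomial ℝ,
    catL ((1 - Polynomial.X * Q ^ 2) ^ 2) ≤ ε ∧
    ∀ x : ℝ, 0 ≤ x → x ≤ 6 → x * Q.eval x ^ 2 ≤ 2

/-- (C2) the moments of the square of the random sum. -/
def Tr.MomentsOut (T : Tr A V) : Prop :=
  ∀ (p n M : ℕ) (θ : Fin n → Fin M) (W : Fin n → unitary A) (δ : ℝ), 0 < n →
    T.OrthFam W (2 * p) δ → 0 ≤ δ →
    (T.tr ((star (cSum θ W) * cSum θ W) ^ p)).re ≤ catalan p + (n : ℝ) ^ p * δ ∧
    (catalan p : ℝ) * (1 - (p : ℝ) ^ 2 / n) - (n : ℝ) ^ p * δ ≤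
      (T.tr ((star (cSum θ W) * cSum θ W) ^ p)).re

/-- (U) a unitary with the same powers as the polynomial in `c`, also after any of the maps. -/
def Tr.ReplaceOut (T : Tr A V) : Prop :=
  ∀ (q : ℕ) (F : Fin q → A →L[ℂ] A), (∀ i, T.Cont2 (F i)) → ∀ (K : ℕ) (ε : ℝ), 0 < ε →
    ∃ (Q : Polynomial ℝ) (n₀ : ℕ), ∀ n, n₀ ≤ n → ∃ (D : ℕ) (δ₀ : ℝ), 0 < δ₀ ∧
      ∀ (M : ℕ) (θ : Fin n → Fin M) (W : Fin n → unitary A), T.OrthFam W D δ₀ →
        ∃ u : unitary A, ∀ k ∈ Finset.Icc 1 K,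
          ‖T.e ((u : A) ^ k - xPoly Q (cSum θ W) ^ k)‖ ≤ ε ∧
          ‖T.e (star (u : A) ^ k - star (xPoly Q (cSum θ W)) ^ k)‖ ≤ ε ∧
          ∀ i (G h : unitary A),
            ‖T.e (F i ((G : A) * ((u : A) ^ k - xPoly Q (cSum θ W) ^ k) * (h : A)))‖ ≤ ε ∧
            ‖T.e (F i ((G : A) * (star (u : A) ^ k - star (xPoly Q (cSum θ W)) ^ k) * (h : A)))‖
              ≤ ε

/-- (U') powers of the polynomial in `c` as combinations of words. -/
def PowOut (A : Type u) [CStarAlgebra A] : Prop :=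
  ∀ (Q : Polynomial ℝ) (k : ℕ), 0 < k → ∃ (S : Finset (List Bool)) (b : List Bool → ℝ),
    (∀ s ∈ S, Pat true s ∧ Pat false (flipRev s)) ∧
    ∀ c : A, xPoly Q c ^ k = ∑ s ∈ S, (b s : ℂ) • cWord c s ∧
      star (xPoly Q c) ^ k = ∑ s ∈ S, (b s : ℂ) • cWord c (flipRev s)

/-- The averaging theorem: one finitely supported probability for finitely many unitaries and
finitely many continuous maps. -/
def Tr.MeanOut (T : Tr A V) : Prop :=
  ∀ (p : ℕ) (U : Fin p → unitary A) (q : ℕ) (F : Fin q → A →L[ℂ] A) (z : Fin q → A),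
    (∀ i, T.Cont2 (F i)) → ∀ ε : ℝ, 0 < ε →
    ∃ (J : ℕ) (X : Fin J → unitary A), 0 < J ∧ ∀ i k,
      ‖(𝔼 j, T.phiU (F i) (z i) (X j * U k)) - 𝔼 j, T.phiU (F i) (z i) (X j)‖ ≤ ε

/-- (N) the net of cut-offs that extracts the normal part of every bounded map. -/
def Tr.NormalOut (T : Tr A V) : Prop :=
  ∃ (ι : Type u) (l : Ultrafilter ι) (E : ι → A), (∀ i, ‖E i‖ ≤ 1) ∧
    Filter.Tendsto (fun i => ‖T.e (E i - 1)‖) (l : Filter ι) (nhds 0) ∧
    ∀ F : A →L[ℂ] A, ∃ Φ : A →L[ℂ] A, T.Cont2 Φ ∧ ∀ b y,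
      Filter.Tendsto (fun i => T.tr (y * F (E i * b))) (l : Filter ι) (nhds (T.tr (y * Φ b)))

/-- (K) the local solution on a piece `A` of an algebra `B`, `π` the compression and `j` the
inclusion. -/
def Tr.LocalOut (_T : Tr A V) : Prop :=
  ∀ (B : Type u) [CStarAlgebra B] (π : B →L[ℂ] A) (j : A →L[ℂ] B),
    (∀ x y, π (x * y) = π x * π y) → π 1 = 1 → (∀ x, ‖π x‖ ≤ ‖x‖) → (∀ x, ‖j x‖ ≤ ‖x‖) →
    (∀ x, π (j x) = x) → (∀ x y, j x * y = j (x * π y)) →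
    ∀ (k : ℕ) (f : Cochain B (k + 1)), (∀ a, dHoch f a = 0) →
      ∃ h : ContinuousMultilinearMap ℂ (fun _ : Fin k => B) A, ‖h‖ ≤ (k + 5) * ‖f‖ ∧
        ∀ a, π (f a) = dPi π h a

end Vale.Agent.P082
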