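import Vale.Agent.P104.Fejer
import Vale.Agent.P082.Core.Spec

/-!
# P082, scalar lemma: positive and negative powers of a unitary

A form `Φ` which is bounded by the squared trace norm in its first place at `star S * S` and by the
operator norm in its second place has nearly the same value, in the logarithmic mean, at the
positive and at the negative powers of a unitary.
-/

namespace Vale.Agent.P082.Scalar

open Finset ComplexConjugate
open Vale.Agent.P104.Fejer (orth sum_norm_sq)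


lemma norm_geom_le {z : ℂ} (hz : ‖z‖ = 1) (hz1 : z ≠ 1) (a b : ℕ) :
    ‖∑ k ∈ Ico a b, z ^ k‖ ≤ 2 / ‖z - 1‖ := by
  rcases le_or_gt b a with h | h
  · rw [Ico_eq_empty (not_lt.2 h), sum_empty, norm_zero]; positivity
  rw [geom_sum_Ico hz1 h.le, norm_div]
  gcongr
  refine (norm_sub_le _ _).trans ?_
  rw [norm_pow, norm_pow, hz, one_pow, one_pow]; norm_num

lemma norm_tail_le {z : ℂ} (hz : ‖z‖ = 1) (hz1 : z ≠ 1) {a : ℕ} (ha : 0 < a) (b : ℕ) :
    ‖∑ k ∈ Ico a b, (k : ℂ)⁻¹ * z ^ k‖ ≤ 2 / ‖z - 1‖ * (a : ℝ)⁻¹ := by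
  set B := 2 / ‖z - 1‖ with hB
  have hB0 : 0 ≤ B := by positivity
  have key : ∀ b, a ≤ b → ‖(∑ k ∈ Ico a b, (k : ℂ)⁻¹ * z ^ k) -
      (b : ℂ)⁻¹ * ∑ k ∈ Ico a b, z ^ k‖ ≤ B * ((a : ℝ)⁻¹ - (b : ℝ)⁻¹) := by
    intro b hb
    induction b, hb using Nat.le_induction with
    | base => simp
    | succ b hb ih =>
      have hb0 : 0 < b := lt_of_lt_of_le ha hb
      rw [sum_Ico_succ_top hb, sum_Ico_succ_top hb]
      have e : (∑ k ∈ Ico a b, (k : ℂ)⁻¹ * z ^ k) + (b : ℂ)⁻¹ * z ^ b -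
          ((b + 1 : ℕ) : ℂ)⁻¹ * ((∑ k ∈ Ico a b, z ^ k) + z ^ b) =
          ((∑ k ∈ Ico a b, (k : ℂ)⁻¹ * z ^ k) - (b : ℂ)⁻¹ * ∑ k ∈ Ico a b, z ^ k) +
          (((b : ℝ)⁻¹ - ((b + 1 : ℕ) : ℝ)⁻¹ : ℝ) : ℂ) * ∑ k ∈ Ico a (b + 1), z ^ k := by
        rw [sum_Ico_succ_top hb]; push_cast; ring
      rw [e]
      have hc : 0 ≤ (b : ℝ)⁻¹ - ((b + 1 : ℕ) : ℝ)⁻¹ := by
        rw [sub_nonneg]
        exact inv_anti₀ (by exact_mod_cast hb0) (by exact_mod_cast Nat.le_succ b)
      refine (norm_add_le _ _).trans ?_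
      rw [norm_mul, Complex.norm_real, Real.norm_of_nonneg hc]
      have h2 := mul_le_mul_of_nonneg_left (norm_geom_le hz hz1 a (b + 1)) hc
      nlinarith [ih, h2]
  rcases le_or_gt b a with h | h
  · rw [Ico_eq_empty (not_lt.2 h), sum_empty, norm_zero]; positivity
  have h1 := key b h.le
  have h2 : ‖(b : ℂ)⁻¹ * ∑ k ∈ Ico a b, z ^ k‖ ≤ (b : ℝ)⁻¹ * B := by
    rw [norm_mul, norm_inv, Complex.norm_natCast]
    exact mul_le_mul_of_nonneg_left (norm_geom_le hz hz1 a b) (by positivity)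
  have h3 := norm_le_norm_sub_add (∑ k ∈ Ico a b, (k : ℂ)⁻¹ * z ^ k)
    ((b : ℂ)⁻¹ * ∑ k ∈ Ico a b, z ^ k)
  nlinarith [h1, h2, h3]

/-- The truncated sawtooth series is bounded on the circle. -/
theorem norm_saw_le {z : ℂ} (hz : ‖z‖ = 1) (K : ℕ) :
    ‖∑ k ∈ Icc 1 K, (k : ℂ)⁻¹ * (z ^ k - star z ^ k)‖ ≤ 10 := by
  rcases eq_or_ne z 1 with h | h
  · subst h; simp
  set d := ‖z - 1‖ with hd
  have hd0 : 0 < d := norm_pos_iff.2 (sub_ne_zero.2 h)
  set a := ⌊1 / d⌋₊ + 1 with ha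
  have ha1 : (a : ℝ) * d ≤ 3 := by
    have h1 := Nat.floor_le (one_div_pos.2 hd0).le
    have h2 : d ≤ 2 := by
      refine (norm_sub_le _ _).trans ?_
      rw [hz, norm_one]; norm_num
    rw [ha]; push_cast
    have := mul_le_mul_of_nonneg_right h1 hd0.le
    rw [one_div_mul_cancel hd0.ne'] at this
    linarith
  have ha2 : 1 ≤ (a : ℝ) * d := by
    have h1 := (Nat.lt_floor_add_one (1 / d)).le
    have := mul_le_mul_of_nonneg_right h1 hd0.le
    rw [one_div_mul_cancel hd0.ne'] at this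
    rw [ha]; push_cast; exact this
  have hsz : ‖star z‖ = 1 := by rw [norm_star, hz]
  have hpow : ∀ k : ℕ, ‖z ^ k - 1‖ ≤ k * d := by
    intro k
    induction k with
    | zero => simp
    | succ k ih =>
      have e : z ^ (k + 1) - 1 = z * (z ^ k - 1) + (z - 1) := by ring
      rw [e]; refine (norm_add_le _ _).trans ?_
      rw [norm_mul, hz, one_mul]; push_cast; linarith
  have hds : ‖star z - 1‖ = d := by
    rw [hd, ← norm_star (z - 1), star_sub, star_one]
  have head : ∀ k ∈ Ico 1 a, ‖(k : ℂ)⁻¹ * (z ^ k - star z ^ k)‖ ≤ 2 * d := by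
    intro k hk
    have hk0 : (0 : ℝ) < k := by exact_mod_cast (Finset.mem_Ico.1 hk).1
    have h2 : ‖star z ^ k - 1‖ = ‖z ^ k - 1‖ := by
      rw [← norm_star (z ^ k - 1), star_sub, star_one, star_pow]
    have h3 := norm_sub_le_norm_sub_add_norm_sub (z ^ k) 1 (star z ^ k)
    rw [norm_sub_rev 1 (star z ^ k), h2] at h3
    rw [norm_mul, norm_inv, Complex.norm_natCast, inv_mul_le_iff₀ hk0]
    nlinarith [hpow k, h3]
  have headsum : ∀ m ≤ a, ‖∑ k ∈ Ico 1 m, (k : ℂ)⁻¹ * (z ^ k - star z ^ k)‖ ≤ 6 := by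
    intro m hm
    refine (norm_sum_le_of_le _ fun k hk => head k
      (Finset.mem_Ico.2 ⟨(Finset.mem_Ico.1 hk).1, lt_of_lt_of_le (Finset.mem_Ico.1 hk).2 hm⟩)).trans ?_
    rw [sum_const, Nat.card_Ico, nsmul_eq_mul]
    have : ((m - 1 : ℕ) : ℝ) ≤ a := by exact_mod_cast (Nat.sub_le m 1).trans hm
    nlinarith
  rw [← Finset.Ico_add_one_right_eq_Icc]
  rcases le_or_gt (K + 1) a with hK | hK
  · linarith [headsum _ hK]
  rw [← sum_Ico_consecutive _ (by omega : 1 ≤ a) hK.le]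
  refine (norm_add_le _ _).trans ?_
  have ht : ‖∑ k ∈ Ico a (K + 1), (k : ℂ)⁻¹ * (z ^ k - star z ^ k)‖ ≤ 4 := by
    simp only [mul_sub]
    rw [sum_sub_distrib]
    refine (norm_sub_le _ _).trans ?_
    have h1 := norm_tail_le hz h (a := a) (by omega) (K + 1)
    have h2 := norm_tail_le hsz (fun e => h (by simpa using congrArg star e)) (a := a) (by omega) (K + 1)
    rw [hds] at h2
    have h3 : 2 / d * (a : ℝ)⁻¹ ≤ 2 := by
      rw [div_mul_eq_mul_div, div_le_iff₀ hd0, mul_inv_le_iff₀ (by positivity)]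
      nlinarith
    linarith
  linarith [headsum a le_rfl]

section Operator

variable {A : Type*} [CStarAlgebra A]

theorem norm_saw_unitary_le (u : unitary A) (K : ℕ) :
    ‖∑ k ∈ Icc 1 K, (k : ℂ)⁻¹ • ((u : A) ^ k - star (u : A) ^ k)‖ ≤ 10 := by
  have hN : IsStarNormal (u : A) := inferInstance
  have e : ∑ k ∈ Icc 1 K, (k : ℂ)⁻¹ • ((u : A) ^ k - star (u : A) ^ k) =
      cfc (fun z : ℂ => ∑ k ∈ Icc 1 K, (k : ℂ)⁻¹ * (z ^ k - star z ^ k)) (u : A) := by
    rw [show (fun z : ℂ => ∑ k ∈ Icc 1 K, (k : ℂ)⁻¹ * (z ^ k - star z ^ k)) =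
      ∑ k ∈ Icc 1 K, fun z : ℂ => (k : ℂ)⁻¹ * (z ^ k - star z ^ k) from
        funext fun z => by rw [Finset.sum_apply]]
    rw [cfc_sum _ _ _ (fun i _ => by fun_prop)]
    refine sum_congr rfl fun k _ => ?_
    rw [cfc_const_mul .., cfc_sub .., cfc_pow_id (R := ℂ) .., cfc_pow .., cfc_star_id (R := ℂ) ..]
  rw [e]
  refine norm_cfc_le (by norm_num) fun z hz => ?_
  exact norm_saw_le (spectrum.norm_eq_one_of_unitary u.2 hz) K

variable {V : Type*} [NormedAddCommGroup V] [InnerProductSpace ℂ V]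
  (Φ : A →ₗ⋆[ℂ] A →ₗ[ℂ] ℂ) (e : A →ₗ[ℂ] V)

/-- The Fejér sum of `u` of order `n`, before squaring. -/
noncomputable def fs (u : A) (n : ℕ) (z : ℂ) : A := ∑ i ∈ range n, z ^ i • u ^ i

/-- The sawtooth sum. -/
noncomputable def saw (u : A) (K : ℕ) (z : ℂ) : A :=
  ∑ k ∈ Icc 1 K, (k : ℂ)⁻¹ • ((z • u) ^ k - star (z • u) ^ k)

lemma sum_form (u : unitary A) {M K n : ℕ} {ω : ℂ} (hω : IsPrimitiveRoot ω M) (hKn : K ≤ n)
    (hM : n + K < M) :
    ∑ j ∈ range M, Φ (star (fs (u : A) n (ω ^ j)) * fs (u : A) n (ω ^ j)) (saw (u : A) K (ω ^ j)) =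
      (M : ℂ) * ∑ k ∈ Icc 1 K, (k : ℂ)⁻¹ * (((n : ℂ) - k) *
        (Φ ((u : A) ^ k) ((u : A) ^ k) - Φ (star (u : A) ^ k) (star (u : A) ^ k))) := by
  have hsu : ∀ k, star (u : A) ^ k = star ((u : A) ^ k) := fun k => (star_pow _ _).symm
  have hp : ∀ p k, star ((u : A) ^ p) * (u : A) ^ (p + k) = (u : A) ^ k := fun p k => by
    rw [P104.Fejer.star_pow_mul_pow u (Nat.le_add_right p k), Nat.add_sub_cancel_left]
  have hq : ∀ q k, star ((u : A) ^ (q + k)) * (u : A) ^ q = star ((u : A) ^ k) := fun q k => by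
    rw [← star_star (star ((u : A) ^ (q + k)) * (u : A) ^ q), star_mul, star_star, hp]
  set g := fun k => Φ ((u : A) ^ k) ((u : A) ^ k)
  set g' := fun k => Φ (star ((u : A) ^ k)) (star ((u : A) ^ k))
  set X := fun p q => star ((u : A) ^ p) * (u : A) ^ q
  have expand : ∀ z : ℂ, Φ (star (fs (u : A) n z) * fs (u : A) n z) (saw (u : A) K z) =
      ∑ k ∈ Icc 1 K, ∑ p ∈ range n, ∑ q ∈ range n, (k : ℂ)⁻¹ *
        (conj z ^ q * z ^ (p + k) * Φ (X p q) ((u : A) ^ k) -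
          conj z ^ (q + k) * z ^ p * Φ (X p q) (star ((u : A) ^ k))) := by
    intro z
    simp only [fs, saw, star_sum, star_smul, smul_pow, Finset.sum_mul, smul_mul_smul_comm,
      map_sum, map_smulₛₗ, LinearMap.sum_apply, LinearMap.smul_apply, map_sub,
      smul_eq_mul, Finset.mul_sum, RCLike.star_def, map_pow, map_mul, Complex.conj_conj,
      RingHom.id_apply, ← star_pow, X]
    refine sum_congr rfl fun k _ => ?_
    rw [sum_comm]
    refine Eq.trans (congrArg (fun t => (k : ℂ)⁻¹ * (_ - t)) sum_comm) ?_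
    rw [← sum_sub_distrib, Finset.mul_sum]
    refine sum_congr rfl fun p _ => ?_
    rw [← sum_sub_distrib, Finset.mul_sum]
    refine sum_congr rfl fun q _ => ?_
    ring
  simp only [expand]
  rw [sum_comm, Finset.mul_sum]
  refine sum_congr rfl fun k hk => ?_
  rw [Finset.mem_Icc] at hk
  have h1 : ∀ p < n, ∀ q < n, (∑ j ∈ range M, (k : ℂ)⁻¹ *
        (conj (ω ^ j) ^ q * (ω ^ j) ^ (p + k) * Φ (X p q) ((u : A) ^ k) -
          conj (ω ^ j) ^ (q + k) * (ω ^ j) ^ p * Φ (X p q) (star ((u : A) ^ k)))) =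
      (k : ℂ)⁻¹ * ((if q = p + k then (M : ℂ) * g k else 0) -
        if q + k = p then (M : ℂ) * g' k else 0) := by
    intro p hp' q hq'
    rw [← Finset.mul_sum, sum_sub_distrib, ← Finset.sum_mul, ← Finset.sum_mul,
      orth hω (by omega) (by omega), orth hω (by omega) (by omega)]
    congr 2
    · rcases eq_or_ne q (p + k) with h | h
      · rw [if_pos h, if_pos h, h]; simp only [X, g, hp]
      · rw [if_neg h, if_neg h, zero_mul]
    · rcases eq_or_ne (q + k) p with h | h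
      · rw [if_pos h, if_pos h, ← h]; simp only [X, g', hq]
      · rw [if_neg h, if_neg h, zero_mul]
  rw [sum_comm]
  rw [sum_congr rfl fun p hp' => (sum_comm.trans (sum_congr rfl fun q hq' =>
    h1 p (mem_range.1 hp') q (mem_range.1 hq')))]
  simp only [← Finset.mul_sum, sum_sub_distrib]
  have c1 : ∑ p ∈ range n, ∑ q ∈ range n, (if q = p + k then (M : ℂ) * g k else 0) =
      ((n - k : ℕ) : ℂ) * ((M : ℂ) * g k) := by
    simp only [sum_ite_eq', mem_range]
    rw [← sum_filter, show (range n).filter (fun p => p + k < n) = range (n - k) by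
      ext p; simp only [mem_filter, mem_range]; omega, sum_const, card_range, nsmul_eq_mul]
  have c2 : ∑ p ∈ range n, ∑ q ∈ range n, (if q + k = p then (M : ℂ) * g' k else 0) =
      ((n - k : ℕ) : ℂ) * ((M : ℂ) * g' k) := by
    rw [sum_comm]
    simp only [sum_ite_eq, mem_range]
    rw [← sum_filter, show (range n).filter (fun p => p + k < n) = range (n - k) by
      ext p; simp only [mem_filter, mem_range]; omega, sum_const, card_range, nsmul_eq_mul]
  rw [c1, c2, Nat.cast_sub (by omega : k ≤ n), hsu]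
  ring

theorem log_mean_le (u : unitary A) {c : ℝ} (hc : 0 ≤ c)
    (hΦ : ∀ S B, ‖Φ (star S * S) B‖ ≤ c * ‖e S‖ ^ 2 * ‖B‖)
    (he : ∀ p : ℕ, ‖e ((u : A) ^ p)‖ ≤ 1) (K : ℕ) :
    ‖∑ k ∈ Icc 1 K, (k : ℂ)⁻¹ *
        (Φ ((u : A) ^ k) ((u : A) ^ k) - Φ (star (u : A) ^ k) (star (u : A) ^ k))‖ ≤ 30 * c := by
  rcases Nat.eq_zero_or_pos K with hK | hK
  · subst hK; simp [hc]
  set M := 3 * K + 1 with hMdef
  set ω := Complex.exp (2 * Real.pi * Complex.I / M) with hωdef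
  have hω : IsPrimitiveRoot ω M := Complex.isPrimitiveRoot_exp M (by omega)
  have hz : ∀ j, ‖ω ^ j‖ = 1 := fun j => by rw [norm_pow, hω.norm'_eq_one (by omega), one_pow]
  have hsaw : ∀ j, ‖saw (u : A) K (ω ^ j)‖ ≤ 10 := fun j => by
    have hu : ω ^ j • (u : A) ∈ unitary A := by
      have h1 : star (ω ^ j) * ω ^ j = 1 := by
        rw [RCLike.star_def, Complex.conj_mul', hz]; simp
      refine Unitary.mem_iff.2 ⟨?_, ?_⟩
      · rw [star_smul, smul_mul_smul_comm, h1, Unitary.coe_star_mul_self, one_smul]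
      · rw [star_smul, smul_mul_smul_comm, mul_comm, h1, Unitary.mul_star_self_of_mem u.2, one_smul]
    exact norm_saw_unitary_le ⟨_, hu⟩ K
  have hb : ∀ n ≤ M, ‖∑ j ∈ range M, Φ (star (fs (u : A) n (ω ^ j)) * fs (u : A) n (ω ^ j))
      (saw (u : A) K (ω ^ j))‖ ≤ M * (n * (10 * c)) := by
    intro n hn
    refine (norm_sum_le_of_le _ fun j _ => (hΦ _ _).trans (mul_le_mul_of_nonneg_left (hsaw j)
      (mul_nonneg hc (sq_nonneg _)))).trans ?_
    rw [← Finset.sum_mul, ← Finset.mul_sum]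
    have h1 : ∑ j ∈ range M, ‖e (fs (u : A) n (ω ^ j))‖ ^ 2 ≤ M * n := by
      simp only [fs, map_sum, map_smul]
      rw [sum_norm_sq hω hn fun i => e ((u : A) ^ i)]
      gcongr
      refine (Finset.sum_le_card_nsmul _ _ 1 fun i _ => ?_).trans (by simp)
      exact pow_le_one₀ (norm_nonneg _) (he i)
    nlinarith
  set T := ∑ k ∈ Icc 1 K, (k : ℂ)⁻¹ *
      (Φ ((u : A) ^ k) ((u : A) ^ k) - Φ (star (u : A) ^ k) (star (u : A) ^ k))
  have key : ((M : ℂ) * K) * T =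
      (∑ j ∈ range M, Φ (star (fs (u : A) (2 * K) (ω ^ j)) * fs (u : A) (2 * K) (ω ^ j))
        (saw (u : A) K (ω ^ j))) -
      ∑ j ∈ range M, Φ (star (fs (u : A) K (ω ^ j)) * fs (u : A) K (ω ^ j))
        (saw (u : A) K (ω ^ j)) := by
    rw [sum_form Φ u hω (by omega) (by omega), sum_form Φ u hω le_rfl (by omega), mul_assoc,
      ← mul_sub, ← sum_sub_distrib, Finset.mul_sum]
    congr 1
    refine sum_congr rfl fun k _ => ?_
    push_cast; ring
  have h1 := norm_sub_le_norm_sub_add_norm_sub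
    (∑ j ∈ range M, Φ (star (fs (u : A) (2 * K) (ω ^ j)) * fs (u : A) (2 * K) (ω ^ j))
        (saw (u : A) K (ω ^ j))) 0
    (∑ j ∈ range M, Φ (star (fs (u : A) K (ω ^ j)) * fs (u : A) K (ω ^ j))
        (saw (u : A) K (ω ^ j)))
  rw [← key, sub_zero, zero_sub, norm_neg, norm_mul, norm_mul, Complex.norm_natCast,
    Complex.norm_natCast] at h1
  have h2 := hb (2 * K) (by omega)
  have h3 := hb K (by omega)
  have hMK : (0 : ℝ) < (M : ℝ) * K := by positivity
  refine le_of_mul_le_mul_left ?_ hMK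
  push_cast at h2
  nlinarith

end Operator

end Vale.Agent.P082.Scalar

namespace Vale.Agent.P082

open Finset
open scoped InnerProductSpace

universe u v

variable {A : Type u} {V : Type v} [CStarAlgebra A] [NormedAddCommGroup V] [InnerProductSpace ℂ V]

/-- The form of a map between two unitaries, as a sesquilinear map. -/
noncomputable def Tr.formL (T : Tr A V) (F : A →L[ℂ] A) (z G h : A) : A →ₗ⋆[ℂ] A →ₗ[ℂ] ℂ :=
  LinearMap.mk₂'ₛₗ (starRingEnd ℂ) (RingHom.id ℂ)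
    (fun a b => T.tr (z * star (G * a * h) * F (G * b * h)))
    (fun a₁ a₂ b => by
      simp only [Tr.tr, mul_add, add_mul, star_add, map_add, inner_add_right])
    (fun c a b => by
      simp only [Tr.tr, mul_smul_comm, smul_mul_assoc, star_smul, map_smul, inner_smul_right,
        smul_eq_mul, RCLike.star_def])
    (fun a b₁ b₂ => by
      simp only [Tr.tr, mul_add, add_mul, map_add, inner_add_right])
    (fun c a b => by
      simp only [Tr.tr, mul_smul_comm, smul_mul_assoc, map_smul, inner_smul_right, smul_eq_mul,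
        RingHom.id_apply])

lemma norm_unitary_coe_le {w : A} (hw : w ∈ unitary A) : ‖w‖ ≤ 1 := by
  have h1 := CStarRing.norm_star_mul_self (x := w)
  rw [Unitary.star_mul_self_of_mem hw] at h1
  nlinarith [norm_nonneg w, P104.Fejer.norm_one_le (A := A)]

theorem scalarOut (T : Tr A V) : T.ScalarOut := by
  intro F z G h u K
  have hG : ∀ w : unitary A, ‖(w : A)‖ ≤ 1 := fun w => norm_unitary_coe_le w.2
  have hΦ : ∀ S B, ‖T.formL F z (G : A) (h : A) (star S * S) B‖ ≤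
      ‖F‖ * ‖z‖ * ‖T.e S‖ ^ 2 * ‖B‖ := by
    intro S B
    set Y := F ((G : A) * B * (h : A))
    set W := star (G : A) * Y * z * star (h : A) with hW
    have e1 : T.formL F z (G : A) (h : A) (star S * S) B = ⟪T.e S, T.e (S * W)⟫_ℂ := by
      show ⟪T.e 1, T.e (z * star ((G : A) * (star S * S) * (h : A)) * Y)⟫_ℂ = _
      rw [T.inner_eq S, hW]
      simp only [star_mul, star_star, mul_assoc]
      rw [← mul_assoc z, T.comm (z * star (h : A))]
      simp only [mul_assoc]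
    have e2 : ‖W‖ ≤ ‖F‖ * ‖B‖ * ‖z‖ := by
      have h1 : ‖star (G : A)‖ ≤ 1 := by rw [norm_star]; exact hG G
      have h2 : ‖star (h : A)‖ ≤ 1 := by rw [norm_star]; exact hG h
      have h3 : ‖Y‖ ≤ ‖F‖ * ‖B‖ := by
        refine (F.le_opNorm _).trans (mul_le_mul_of_nonneg_left ?_ (norm_nonneg _))
        calc ‖(G : A) * B * (h : A)‖ ≤ ‖(G : A)‖ * ‖B‖ * ‖(h : A)‖ := norm_mul₃_le
          _ ≤ 1 * ‖B‖ * 1 := by gcongr <;> apply hG
          _ = ‖B‖ := by ring
      calc ‖W‖ ≤ ‖star (G : A) * Y * z‖ * ‖star (h : A)‖ := norm_mul_le _ _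
        _ ≤ ‖star (G : A)‖ * ‖Y‖ * ‖z‖ * ‖star (h : A)‖ := by gcongr; exact norm_mul₃_le
        _ ≤ 1 * (‖F‖ * ‖B‖) * ‖z‖ * 1 := by gcongr
        _ = _ := by ring
    rw [e1]
    refine (norm_inner_le_norm _ _).trans ?_
    have h4 := T.mul_le' S W
    calc ‖T.e S‖ * ‖T.e (S * W)‖ ≤ ‖T.e S‖ * (‖T.e S‖ * (‖F‖ * ‖B‖ * ‖z‖)) := by
          refine mul_le_mul_of_nonneg_left (h4.trans ?_) (norm_nonneg _)
          gcongr
      _ = _ := by ring
  have he : ∀ p : ℕ, ‖T.e ((u : A) ^ p)‖ ≤ 1 := fun p => by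
    have h1 := T.mul_le ((u : A) ^ p) 1
    rw [mul_one, T.norm_one, mul_one] at h1
    exact h1.trans (norm_unitary_coe_le (pow_mem u.2 p))
  have key := Scalar.log_mean_le (T.formL F z (G : A) (h : A)) T.e u (by positivity) hΦ he K
  refine le_trans (le_of_eq ?_) (key.trans ?_)
  · refine congrArg _ (sum_congr rfl fun k _ => ?_)
    simp only [Tr.phiU, Tr.phi2, Submonoid.coe_mul, SubmonoidClass.coe_pow, Unitary.coe_star]
    rfl
  · nlinarith [mul_nonneg (norm_nonneg F) (norm_nonneg z)]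

end Vale.Agent.P082
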