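import Vale.Agent.P082.Core.Spec

/-!
# The walk: harmonicity up to `O(1/n)` and a good scale
-/

noncomputable section

namespace Vale.Agent.P082

open scoped BigOperators ComplexConjugate
open Finset

universe u

namespace Walk

variable {G : Type u} [Group G] {Ω : Type}

theorem pathProd_append (a : Ω → G) (l₁ l₂ : List Ω) :
    pathProd a (l₁ ++ l₂) = pathProd a l₂ * pathProd a l₁ := by
  simp [pathProd, List.map_append, List.reverse_append, List.prod_append]

variable [Fintype Ω]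

/-- A path of length `M + d` is a path of length `M` followed by one of length `d`. -/
theorem expect_split {E : Type*} [AddCommMonoid E] [Module NNRat E] (M d : ℕ)
    (f : List Ω → E) :
    (𝔼 w : Fin (M + d) → Ω, f (List.ofFn w)) =
      𝔼 u : Fin M → Ω, 𝔼 v : Fin d → Ω, f (List.ofFn u ++ List.ofFn v) := by
  rw [← Finset.expect_product', Finset.univ_product_univ]
  exact (Fintype.expect_equiv (Fin.appendEquiv M d) _ _ fun uv => by
    rw [show Fin.appendEquiv M d uv = Fin.append uv.1 uv.2 from rfl, List.ofFn_fin_append]).symm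

theorem norm_expect_le' {α : Type*} [Fintype α] (f : α → ℂ) : ‖𝔼 i, f i‖ ≤ 𝔼 i, ‖f i‖ :=
  RCLike.norm_expect_le (K := ℂ)

/-- The mean of `φ` after exactly `i` steps. -/
def stepMean (a : Ω → G) (φ : G → ℂ) (g : G) (i : ℕ) : ℂ :=
  𝔼 w : Fin i → Ω, φ (pathProd a (List.ofFn w) * g)

variable {C : ℝ}

theorem walkH_eq (a : Ω → G) (φ : G → ℂ) (n : ℕ) (g : G) :
    walkH a φ n g = 𝔼 i : Fin n, stepMean a φ g i := rfl

variable [Nonempty Ω]

theorem stepMean_le (a : Ω → G) {φ : G → ℂ} (h : ∀ x, ‖φ x‖ ≤ C) (g : G) (i : ℕ) :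
    ‖stepMean a φ g i‖ ≤ C :=
  (norm_expect_le' _).trans ((Finset.expect_le_expect fun _ _ => h _).trans
    (Fintype.expect_const C).le)

theorem walkH_le (a : Ω → G) {φ : G → ℂ} (h : ∀ x, ‖φ x‖ ≤ C) {n : ℕ} (hn : 0 < n) (g : G) :
    ‖walkH a φ n g‖ ≤ C := by
  have : Nonempty (Fin n) := ⟨⟨0, hn⟩⟩
  have h1 : (𝔼 i : Fin n, ‖stepMean a φ g i‖) ≤ 𝔼 _i : Fin n, C :=
    Finset.expect_le_expect fun (i : Fin n) _ => stepMean_le a h g i
  rw [Fintype.expect_const] at h1
  rw [walkH_eq]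
  exact (norm_expect_le' fun i : Fin n => stepMean a φ g i).trans h1

/-- Moving a window of length `n` by `m`. -/
theorem window_shift {f : ℕ → ℂ} (hf : ∀ i, ‖f i‖ ≤ C) (n m : ℕ) :
    ‖∑ i ∈ range n, f (m + i) - ∑ i ∈ range n, f i‖ ≤ 2 * C * m := by
  induction m with
  | zero => simp
  | succ m ih =>
    have h1 : ∑ i ∈ range n, f (m + 1 + i) - ∑ i ∈ range n, f (m + i) = f (m + n) - f m := by
      rw [← Finset.sum_sub_distrib]
      have := Finset.sum_range_sub (fun i => f (m + i)) n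
      rw [add_zero] at this
      rw [← this]
      exact Finset.sum_congr rfl fun i _ => by rw [add_assoc, add_comm 1 i]
    calc ‖∑ i ∈ range n, f (m + 1 + i) - ∑ i ∈ range n, f i‖
        = ‖(f (m + n) - f m) + (∑ i ∈ range n, f (m + i) - ∑ i ∈ range n, f i)‖ := by
          rw [← h1, sub_add_sub_cancel]
      _ ≤ (C + C) + 2 * C * m :=
          (norm_add_le _ _).trans (add_le_add ((norm_sub_le _ _).trans
            (add_le_add (hf _) (hf _))) ih)
      _ = 2 * C * ((m + 1 : ℕ) : ℝ) := by push_cast; ring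

theorem harmonic (a : Ω → G) {φ : G → ℂ} (h : ∀ x, ‖φ x‖ ≤ C) (n m : ℕ) (x : G) :
    ‖(𝔼 w : Fin m → Ω, walkH a φ n (pathProd a (List.ofFn w) * x)) - walkH a φ n x‖ ≤
      2 * C * m / n := by
  have e : (𝔼 w : Fin m → Ω, walkH a φ n (pathProd a (List.ofFn w) * x)) =
      𝔼 i : Fin n, stepMean a φ x (m + i) := by
    simp only [walkH]
    rw [Finset.expect_comm]
    refine Finset.expect_congr rfl fun i _ => ?_
    rw [stepMean, expect_split m i fun l => φ (pathProd a l * x)]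
    simp only [pathProd_append, mul_assoc]
  rw [e, walkH_eq, Fintype.expect_eq_sum_div_card, Fintype.expect_eq_sum_div_card, ← sub_div,
    norm_div, Fintype.card_fin, RCLike.norm_natCast,
    Fin.sum_univ_eq_sum_range (fun i => stepMean a φ x (m + i)) n,
    Fin.sum_univ_eq_sum_range (fun i => stepMean a φ x i) n]
  exact div_le_div_of_nonneg_right (window_shift (stepMean_le a h x) n m) (Nat.cast_nonneg n)

/-- The second moment of the average after `L` steps. -/
def moment (a : Ω → G) (φ : G → ℂ) (n : ℕ) (g : G) (L : ℕ) : ℝ :=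
  𝔼 w : Fin L → Ω, ‖walkH a φ n (pathProd a (List.ofFn w) * g)‖ ^ 2

omit [Nonempty Ω] in
theorem moment_nonneg (a : Ω → G) (φ : G → ℂ) (n : ℕ) (g : G) (L : ℕ) :
    0 ≤ moment a φ n g L :=
  Finset.expect_nonneg fun _ _ => by positivity

theorem moment_le (a : Ω → G) {φ : G → ℂ} (h : ∀ x, ‖φ x‖ ≤ C) {n : ℕ} (hn : 0 < n) (g : G)
    (L : ℕ) : moment a φ n g L ≤ C ^ 2 :=
  (Finset.expect_le_expect fun _ _ => pow_le_pow_left₀ (norm_nonneg _) (walkH_le a h hn _) 2).trans
    (Fintype.expect_const _).le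

/-- The second moment of the increment over one more stretch of `d` steps. -/
theorem increment_sq (a : Ω → G) {φ : G → ℂ} (h : ∀ x, ‖φ x‖ ≤ C) {n : ℕ} (hn : 0 < n) (g : G)
    (M d : ℕ) :
    (𝔼 w : Fin (M + d) → Ω, ‖walkH a φ n (pathProd a (List.ofFn w) * g) -
        walkH a φ n (pathProd a ((List.ofFn w).take M) * g)‖ ^ 2) ≤
      moment a φ n g (M + d) - moment a φ n g M + 4 * C ^ 2 * d / n := by
  have hC : 0 ≤ C := (norm_nonneg _).trans (h 1)
  rw [moment, moment, expect_split M d (fun l => ‖walkH a φ n (pathProd a l * g) -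
      walkH a φ n (pathProd a (l.take M) * g)‖ ^ 2),
    expect_split M d (fun l => ‖walkH a φ n (pathProd a l * g)‖ ^ 2), ← Finset.expect_sub_distrib]
  have hsplit : ∀ r : ℝ, r = 𝔼 _u : Fin M → Ω, r := fun r => (Fintype.expect_const r).symm
  rw [hsplit (4 * C ^ 2 * d / n), ← Finset.expect_add_distrib]
  refine Finset.expect_le_expect fun u _ => ?_
  have e₁ : ∀ v : Fin d → Ω, (List.ofFn u ++ List.ofFn v).take M = List.ofFn u := fun v =>
    List.take_left' List.length_ofFn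
  have e₂ : ∀ v : Fin d → Ω, pathProd a (List.ofFn u ++ List.ofFn v) * g =
      pathProd a (List.ofFn v) * (pathProd a (List.ofFn u) * g) := fun v => by
    rw [pathProd_append, mul_assoc]
  simp only [e₁, e₂]
  set x := pathProd a (List.ofFn u) * g
  set y := walkH a φ n x
  set f : (Fin d → Ω) → ℂ := fun v => walkH a φ n (pathProd a (List.ofFn v) * x)
  have hf : ‖(𝔼 v, f v) - y‖ ≤ 2 * C * d / n := harmonic a h n d x
  show (𝔼 v, ‖f v - y‖ ^ 2) ≤ (𝔼 v, ‖f v‖ ^ 2) - ‖y‖ ^ 2 + 4 * C ^ 2 * d / n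
  have hlin : (𝔼 v, (f v * conj y).re) = ((𝔼 v, f v) * conj y).re := by
    rw [Finset.expect_mul]
    rw [Fintype.expect_eq_sum_div_card, Fintype.expect_eq_sum_div_card, Complex.div_natCast_re,
      Complex.re_sum]
  have hexp : (𝔼 v, ‖f v - y‖ ^ 2) =
      (𝔼 v, ‖f v‖ ^ 2) + ‖y‖ ^ 2 - 2 * ((𝔼 v, f v) * conj y).re := by
    have : ∀ v, ‖f v - y‖ ^ 2 = ‖f v‖ ^ 2 + ‖y‖ ^ 2 - 2 * (f v * conj y).re := fun v => by
      simp only [Complex.sq_norm, Complex.normSq_sub]
    simp only [this, Finset.expect_sub_distrib, Finset.expect_add_distrib, Fintype.expect_const,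
      ← Finset.mul_expect, hlin]
  have hre : |((𝔼 v, f v) * conj y).re - ‖y‖ ^ 2| ≤ C * (2 * C * d / n) := by
    have e : ((𝔼 v, f v) * conj y).re - ‖y‖ ^ 2 = (((𝔼 v, f v) - y) * conj y).re := by
      rw [sub_mul, Complex.sub_re, Complex.mul_conj, ← Complex.sq_norm, Complex.ofReal_re]
    rw [e, mul_comm C]
    refine (Complex.abs_re_le_norm _).trans ?_
    rw [norm_mul, Complex.norm_conj]
    exact mul_le_mul hf (walkH_le a h hn x) (norm_nonneg _) (by positivity)
  have e4 : 2 * (C * (2 * C * d / n)) = 4 * C ^ 2 * d / n := by ring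
  rw [hexp]
  linarith [(abs_le.1 hre).1]

theorem moment_mono (a : Ω → G) {φ : G → ℂ} (h : ∀ x, ‖φ x‖ ≤ C) {n : ℕ} (hn : 0 < n) (g : G)
    (M d : ℕ) : moment a φ n g M ≤ moment a φ n g (M + d) + 4 * C ^ 2 * d / n := by
  have h0 := increment_sq a h hn g M d
  have h1 : 0 ≤ 𝔼 w : Fin (M + d) → Ω, ‖walkH a φ n (pathProd a (List.ofFn w) * g) -
      walkH a φ n (pathProd a ((List.ofFn w).take M) * g)‖ ^ 2 :=
    Finset.expect_nonneg fun _ _ => by positivity
  linarith

theorem sq_expect_le {α : Type*} [Fintype α] [Nonempty α] (f : α → ℝ) :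
    (𝔼 i, f i) ^ 2 ≤ 𝔼 i, f i ^ 2 := by
  have := Finset.expect_nonneg (s := univ) fun i _ => sq_nonneg (f i - 𝔼 j, f j)
  simp only [sub_sq, Finset.expect_add_distrib, Finset.expect_sub_distrib, Fintype.expect_const,
    ← Finset.expect_mul, ← Finset.mul_expect] at this
  nlinarith

end Walk

open Walk in
theorem walkOut : WalkOut.{u} := by
  intro G _ Ω _ _ a ι _ φ g C hC n hn
  refine ⟨fun i x m => harmonic a (hC i) n m x, fun R S m₀ hR hS => ?_⟩
  set Ms : ℕ → ℕ := fun s => m₀ * R ^ s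
  have hMs : Monotone Ms := fun s t hst => Nat.mul_le_mul_left _ (Nat.pow_le_pow_right hR hst)
  -- the loss between two consecutive scales
  set D : ι → ℕ → ℝ := fun i s => moment a (φ i) n (g i) (Ms (s + 1)) -
    moment a (φ i) n (g i) (Ms s) + 4 * C ^ 2 * ((Ms (s + 1) - Ms s : ℕ) : ℝ) / n
  have hD : ∀ i s, 0 ≤ D i s := fun i s => by
    have := moment_mono a (hC i) hn (g i) (Ms s) (Ms (s + 1) - Ms s)
    rw [Nat.add_sub_cancel' (hMs s.le_succ)] at this
    simp only [D]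
    linarith
  have htot : ∀ i, ∑ s ∈ range S, D i s ≤ C ^ 2 + 4 * C ^ 2 * (Ms S : ℝ) / n := fun i => by
    simp only [D]
    rw [Finset.sum_add_distrib, Finset.sum_range_sub (fun s => moment a (φ i) n (g i) (Ms s)),
      ← Finset.sum_div, ← Finset.mul_sum]
    gcongr ?_ + 4 * C ^ 2 * ?_ / _
    · linarith [moment_le a (hC i) hn (g i) (Ms S), moment_nonneg a (φ i) n (g i) (Ms 0)]
    · rw [← Nat.cast_sum, Finset.sum_range_tsub hMs]
      exact_mod_cast Nat.sub_le _ _
  obtain ⟨s, hs, hsD⟩ : ∃ s ∈ range S, ∑ i, D i s ≤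
      Fintype.card ι * C ^ 2 / S + 12 * Fintype.card ι * C ^ 2 * (Ms S : ℕ) / n := by
    refine Finset.exists_le_of_sum_le (Finset.nonempty_range_iff.2 hS.ne') ?_
    rw [Finset.sum_comm, Finset.sum_const, card_range, nsmul_eq_mul]
    refine (Finset.sum_le_sum fun i _ => htot i).trans ?_
    rw [Finset.sum_const, nsmul_eq_mul, card_univ, mul_add ((Fintype.card ι : ℕ) : ℝ), mul_add,
      mul_div_cancel₀ _ (by positivity : (S : ℝ) ≠ 0)]
    refine add_le_add le_rfl ?_
    rw [← mul_div_assoc, ← mul_div_assoc]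
    gcongr ?_ / _
    have hS1 : (1 : ℝ) ≤ S := by exact_mod_cast hS
    nlinarith [show (0 : ℝ) ≤ (Fintype.card ι : ℝ) * C ^ 2 * (Ms S : ℝ) by positivity]
  refine ⟨s, mem_range.1 hs, fun i L hL hL' => ?_⟩
  refine le_trans ?_ (Real.sqrt_le_sqrt hsD)
  obtain ⟨d, rfl⟩ := Nat.exists_eq_add_of_le hL
  refine Real.le_sqrt_of_sq_le ((sq_expect_le _).trans ((increment_sq a (hC i) hn (g i) _ d).trans
    (le_trans ?_ (Finset.single_le_sum (fun j _ => hD j s) (mem_univ i)))))
  have hL'' : Ms s + d ≤ Ms (s + 1) := by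
    simp only [Ms, pow_succ] at hL' ⊢
    linarith
  obtain ⟨e, he⟩ := Nat.exists_eq_add_of_le hL''
  have h1 := moment_mono a (hC i) hn (g i) (Ms s + d) e
  rw [← he] at h1
  simp only [D]
  have h2 : ((Ms (s + 1) - Ms s : ℕ) : ℝ) = (d : ℝ) + e := by
    rw [he, add_assoc, Nat.add_sub_cancel_left]
    push_cast
    rfl
  rw [h2, mul_add (4 * C ^ 2), add_div]
  linarith

end Vale.Agent.P082
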